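import Mathlib

/-! The Fabius function: a smooth monotone step with `F' x = 2 F (2x) - 2 F (2x - 1)`. -/

set_option autoImplicit false
set_option linter.unusedVariables false

open scoped ContDiff

namespace Crest.Agent.H2.Fabius

open MeasureTheory intervalIntegral

/-- Monotone steps from `0` to `1` on `[0,1]`. -/
def IsStep (G : ℝ → ℝ) : Prop := Monotone G ∧ (∀ x, x ≤ 0 → G x = 0) ∧ (∀ x, 1 ≤ x → G x = 1)

theorem IsStep.nonneg {G : ℝ → ℝ} (h : IsStep G) (x : ℝ) : 0 ≤ G x := by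
  have := h.1 (min_le_left x 0)
  rwa [h.2.1 _ (min_le_right _ _)] at this

theorem IsStep.le_one {G : ℝ → ℝ} (h : IsStep G) (x : ℝ) : G x ≤ 1 := by
  have := h.1 (le_max_left x 1)
  rwa [h.2.2 _ (le_max_right _ _)] at this

/-- The averaging operator. -/
noncomputable def T (G : ℝ → ℝ) (x : ℝ) : ℝ := ∫ u in (0 : ℝ)..1, G (2 * x - u)

theorem ii {G : ℝ → ℝ} (h : Monotone G) (y : ℝ) :
    IntervalIntegrable (fun u => G (y - u)) volume 0 1 :=
  Antitone.intervalIntegrable (fun a b hab => h (by linarith))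

theorem T_mono {G H : ℝ → ℝ} (hG : Monotone G) (hH : Monotone H) (h : ∀ x, G x ≤ H x) (x : ℝ) :
    T G x ≤ T H x :=
  integral_mono_on zero_le_one (ii hG _) (ii hH _) fun u _ => h _

theorem IsStep.T {G : ℝ → ℝ} (h : IsStep G) : IsStep (T G) := by
  refine ⟨fun x y hxy => ?_, fun x hx => ?_, fun x hx => ?_⟩
  · exact integral_mono_on zero_le_one (ii h.1 _) (ii h.1 _) fun u _ => h.1 (by linarith)
  · unfold Fabius.T
    rw [integral_congr (g := fun _ => 0)]
    · simp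
    · intro u hu
      rw [Set.uIcc_of_le zero_le_one] at hu
      exact h.2.1 _ (by linarith [hu.1])
  · unfold Fabius.T
    rw [integral_congr (g := fun _ => 1)]
    · simp
    · intro u hu
      rw [Set.uIcc_of_le zero_le_one] at hu
      exact h.2.2 _ (by linarith [hu.2])

/-- Post-fixed steps. -/
def S : Set (ℝ → ℝ) := {G | IsStep G ∧ ∀ x, G x ≤ T G x}

/-- The Fabius function. -/
noncomputable def F (x : ℝ) : ℝ := sSup ((fun G => G x) '' S)

/-- The lowest step. -/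
noncomputable def H1 (x : ℝ) : ℝ := if 1 ≤ x then 1 else 0

theorem H1_step : IsStep H1 := by
  refine ⟨fun x y hxy => ?_, fun x hx => ?_, fun x hx => ?_⟩
  · unfold H1; split_ifs with h1 h2 <;> linarith
  · unfold H1; rw [if_neg (by linarith)]
  · unfold H1; rw [if_pos hx]

theorem H1_mem : H1 ∈ S := by
  refine ⟨H1_step, fun x => ?_⟩
  unfold H1
  split_ifs with h
  · exact (H1_step.T.2.2 x h).ge
  · exact H1_step.T.nonneg x

theorem bdd (x : ℝ) : BddAbove ((fun G : ℝ → ℝ => G x) '' S) :=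
  ⟨1, by rintro _ ⟨G, hG, rfl⟩; exact hG.1.le_one x⟩

theorem le_F {G : ℝ → ℝ} (hG : G ∈ S) (x : ℝ) : G x ≤ F x := le_csSup (bdd x) ⟨G, hG, rfl⟩

theorem F_le {x c : ℝ} (h : ∀ G ∈ S, G x ≤ c) : F x ≤ c :=
  csSup_le ⟨_, H1, H1_mem, rfl⟩ (by rintro _ ⟨G, hG, rfl⟩; exact h G hG)

theorem F_step : IsStep F := by
  refine ⟨fun x y hxy => F_le fun G hG => (hG.1.1 hxy).trans (le_F hG y), fun x hx => ?_,
    fun x hx => ?_⟩
  · exact le_antisymm (F_le fun G hG => (hG.1.2.1 x hx).le) ((H1_step.nonneg x).trans (le_F H1_mem x))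
  · exact le_antisymm (F_le fun G hG => hG.1.le_one x) ((H1_step.2.2 x hx).ge.trans (le_F H1_mem x))

theorem F_le_T (x : ℝ) : F x ≤ T F x :=
  F_le fun G hG => (hG.2 x).trans (T_mono hG.1.1 F_step.1 (le_F hG) x)

theorem F_eq_T (x : ℝ) : F x = T F x :=
  le_antisymm (F_le_T x) (le_F ⟨F_step.T, T_mono F_step.1 F_step.T.1 F_le_T⟩ x)

theorem F_ii (a b : ℝ) : IntervalIntegrable F volume a b := F_step.1.intervalIntegrable

theorem F_eq (x : ℝ) : F x = ∫ u in (2 * x - 1)..(2 * x), F u := by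
  rw [F_eq_T, T, integral_comp_sub_left]; simp

theorem F_eq' (x : ℝ) : F x = (∫ u in (0 : ℝ)..(2 * x), F u) - ∫ u in (0 : ℝ)..(2 * x - 1), F u := by
  rw [integral_interval_sub_left (F_ii _ _) (F_ii _ _)]; exact F_eq x

theorem F_cont : Continuous F := by
  have h : Continuous fun y => ∫ u in (0 : ℝ)..y, F u := continuous_primitive F_ii 0
  have : F = fun x => (∫ u in (0 : ℝ)..(2 * x), F u) - ∫ u in (0 : ℝ)..(2 * x - 1), F u :=
    funext F_eq'
  rw [this]
  exact (h.comp (by fun_prop)).sub (h.comp (by fun_prop))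

theorem F_hasDerivAt (x : ℝ) : HasDerivAt F (2 * (F (2 * x) - F (2 * x - 1))) x := by
  have h : ∀ y, HasDerivAt (fun y => ∫ u in (0 : ℝ)..y, F u) (F y) y := fun y =>
    (F_cont.integral_hasStrictDerivAt 0 y).hasDerivAt
  have h1 : HasDerivAt (fun x : ℝ => 2 * x) 2 x := by simpa using (hasDerivAt_id x).const_mul 2
  have h2 : HasDerivAt (fun x : ℝ => 2 * x - 1) 2 x := h1.sub_const 1
  have h3 := ((h (2 * x)).comp x h1).sub ((h (2 * x - 1)).comp x h2)
  have : F = fun x => (∫ u in (0 : ℝ)..(2 * x), F u) - ∫ u in (0 : ℝ)..(2 * x - 1), F u :=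
    funext F_eq'
  have h4 : HasDerivAt F (F (2 * x) * 2 - F (2 * x - 1) * 2) x := by
    conv => enter [1]; rw [this]
    exact h3
  exact h4.congr_deriv (by ring)

theorem deriv_F : deriv F = fun x => 2 * (F (2 * x) - F (2 * x - 1)) :=
  funext fun x => (F_hasDerivAt x).deriv

theorem F_contDiff_nat (n : ℕ) : ContDiff ℝ n F := by
  induction n with
  | zero => exact contDiff_zero.2 F_cont
  | succ n ih =>
    rw [Nat.cast_succ, contDiff_succ_iff_deriv]
    refine ⟨fun x => (F_hasDerivAt x).differentiableAt, by simp, ?_⟩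
    rw [deriv_F]
    exact contDiff_const.mul ((ih.comp (by fun_prop)).sub (ih.comp (by fun_prop)))

theorem F_contDiff : ContDiff ℝ ∞ F := contDiff_infty.2 F_contDiff_nat

theorem iteratedDeriv_affine {g : ℝ → ℝ} (hg : ContDiff ℝ ∞ g) (α β : ℝ) (k : ℕ) (x : ℝ) :
    iteratedDeriv k (fun x => g (α * x + β)) x = α ^ k * iteratedDeriv k g (α * x + β) := by
  have h1 : ContDiff ℝ k (fun y => g (y + β)) :=
    (hg.of_le (by exact_mod_cast le_top)).comp (by fun_prop)
  have h2 := congrFun (iteratedDeriv_comp_const_mul h1 α) x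
  rw [iteratedDeriv_comp_add_const] at h2
  exact h2

theorem iteratedDeriv_F (k : ℕ) (x : ℝ) : iteratedDeriv (k + 1) F x =
    2 ^ (k + 1) * (iteratedDeriv k F (2 * x) - iteratedDeriv k F (2 * x - 1)) := by
  rw [iteratedDeriv_succ', deriv_F]
  have h1 : ContDiff ℝ k (fun x => F (2 * x)) := (F_contDiff_nat k).comp (by fun_prop)
  have h2 : ContDiff ℝ k (fun x => F (2 * x - 1)) := (F_contDiff_nat k).comp (by fun_prop)
  have h3 := iteratedDeriv_affine F_contDiff 2 0 k x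
  have h4 := iteratedDeriv_affine F_contDiff 2 (-1) k x
  simp only [add_zero, ← sub_eq_add_neg] at h3 h4
  rw [iteratedDeriv_const_mul_field, iteratedDeriv_fun_sub h1.contDiffAt h2.contDiffAt, h3, h4]
  ring

theorem F_lip (x y : ℝ) : |F x - F y| ≤ 2 * |x - y| := by
  have := Convex.norm_image_sub_le_of_norm_hasDerivWithin_le (𝕜 := ℝ) (f := F)
    (f' := fun x => 2 * (F (2 * x) - F (2 * x - 1))) (C := 2) (s := Set.univ) (x := y) (y := x)
    (fun z _ => (F_hasDerivAt z).hasDerivWithinAt)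
    (fun z _ => by
      rw [Real.norm_eq_abs, abs_le]
      constructor <;> linarith [F_step.nonneg (2 * z), F_step.le_one (2 * z),
        F_step.nonneg (2 * z - 1), F_step.le_one (2 * z - 1)])
    convex_univ trivial trivial
  simpa using this

theorem riemann (m : ℕ) (hm : 0 < m) (y : ℝ) :
    |(m : ℝ)⁻¹ * ∑ i ∈ Finset.range m, F (y - i * (m : ℝ)⁻¹) - F (y / 2)| ≤ 2 / m := by
  have hm' : (0 : ℝ) < m := by exact_mod_cast hm
  have h1 := sum_integral_adjacent_intervals (f := F) (μ := volume)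
    (a := fun k : ℕ => y - k * (m : ℝ)⁻¹) (n := m) (fun k _ => F_ii _ _)
  have h2 : F (y / 2) = - ∫ u in y..(y - 1), F u := by
    rw [F_eq, ← integral_symm]; congr 1 <;> ring
  simp only [Nat.cast_zero, zero_mul, sub_zero, mul_inv_cancel₀ hm'.ne'] at h1
  rw [h2, ← h1, sub_neg_eq_add, Finset.mul_sum, ← Finset.sum_add_distrib]
  refine (Finset.abs_sum_le_sum_abs _ _).trans ?_
  have h3 : ∀ i ∈ Finset.range m, |(m : ℝ)⁻¹ * F (y - i * (m : ℝ)⁻¹) +
      ∫ u in (y - i * (m : ℝ)⁻¹)..(y - ((i + 1 : ℕ) : ℝ) * (m : ℝ)⁻¹), F u| ≤ 2 / m * (m : ℝ)⁻¹ := by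
    intro i _
    have h4 := norm_integral_le_of_norm_le_const (f := fun u => F u - F (y - i * (m : ℝ)⁻¹))
      (a := y - i * (m : ℝ)⁻¹) (b := y - ((i + 1 : ℕ) : ℝ) * (m : ℝ)⁻¹) (C := 2 / m) (by
        intro u hu
        have hle : y - ((i + 1 : ℕ) : ℝ) * (m : ℝ)⁻¹ ≤ y - i * (m : ℝ)⁻¹ := by
          push_cast; nlinarith [inv_pos.2 hm']
        rw [Set.uIoc_of_ge hle] at hu
        refine (F_lip _ _).trans ?_
        have : |u - (y - i * (m : ℝ)⁻¹)| ≤ (m : ℝ)⁻¹ := by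
          rw [abs_le]; push_cast at hu; constructor <;> nlinarith [hu.1, hu.2, inv_pos.2 hm']
        rw [div_eq_mul_inv]; linarith)
    rw [integral_sub (F_ii _ _) (by simp), intervalIntegral.integral_const] at h4
    have h5 : y - ((i + 1 : ℕ) : ℝ) * (m : ℝ)⁻¹ - (y - i * (m : ℝ)⁻¹) = -(m : ℝ)⁻¹ := by
      push_cast; ring
    rw [h5, abs_neg, abs_of_pos (inv_pos.2 hm'), Real.norm_eq_abs, smul_eq_mul] at h4
    convert h4 using 2
    ring
  refine (Finset.sum_le_sum h3).trans ?_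
  rw [Finset.sum_const, Finset.card_range, nsmul_eq_mul]
  field_simp
  rfl

/-- Rational approximations of `F`. -/
def ap (m : ℕ) : ℕ → ℚ → ℚ
  | 0, x => if 0 ≤ x then 1 else 0
  | N + 1, x => (m : ℚ)⁻¹ * ((List.range m).map fun i : ℕ => ap m N (2 * x - i * (m : ℚ)⁻¹)).sum

theorem ap_succ (m N : ℕ) (x : ℚ) : (ap m (N + 1) x : ℝ) =
    (m : ℝ)⁻¹ * ∑ i ∈ Finset.range m, (ap m N (2 * x - i * (m : ℚ)⁻¹) : ℝ) := by
  have : ((List.range m).map fun i : ℕ => ap m N (2 * x - i * (m : ℚ)⁻¹)).sum =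
      ∑ i ∈ Finset.range m, ap m N (2 * x - i * (m : ℚ)⁻¹) := rfl
  rw [ap, this]
  push_cast; rfl

theorem ap_bounds (m : ℕ) (hm : 0 < m) (N : ℕ) (x : ℚ) :
    F x - N * (2 / m) ≤ ap m N x ∧ (ap m N x : ℝ) ≤ F (x + 1 / 2 ^ N) + N * (2 / m) := by
  have hm' : (0 : ℝ) < m := by exact_mod_cast hm
  induction N generalizing x with
  | zero =>
    simp only [ap, Nat.cast_zero, zero_mul, sub_zero, pow_zero, div_one, add_zero]
    split_ifs with h
    · have : (0 : ℝ) ≤ x := by exact_mod_cast h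
      rw [F_step.2.2 (x + 1) (by linarith)]
      simpa using F_step.le_one x
    · have : (x : ℝ) < 0 := by exact_mod_cast not_le.1 h
      rw [F_step.2.1 x this.le]
      simpa using F_step.nonneg _
  | succ N ih =>
    rw [ap_succ]
    have hc : (m : ℝ)⁻¹ * ∑ i ∈ Finset.range m, (N * (2 / m) : ℝ) = N * (2 / m) := by
      rw [Finset.sum_const, Finset.card_range, nsmul_eq_mul]; field_simp
    constructor
    · have h1 := (abs_le.1 (riemann m hm (2 * x))).1
      have h2 : ∑ i ∈ Finset.range m, (F (2 * x - i * (m : ℝ)⁻¹) - N * (2 / m)) ≤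
          ∑ i ∈ Finset.range m, (ap m N (2 * x - i * (m : ℚ)⁻¹) : ℝ) :=
        Finset.sum_le_sum fun i _ => by
          have := (ih (2 * x - i * (m : ℚ)⁻¹)).1
          push_cast at this; exact this
      have h3 := mul_le_mul_of_nonneg_left h2 (inv_pos.2 hm').le
      rw [Finset.sum_sub_distrib, mul_sub, hc] at h3
      rw [show (2 * (x : ℝ)) / 2 = x by ring] at h1
      push_cast; linarith
    · have h1 := (abs_le.1 (riemann m hm (2 * x + 1 / 2 ^ N))).2
      have h2 : ∑ i ∈ Finset.range m, (ap m N (2 * x - i * (m : ℚ)⁻¹) : ℝ) ≤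
          ∑ i ∈ Finset.range m, (F (2 * x + 1 / 2 ^ N - i * (m : ℝ)⁻¹) + N * (2 / m)) :=
        Finset.sum_le_sum fun i _ => by
          have := (ih (2 * x - i * (m : ℚ)⁻¹)).2
          push_cast at this
          rw [show (2 * (x : ℝ) + 1 / 2 ^ N - i * (m : ℝ)⁻¹) = 2 * x - i * (m : ℝ)⁻¹ + 1 / 2 ^ N by ring]
          exact this
      have h3 := mul_le_mul_of_nonneg_left h2 (inv_pos.2 hm').le
      rw [Finset.sum_add_distrib, mul_add, hc] at h3
      rw [show (2 * (x : ℝ) + 1 / 2 ^ N) / 2 = x + 1 / 2 ^ (N + 1) by ring] at h1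
      push_cast; linarith

theorem ap_err (m : ℕ) (hm : 0 < m) (N : ℕ) (x : ℚ) :
    |F x - ap m N x| ≤ N * (2 / m) + 2 / 2 ^ N := by
  obtain ⟨h1, h2⟩ := ap_bounds m hm N x
  have h3 := (abs_le.1 (F_lip (x + 1 / 2 ^ N) x)).2
  rw [add_sub_cancel_left, abs_of_pos (by positivity)] at h3
  have : (0 : ℝ) < 2 / 2 ^ N := by positivity
  rw [abs_le]; constructor
  · have : (2 : ℝ) * (1 / 2 ^ N) = 2 / 2 ^ N := by ring
    linarith
  · linarith

theorem ap_err' (n : ℕ) (x : ℚ) :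
    |F x - ap ((4 * (n + 1)) * (4 * (n + 1))) (4 * (n + 1)) x| ≤ 1 / ((n : ℝ) + 1) := by
  refine (ap_err _ (by positivity) _ x).trans ?_
  have h1 : ((4 * (n + 1) : ℕ) : ℝ) ≤ 2 ^ (4 * (n + 1)) := by
    exact_mod_cast (Nat.lt_two_pow_self).le
  have h2 : (2 : ℝ) / 2 ^ (4 * (n + 1)) ≤ 2 / ((4 * (n + 1) : ℕ) : ℝ) :=
    div_le_div_of_nonneg_left (by norm_num) (by positivity) h1
  refine (add_le_add le_rfl h2).trans (le_of_eq ?_)
  push_cast; field_simp; ring

theorem iteratedDeriv_F_bound (k : ℕ) (x : ℝ) : |iteratedDeriv k F x| ≤ 2 ^ ((k + 1) * (k + 1)) := by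
  induction k generalizing x with
  | zero =>
    simp only [iteratedDeriv_zero]
    rw [abs_le]; constructor <;> norm_num <;> linarith [F_step.nonneg x, F_step.le_one x]
  | succ k ih =>
    rw [iteratedDeriv_F, abs_mul, abs_of_pos (by positivity)]
    have h1 := abs_sub (iteratedDeriv k F (2 * x)) (iteratedDeriv k F (2 * x - 1))
    have h2 : |iteratedDeriv k F (2 * x) - iteratedDeriv k F (2 * x - 1)| ≤
        2 * 2 ^ ((k + 1) * (k + 1)) := by linarith [ih (2 * x), ih (2 * x - 1)]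
    refine (mul_le_mul_of_nonneg_left h2 (by positivity)).trans ?_
    rw [← pow_succ', ← pow_add]
    exact pow_le_pow_right₀ (by norm_num) (by nlinarith)

end Crest.Agent.H2.Fabius
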