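import Crest.Agent.H2.PRat
import Crest.Agent.H2.Fabius

/-! Effectively approximable real families and effective smooth functions of one variable. -/

set_option autoImplicit false
set_option linter.unusedVariables false

open scoped ContDiff

namespace Crest.Agent.H2.Eff

open Primrec Crest.Agent.H2.PRat Crest.Agent.H2.Fabius

/-- A real family that is primitive recursively approximable by rationals. -/
def Approx {α : Type} [Primcodable α] (f : α → ℝ) : Prop :=
  ∃ e : α × ℕ → ℚ, Primrec e ∧ ∀ a n, |f a - e (a, n)| ≤ 1 / ((n : ℝ) + 1)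

section
variable {α β : Type} [Primcodable α] [Primcodable β]

theorem Approx.comp {f : α → ℝ} (hf : Approx f) {g : β → α} (hg : Primrec g) :
    Approx fun b => f (g b) := by
  obtain ⟨e, he, h⟩ := hf
  exact ⟨fun p => e (g p.1, p.2), he.comp ((hg.comp fst).pair snd), fun b n => h _ _⟩

theorem Approx.ofRat {r : α → ℚ} (hr : Primrec r) : Approx fun a => (r a : ℝ) :=
  ⟨fun p => r p.1, hr.comp fst, fun a n => by simp; positivity⟩

theorem Approx.of_eq {f g : α → ℝ} (hf : Approx f) (h : ∀ a, f a = g a) : Approx g := by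
  rwa [← funext h]

theorem Approx.add {f g : α → ℝ} (hf : Approx f) (hg : Approx g) : Approx fun a => f a + g a := by
  obtain ⟨e, he, h⟩ := hf
  obtain ⟨e', he', h'⟩ := hg
  have hp : Primrec fun p : α × ℕ => (p.1, 2 * p.2 + 1) := fst.pair (nat_double_succ.comp snd)
  refine ⟨fun p => e (p.1, 2 * p.2 + 1) + e' (p.1, 2 * p.2 + 1),
    rat_add.comp (he.comp hp) (he'.comp hp), fun a n => ?_⟩
  have h1 := h a (2 * n + 1)
  have h2 := h' a (2 * n + 1)
  have h3 : 1 / (((2 * n + 1 : ℕ) : ℝ) + 1) = (1 / ((n : ℝ) + 1)) / 2 := by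
    push_cast; field_simp; ring
  rw [h3] at h1 h2
  push_cast
  rw [abs_le] at *
  constructor <;> linarith [h1.1, h1.2, h2.1, h2.2]

theorem abs_rat_le (q : ℚ) : |(q : ℝ)| ≤ (q.num.natAbs : ℝ) := by
  have h1 : (q : ℝ) = (q.num : ℝ) / (q.den : ℝ) := by exact_mod_cast (Rat.num_div_den q).symm
  have h2 : (1 : ℝ) ≤ q.den := by exact_mod_cast q.pos
  rw [h1, abs_div, abs_of_pos (by linarith : (0 : ℝ) < q.den), Nat.cast_natAbs, Int.cast_abs]
  exact div_le_self (abs_nonneg _) h2

theorem Approx.bound {f : α → ℝ} (hf : Approx f) :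
    ∃ b : α → ℕ, Primrec b ∧ ∀ a, |f a| ≤ b a := by
  obtain ⟨e, he, h⟩ := hf
  refine ⟨fun a => (e (a, 0)).num.natAbs + 1,
    succ.comp (int_natAbs.comp (rat_num.comp (he.comp (Primrec.id.pair (const 0))))), fun a => ?_⟩
  have h1 := h a 0
  have h2 := abs_rat_le (e (a, 0))
  have h3 := abs_sub_abs_le_abs_sub (f a) (e (a, 0))
  push_cast at *
  linarith

theorem Approx.mul {f g : α → ℝ} (hf : Approx f) (hg : Approx g) : Approx fun a => f a * g a := by
  obtain ⟨b, hb, hfb⟩ := hf.bound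
  obtain ⟨b', hb', hgb⟩ := hg.bound
  obtain ⟨e, he, h⟩ := hf
  obtain ⟨e', he', h'⟩ := hg
  have hp : Primrec fun p : α × ℕ => (p.1, (p.2 + 1) * (b p.1 + b' p.1 + 1)) :=
    fst.pair (nat_mul.comp (succ.comp snd) (succ.comp (nat_add.comp (hb.comp fst) (hb'.comp fst))))
  refine ⟨fun p => e (p.1, (p.2 + 1) * (b p.1 + b' p.1 + 1)) * e' (p.1, (p.2 + 1) * (b p.1 + b' p.1 + 1)),
    rat_mul.comp (he.comp hp) (he'.comp hp), fun a n => ?_⟩
  have h1 := h a ((n + 1) * (b a + b' a + 1))
  have h2 := h' a ((n + 1) * (b a + b' a + 1))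
  push_cast at h1 h2 ⊢
  set x := (e (a, (n + 1) * (b a + b' a + 1)) : ℝ)
  set y := (e' (a, (n + 1) * (b a + b' a + 1)) : ℝ)
  set ε := 1 / (((n : ℝ) + 1) * (b a + b' a + 1) + 1) with hε
  have hM : (0 : ℝ) < ((n : ℝ) + 1) * (b a + b' a + 1) := by positivity
  have hε0 : 0 < ε := by positivity
  have hε1 : ε ≤ 1 := by rw [hε, div_le_one (by positivity)]; linarith
  have hε2 : (b a + b' a + 1) * ε ≤ 1 / ((n : ℝ) + 1) := by
    rw [hε, mul_one_div, div_le_div_iff₀ (by positivity) (by positivity)]; nlinarith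
  have hy : |y| ≤ b' a + 1 := by
    have := abs_sub_abs_le_abs_sub y (g a)
    rw [abs_sub_comm] at this; linarith [hgb a]
  have e1 : f a * g a - x * y = f a * (g a - y) + (f a - x) * y := by ring
  rw [e1]
  refine (abs_add_le _ _).trans ?_
  rw [abs_mul, abs_mul]
  have t1 : |f a| * |g a - y| ≤ b a * ε := mul_le_mul (hfb a) h2 (abs_nonneg _) (by positivity)
  have t2 : |f a - x| * |y| ≤ ε * (b' a + 1) := mul_le_mul h1 hy (abs_nonneg _) hε0.le
  linarith

theorem Approx.neg {f : α → ℝ} (hf : Approx f) : Approx fun a => - f a :=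
  ((Approx.ofRat (const (-1 : ℚ))).mul hf).of_eq fun a => by simp

theorem Approx.prod {ι : Type} (s : Finset ι) {f : ι → α → ℝ} (hf : ∀ i, Approx (f i)) :
    Approx fun a => ∏ i ∈ s, f i a := by
  classical
  induction s using Finset.induction_on with
  | empty => exact (Approx.ofRat (const (1 : ℚ))).of_eq fun a => by simp
  | insert i s hi ih => exact ((hf i).mul ih).of_eq fun a => by rw [Finset.prod_insert hi]

end

theorem rat_pow_const (c : ℚ) : Primrec fun k : ℕ => c ^ k :=
  (nat_rec₁ (f := fun _ (x : ℚ) => x * c) 1 (rat_mul.comp snd (const c))).of_eq fun k => by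
    induction k with
    | zero => simp
    | succ k ih => simp only [pow_succ, ← ih]

theorem primrec_ap : Primrec fun p : ℕ × ℕ × ℚ => ap p.1 p.2.1 p.2.2 := by
  refine nat_omega_rec' (fun p : ℕ × ℕ × ℚ => ap p.1 p.2.1 p.2.2) (m := fun p => p.2.1)
    (l := fun p => if p.2.1 = 0 then [] else
      (List.range p.1).map fun i : ℕ => (p.1, p.2.1 - 1, 2 * p.2.2 - i * (p.1 : ℚ)⁻¹))
    (g := fun p L => some (if p.2.1 = 0 then (if 0 ≤ p.2.2 then 1 else 0) else (p.1 : ℚ)⁻¹ * L.sum))
    (fst.comp snd) ?_ ?_ ?_ ?_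
  · refine Primrec.ite (Primrec.eq.comp (fst.comp snd) (const 0)) (const []) ?_
    refine list_map (list_range.comp fst) ?_
    refine (fst.comp fst).pair ((nat_sub.comp (fst.comp (snd.comp fst)) (const 1)).pair ?_)
    exact rat_sub.comp (rat_mul.comp (const 2) (snd.comp (snd.comp fst)))
      (rat_mul.comp (rat_natCast.comp snd) (rat_invNat.comp (fst.comp fst)))
  · refine option_some.comp (Primrec.ite (Primrec.eq.comp (fst.comp (snd.comp fst)) (const 0)) ?_ ?_)
    · exact Primrec.ite (rat_nonneg.comp (snd.comp (snd.comp fst))) (const 1) (const 0)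
    · exact rat_mul.comp (rat_invNat.comp (fst.comp fst)) (rat_list_sum.comp snd)
  · rintro ⟨m, N, x⟩ b' hb'
    dsimp only at hb' ⊢
    split_ifs at hb' with h
    · simp at hb'
    · simp only [List.mem_map] at hb'
      obtain ⟨i, _, rfl⟩ := hb'
      dsimp only; omega
  · rintro ⟨m, N, x⟩
    rcases N with _ | N
    · simp [ap]
    · simp [ap, Function.comp_def]

/-- Rational approximations of the derivatives of `F`. -/
def apD (n : ℕ) : ℕ → ℚ → ℚ
  | 0, x => ap ((4 * (n + 1)) * (4 * (n + 1))) (4 * (n + 1)) x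
  | k + 1, x => 2 ^ (k + 1) * (apD n k (2 * x) - apD n k (2 * x - 1))

theorem primrec_apD : Primrec fun p : ℕ × ℕ × ℚ => apD p.1 p.2.1 p.2.2 := by
  have h4 : Primrec fun n : ℕ => 4 * (n + 1) := nat_mul.comp (const 4) succ
  refine nat_omega_rec' (fun p : ℕ × ℕ × ℚ => apD p.1 p.2.1 p.2.2) (m := fun p => p.2.1)
    (l := fun p => if p.2.1 = 0 then [] else
      [(p.1, p.2.1 - 1, 2 * p.2.2), (p.1, p.2.1 - 1, 2 * p.2.2 - 1)])
    (g := fun p L => some (if p.2.1 = 0 then
      ap ((4 * (p.1 + 1)) * (4 * (p.1 + 1))) (4 * (p.1 + 1)) p.2.2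
      else 2 ^ p.2.1 * (L.getD 0 0 - L.getD 1 0)))
    (fst.comp snd) ?_ ?_ ?_ ?_
  · refine Primrec.ite (Primrec.eq.comp (fst.comp snd) (const 0)) (const []) ?_
    have h1 : Primrec fun p : ℕ × ℕ × ℚ => p.2.1 - 1 := nat_sub.comp (fst.comp snd) (const 1)
    have h2 : Primrec fun p : ℕ × ℕ × ℚ => 2 * p.2.2 := rat_mul.comp (const 2) (snd.comp snd)
    exact list_cons.comp (fst.pair (h1.pair h2))
      (list_cons.comp (fst.pair (h1.pair (rat_sub.comp h2 (const 1)))) (const []))
  · refine option_some.comp (Primrec.ite (Primrec.eq.comp (fst.comp (snd.comp fst)) (const 0)) ?_ ?_)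
    · have h5 : Primrec fun p : (ℕ × ℕ × ℚ) × List ℚ => 4 * (p.1.1 + 1) := h4.comp (fst.comp fst)
      exact primrec_ap.comp ((nat_mul.comp h5 h5).pair (h5.pair (snd.comp (snd.comp fst))))
    · exact rat_mul.comp ((rat_pow_const 2).comp (fst.comp (snd.comp fst)))
        (rat_sub.comp ((list_getD 0).comp snd (const 0)) ((list_getD 0).comp snd (const 1)))
  · rintro ⟨m, N, x⟩ b' hb'
    dsimp only at hb' ⊢
    split_ifs at hb' with h
    · simp at hb'
    · simp only [List.mem_cons, List.not_mem_nil, or_false] at hb'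
      rcases hb' with rfl | rfl <;> dsimp only <;> omega
  · rintro ⟨m, N, x⟩
    rcases N with _ | N
    · simp [apD]
    · simp [apD]

theorem apD_err (n k : ℕ) (x : ℚ) :
    |iteratedDeriv k F x - apD n k x| ≤ 2 ^ ((k + 1) * (k + 1)) * (1 / ((n : ℝ) + 1)) := by
  induction k generalizing x with
  | zero =>
    simp only [iteratedDeriv_zero, apD]
    refine (ap_err' n x).trans ?_
    have : (0 : ℝ) < 1 / ((n : ℝ) + 1) := by positivity
    rw [show (2 : ℝ) ^ ((0 + 1) * (0 + 1)) = 2 by norm_num]; linarith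
  | succ k ih =>
    rw [iteratedDeriv_F, apD]
    have h1 := ih (2 * x)
    have h2 := ih (2 * x - 1)
    push_cast at h1 h2 ⊢
    rw [← mul_sub, abs_mul, abs_of_pos (by positivity)]
    have h3 : |iteratedDeriv k F (2 * x) - iteratedDeriv k F (2 * x - 1) -
        (apD n k (2 * x) - apD n k (2 * x - 1))| ≤
        2 * (2 ^ ((k + 1) * (k + 1)) * (1 / ((n : ℝ) + 1))) := by
      rw [abs_le] at *; constructor <;> linarith [h1.1, h1.2, h2.1, h2.2]
    refine (mul_le_mul_of_nonneg_left h3 (by positivity)).trans ?_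
    rw [← mul_assoc, ← mul_assoc, ← pow_succ, ← pow_add]
    exact mul_le_mul_of_nonneg_right (pow_le_pow_right₀ (by norm_num) (by nlinarith))
      (by positivity)

/-- Effective smooth functions of one real variable. -/
structure Eff1 (g : ℝ → ℝ) : Prop where
  smooth : ContDiff ℝ ∞ g
  approx : Approx fun p : ℕ × ℚ => iteratedDeriv p.1 g p.2
  bound : ∃ b : ℕ → ℕ, Primrec b ∧ ∀ k x, |iteratedDeriv k g x| ≤ b k

theorem eff1_F : Eff1 F := by
  have hb : Primrec fun k : ℕ => 2 ^ ((k + 1) * (k + 1)) :=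
    PRat.nat_pow.comp (const 2) (nat_mul.comp succ succ)
  refine ⟨F_contDiff, ⟨fun p => apD ((p.2 + 1) * 2 ^ ((p.1.1 + 1) * (p.1.1 + 1))) p.1.1 p.1.2, ?_, ?_⟩,
    ⟨_, hb, fun k x => by push_cast; exact iteratedDeriv_F_bound k x⟩⟩
  · exact primrec_apD.comp ((nat_mul.comp (succ.comp snd) (hb.comp (fst.comp fst))).pair fst)
  · rintro ⟨k, x⟩ n
    refine (apD_err _ k x).trans ?_
    push_cast
    rw [mul_one_div, div_le_div_iff₀ (by positivity) (by positivity)]
    nlinarith

theorem Eff1.cd {g : ℝ → ℝ} (hg : Eff1 g) (k : ℕ) : ContDiff ℝ k g :=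
  hg.smooth.of_le (by exact_mod_cast le_top)

theorem Eff1.deriv {g : ℝ → ℝ} (hg : Eff1 g) : Eff1 (deriv g) := by
  obtain ⟨b, hb, h⟩ := hg.bound
  refine ⟨(contDiff_infty_iff_deriv.1 hg.smooth).2, ?_, ⟨fun k => b (k + 1), hb.comp succ, ?_⟩⟩
  · exact (hg.approx.comp (g := fun p : ℕ × ℚ => (p.1 + 1, p.2))
      ((succ.comp fst).pair snd)).of_eq fun p => by rw [iteratedDeriv_succ']
  · intro k x; rw [← iteratedDeriv_succ']; exact h _ _

theorem Eff1.add {f g : ℝ → ℝ} (hf : Eff1 f) (hg : Eff1 g) : Eff1 fun x => f x + g x := by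
  obtain ⟨b, hb, h⟩ := hf.bound
  obtain ⟨b', hb', h'⟩ := hg.bound
  have e : ∀ k x, iteratedDeriv k (fun x => f x + g x) x =
      iteratedDeriv k f x + iteratedDeriv k g x := fun k x =>
    iteratedDeriv_add (hf.cd k).contDiffAt (hg.cd k).contDiffAt
  refine ⟨hf.smooth.add hg.smooth, (hf.approx.add hg.approx).of_eq fun p => (e _ _).symm,
    ⟨fun k => b k + b' k, nat_add.comp hb hb', fun k x => ?_⟩⟩
  rw [e]; push_cast
  exact (abs_add_le _ _).trans (add_le_add (h k x) (h' k x))

theorem Eff1.const_mul {g : ℝ → ℝ} (hg : Eff1 g) (c : ℚ) : Eff1 fun x => (c : ℝ) * g x := by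
  obtain ⟨b, hb, h⟩ := hg.bound
  refine ⟨contDiff_const.mul hg.smooth, ((Approx.ofRat (const c)).mul hg.approx).of_eq fun p =>
    (iteratedDeriv_const_mul_field _ _).symm,
    ⟨fun k => c.num.natAbs * b k, nat_mul.comp (const _) hb, fun k x => ?_⟩⟩
  rw [iteratedDeriv_const_mul_field, abs_mul, Nat.cast_mul]
  exact mul_le_mul (abs_rat_le c) (h k x) (abs_nonneg _) (by positivity)

theorem Eff1.affine {g : ℝ → ℝ} (hg : Eff1 g) (α β : ℚ) :
    Eff1 fun x => g ((α : ℝ) * x + β) := by
  obtain ⟨b, hb, h⟩ := hg.bound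
  refine ⟨hg.smooth.comp (by fun_prop), ?_,
    ⟨fun k => α.num.natAbs ^ k * b k, nat_mul.comp (PRat.nat_pow.comp (const _) Primrec.id) hb,
      fun k x => ?_⟩⟩
  · refine ((Approx.ofRat ((rat_pow_const α).comp fst)).mul
      (hg.approx.comp (g := fun p : ℕ × ℚ => (p.1, α * p.2 + β))
        (fst.pair (rat_add.comp (rat_mul.comp (const α) snd) (const β))))).of_eq fun p => ?_
    rw [iteratedDeriv_affine hg.smooth]; push_cast; rfl
  · rw [iteratedDeriv_affine hg.smooth, abs_mul, abs_pow, Nat.cast_mul, Nat.cast_pow]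
    exact mul_le_mul (pow_le_pow_left₀ (abs_nonneg _) (abs_rat_le α) k) (h k _) (abs_nonneg _)
      (by positivity)

theorem iteratedDeriv_id_mul {g : ℝ → ℝ} (hg : ContDiff ℝ ∞ g) (k : ℕ) (x : ℝ) :
    iteratedDeriv k (fun x => x * g x) x =
      x * iteratedDeriv k g x + k * iteratedDeriv (k - 1) g x := by
  induction k generalizing x with
  | zero => simp
  | succ k ih =>
    rw [iteratedDeriv_succ, funext ih]
    have hd : ∀ j y, HasDerivAt (iteratedDeriv j g) (iteratedDeriv (j + 1) g y) y := fun j y => by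
      rw [iteratedDeriv_succ]
      exact ((hg.differentiable_iteratedDeriv j (by exact_mod_cast WithTop.coe_lt_top _)) y).hasDerivAt
    have := (((hasDerivAt_id x).mul (hd k x)).add ((hd (k - 1) x).const_mul (k : ℝ))).deriv
    refine Eq.trans this ?_
    rcases k with _ | k
    · simp [add_comm]
    · simp; ring

theorem Eff1.id_mul {g : ℝ → ℝ} (hg : Eff1 g) (R : ℕ) (hR : ∀ x : ℝ, (R : ℝ) < |x| → g x = 0) :
    Eff1 fun x => x * g x := by
  obtain ⟨b, hb, h⟩ := hg.bound
  refine ⟨contDiff_id.mul hg.smooth, ?_, ⟨fun k => R * b k + k * b (k - 1),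
    nat_add.comp (nat_mul.comp (const R) hb)
      (nat_mul.comp Primrec.id (hb.comp (nat_sub.comp Primrec.id (const 1)))), fun k x => ?_⟩⟩
  · refine (((Approx.ofRat snd).mul hg.approx).add
      ((Approx.ofRat (rat_natCast.comp fst)).mul
        (hg.approx.comp (g := fun p : ℕ × ℚ => (p.1 - 1, p.2))
          ((nat_sub.comp fst (const 1)).pair snd)))).of_eq fun p => ?_
    rw [iteratedDeriv_id_mul hg.smooth]; push_cast; rfl
  · rw [iteratedDeriv_id_mul hg.smooth]
    push_cast
    refine (abs_add_le _ _).trans (add_le_add ?_ ?_)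
    · by_cases hx : (R : ℝ) < |x|
      · have : g =ᶠ[nhds x] fun _ => 0 := by
          have ho : IsOpen {y : ℝ | (R : ℝ) < |y|} := isOpen_lt continuous_const continuous_abs
          filter_upwards [ho.mem_nhds hx] with y hy using hR y hy
        rw [this.iteratedDeriv_eq k]
        simp
        positivity
      · rw [abs_mul]
        exact mul_le_mul (not_lt.1 hx) (h k x) (abs_nonneg _) (by positivity)
    · rw [abs_mul, Nat.abs_cast]
      exact mul_le_mul_of_nonneg_left (h _ x) (by positivity)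

end Crest.Agent.H2.Eff
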