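import Crest.Prelude.Def_BoxFlow
import Crest.Agent.H2.EffApprox

/-! Separable effective fields and the existence of global flows. -/

set_option autoImplicit false
set_option linter.unusedVariables false

open scoped ContDiff

namespace Crest.Agent.H2.Box

open Crest.AnalysisR.BoxFlow Crest.Agent.H2.Eff Crest.Agent.H2.PRat Primrec

/-- Points of three-space. -/
abbrev V : Type := Fin 3 → ℝ

/-- Space-time coordinates. -/
noncomputable def coord (d : Fin 4) : (ℝ × V) →L[ℝ] ℝ :=
  Fin.cases (ContinuousLinearMap.fst ℝ ℝ V)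
    (fun i => (ContinuousLinearMap.proj i).comp (ContinuousLinearMap.snd ℝ ℝ V)) d

@[simp] theorem coord_zero (p : ℝ × V) : coord 0 p = p.1 := rfl
@[simp] theorem coord_succ (i : Fin 3) (p : ℝ × V) : coord i.succ p = p.2 i := rfl

theorem direction_succ (i : Fin 3) : direction i.succ = (0, Pi.single i 1) := by
  simp [direction, Fin.succ_ne_zero]

theorem coord_direction (d d' : Fin 4) : coord d (direction d') = if d = d' then 1 else 0 := by
  refine Fin.cases ?_ (fun i => ?_) d <;> refine Fin.cases ?_ (fun i' => ?_) d'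
  · simp [direction]
  · simp [direction_succ, (Fin.succ_ne_zero _).symm]
  · simp [direction, Fin.succ_ne_zero]
  · simp [direction_succ, Pi.single_apply]

/-- Product of one-variable functions of the coordinates. -/
noncomputable def prodFn (g : Fin 4 → ℝ → ℝ) (p : ℝ × V) : ℝ := ∏ d, g d (coord d p)

/-- Differentiate one factor. -/
noncomputable def Dg (d : Fin 4) (g : Fin 4 → ℝ → ℝ) : Fin 4 → ℝ → ℝ :=
  Function.update g d (deriv (g d))

theorem prodFn_smooth {g : Fin 4 → ℝ → ℝ} (hg : ∀ d, ContDiff ℝ ∞ (g d)) :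
    ContDiff ℝ ∞ (prodFn g) :=
  contDiff_prod fun d _ => (hg d).comp (coord d).contDiff

theorem fderiv_prodFn {g : Fin 4 → ℝ → ℝ} (hg : ∀ d, ContDiff ℝ ∞ (g d)) (p : ℝ × V) (d : Fin 4) :
    fderiv ℝ (prodFn g) p (direction d) = prodFn (Dg d g) p := by
  have h : ∀ i ∈ (Finset.univ : Finset (Fin 4)),
      HasFDerivAt (fun p => g i (coord i p)) (deriv (g i) (coord i p) • coord i) p := fun i _ =>
    (((hg i).differentiable (by simp)) _).hasDerivAt.comp_hasFDerivAt p (coord i).hasFDerivAt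
  have h2 := (HasFDerivAt.finsetProd h).fderiv
  have h3 : prodFn g = fun p => ∏ i, g i (coord i p) := rfl
  rw [h3, h2]
  simp only [sum_apply, smul_apply, coord_direction,
    smul_eq_mul, mul_ite, mul_one, mul_zero, Finset.sum_ite_eq', Finset.mem_univ, if_true]
  rw [prodFn, ← Finset.prod_erase_mul _ _ (Finset.mem_univ d)]
  congr 1
  · exact Finset.prod_congr rfl fun i hi => by
      rw [Dg, Function.update_of_ne (Finset.ne_of_mem_erase hi)]
  · rw [Dg, Function.update_self]

/-- A separable field. -/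
noncomputable def sep (g : Fin 4 → ℝ → ℝ) (w : Fin 3 → ℚ) : Field :=
  fun p => prodFn g p • ratPoint w

theorem sep_smooth {g : Fin 4 → ℝ → ℝ} (hg : ∀ d, ContDiff ℝ ∞ (g d)) (w : Fin 3 → ℚ) :
    ContDiff ℝ ∞ (sep g w) := (prodFn_smooth hg).smul contDiff_const

theorem fderiv_sep {g : Fin 4 → ℝ → ℝ} (hg : ∀ d, ContDiff ℝ ∞ (g d)) (w : Fin 3 → ℚ)
    (p : ℝ × V) (d : Fin 4) :
    fderiv ℝ (sep g w) p (direction d) = sep (Dg d g) w p := by
  have h := (((prodFn_smooth hg).differentiable (by simp)) p).hasFDerivAt.smul_const (ratPoint w)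
  have h3 : sep g w = fun p => prodFn g p • ratPoint w := rfl
  rw [h3, h.fderiv, ContinuousLinearMap.smulRight_apply, fderiv_prodFn hg]
  rfl

theorem smooth_iteratedDeriv {g : ℝ → ℝ} (hg : ContDiff ℝ ∞ g) (k : ℕ) :
    ContDiff ℝ ∞ (iteratedDeriv k g) := by
  rw [iteratedDeriv_eq_iterate]; exact hg.iterate_deriv k

theorem mixedDeriv_sep {g : Fin 4 → ℝ → ℝ} (hg : ∀ d, ContDiff ℝ ∞ (g d)) (w : Fin 3 → ℚ)
    (ds : List (Fin 4)) :
    mixedDeriv ds (sep g w) = sep (fun d => iteratedDeriv (ds.count d) (g d)) w := by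
  induction ds with
  | nil => simp [mixedDeriv]
  | cons d ds ih =>
    funext p
    rw [mixedDeriv, ih]
    beta_reduce
    rw [fderiv_sep (fun d => smooth_iteratedDeriv (hg d) _)]
    congr 1
    funext d'
    by_cases h : d' = d
    · subst h; rw [Dg, Function.update_self, List.count_cons_self, iteratedDeriv_succ]
    · rw [Dg, Function.update_of_ne h, List.count_cons_of_ne (Ne.symm h)]

theorem mixedDeriv_smooth {U : Field} (hU : ContDiff ℝ ∞ U) (ds : List (Fin 4)) :
    ContDiff ℝ ∞ (mixedDeriv ds U) := by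
  induction ds with
  | nil => exact hU
  | cons d ds ih =>
    exact (ih.fderiv_right (m := ∞) (by simp)).clm_apply contDiff_const

theorem mixedDeriv_add {U W : Field} (hU : ContDiff ℝ ∞ U) (hW : ContDiff ℝ ∞ W)
    (ds : List (Fin 4)) : mixedDeriv ds (U + W) = mixedDeriv ds U + mixedDeriv ds W := by
  induction ds with
  | nil => rfl
  | cons d ds ih =>
    funext p
    rw [mixedDeriv, ih]
    beta_reduce
    rw [fderiv_add (((mixedDeriv_smooth hU ds).differentiable (by simp)) p)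
      (((mixedDeriv_smooth hW ds).differentiable (by simp)) p)]
    rfl

/-- Smooth, compactly supported, primitive recursively effective fields. -/
structure Pre (U : Field) : Prop where
  smooth : ContDiff ℝ ∞ U
  supp : HasCompactSupport U
  approx : ∀ j, Approx fun a : List (Fin 4) × (ℚ × (Fin 3 → ℚ)) =>
    mixedDeriv a.1 U ((a.2.1 : ℝ), ratPoint a.2.2) j
  bound : ∃ b : List (Fin 4) → ℕ, Primrec b ∧ ∀ ds p j, |mixedDeriv ds U p j| ≤ b ds

theorem Pre.add {U W : Field} (hU : Pre U) (hW : Pre W) : Pre (U + W) := by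
  obtain ⟨b, hb, h⟩ := hU.bound
  obtain ⟨b', hb', h'⟩ := hW.bound
  refine ⟨hU.smooth.add hW.smooth, hU.supp.add hW.supp, fun j => ?_,
    ⟨fun ds => b ds + b' ds, nat_add.comp hb hb', fun ds p j => ?_⟩⟩
  · exact ((hU.approx j).add (hW.approx j)).of_eq fun a => by
      rw [mixedDeriv_add hU.smooth hW.smooth]; rfl
  · rw [mixedDeriv_add hU.smooth hW.smooth]; push_cast
    exact (abs_add_le _ _).trans (add_le_add (h ds p j) (h' ds p j))

theorem Pre.effective {U : Field} (hU : Pre U) : Effective U := by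
  choose e he h using hU.approx
  obtain ⟨b, hb, h'⟩ := hU.bound
  refine ⟨fun a j => e j ((a.1, a.2.1), a.2.2), b, ?_, hb.to_comp, fun ds t q n j => h j (ds, t, q) n,
    h'⟩
  apply Primrec.to_comp
  rw [fin_curry]
  refine Primrec₂.swap (f := fun j (a : List (Fin 4) × (ℚ × (Fin 3 → ℚ)) × ℕ) =>
    e j ((a.1, a.2.1), a.2.2)) ?_
  rw [fin_curry₁]
  exact fun j => (he j).comp ((fst.pair (fst.comp snd)).pair (snd.comp snd))

theorem primrec_count (d : Fin 4) : Primrec fun ds : List (Fin 4) => ds.count d :=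
  (list_length.comp (listFilter (p := fun x : Fin 4 => x = d)
    (Primrec.eq.comp Primrec.id (const d)))).of_eq fun ds => by
      rw [List.count_eq_countP, List.countP_eq_length_filter]
      congr 1

theorem primrec_prod {α ι : Type} [Primcodable α] (s : Finset ι) {f : ι → α → ℕ}
    (hf : ∀ i, Primrec (f i)) : Primrec fun a => ∏ i ∈ s, f i a := by
  classical
  induction s using Finset.induction_on with
  | empty => exact (const 1).of_eq fun a => by simp
  | insert i s hi ih => exact (nat_mul.comp (hf i) ih).of_eq fun a => by rw [Finset.prod_insert hi]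

theorem pre_sep {g : Fin 4 → ℝ → ℝ} (hg : ∀ d, Eff1 (g d)) (R : ℝ)
    (hR : ∀ d x, R < |x| → g d x = 0) (w : Fin 3 → ℚ) : Pre (sep g w) := by
  have hs : ∀ d, ContDiff ℝ ∞ (g d) := fun d => (hg d).smooth
  refine ⟨sep_smooth hs w, ?_, fun j => ?_, ?_⟩
  · refine HasCompactSupport.intro (isCompact_closedBall (0 : ℝ × V) (max R 0)) fun p hp => ?_
    have : ∃ d, R < |coord d p| := by
      by_contra hc
      push Not at hc
      apply hp
      rw [mem_closedBall_zero_iff, Prod.norm_def, max_le_iff]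
      refine ⟨(hc 0).trans (le_max_left _ _), ?_⟩
      rw [pi_norm_le_iff_of_nonneg (le_max_right _ _)]
      exact fun i => (hc i.succ).trans (le_max_left _ _)
    obtain ⟨d, hd⟩ := this
    rw [sep, prodFn, Finset.prod_eq_zero (Finset.mem_univ d) (hR d _ hd), zero_smul]
  · let c : Fin 4 → (List (Fin 4) × (ℚ × (Fin 3 → ℚ))) → ℚ :=
      Fin.cases (fun a => a.2.1) (fun i a => a.2.2 i)
    have hc : ∀ d, Primrec (c d) := fun d => by
      refine Fin.cases ?_ (fun i => ?_) d
      · exact fst.comp snd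
      · exact fin_app.comp (snd.comp snd) (const i)
    have hc2 : ∀ d a, coord d ((a.2.1 : ℝ), ratPoint a.2.2) = (c d a : ℝ) := fun d a => by
      refine Fin.cases ?_ (fun i => ?_) d <;> rfl
    refine ((Approx.prod Finset.univ (fun d => (hg d).approx.comp
      (g := fun a => (a.1.count d, c d a)) (((primrec_count d).comp fst).pair (hc d)))).mul
      (Approx.ofRat (const (w j)))).of_eq fun a => ?_
    rw [mixedDeriv_sep hs, sep, prodFn]
    simp only [hc2]
    rfl
  · choose b hb h using fun d => (hg d).bound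
    refine ⟨fun ds => (∏ d, b d (ds.count d)) * ∑ j, (w j).num.natAbs,
      nat_mul.comp (primrec_prod _ fun d => (hb d).comp (primrec_count d)) (const _),
      fun ds p j => ?_⟩
    rw [mixedDeriv_sep hs, sep, prodFn, Pi.smul_apply, smul_eq_mul, abs_mul, Nat.cast_mul]
    refine mul_le_mul ?_ ?_ (abs_nonneg _) (by positivity)
    · rw [Finset.abs_prod, Nat.cast_prod]
      exact Finset.prod_le_prod (fun _ _ => abs_nonneg _) fun d _ => h d _ _
    · refine (abs_rat_le (w j)).trans ?_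
      exact_mod_cast Finset.single_le_sum (f := fun j => (w j).num.natAbs)
        (fun _ _ => Nat.zero_le _) (Finset.mem_univ j)

theorem spaceDiv_add {U W : Field} (hU : ContDiff ℝ ∞ U) (hW : ContDiff ℝ ∞ W) (p : ℝ × V) :
    spaceDiv (U + W) p = spaceDiv U p + spaceDiv W p := by
  unfold spaceDiv
  rw [fderiv_add ((hU.differentiable (by simp)) p) ((hW.differentiable (by simp)) p),
    ← Finset.sum_add_distrib]
  rfl

theorem spaceDiv_sep {g : Fin 4 → ℝ → ℝ} (hg : ∀ d, ContDiff ℝ ∞ (g d)) (j : Fin 3) (c : ℚ)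
    (p : ℝ × V) : spaceDiv (sep g (Pi.single j c)) p = prodFn (Dg j.succ g) p * c := by
  unfold spaceDiv
  simp only [← direction_succ, fderiv_sep hg]
  rw [Finset.sum_eq_single j]
  · simp [sep, ratPoint]
  · intro i _ hi; simp [sep, ratPoint, hi]
  · simp

theorem Dg_smooth {g : Fin 4 → ℝ → ℝ} (hg : ∀ d, ContDiff ℝ ∞ (g d)) (d d' : Fin 4) :
    ContDiff ℝ ∞ (Dg d g d') := by
  by_cases h : d' = d
  · subst h; rw [Dg, Function.update_self]; exact (contDiff_infty_iff_deriv.1 (hg _)).2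
  · rw [Dg, Function.update_of_ne h]; exact hg _

theorem Dg_eff {g : Fin 4 → ℝ → ℝ} (hg : ∀ d, Eff1 (g d)) (d d' : Fin 4) : Eff1 (Dg d g d') := by
  by_cases h : d' = d
  · subst h; rw [Dg, Function.update_self]; exact (hg _).deriv
  · rw [Dg, Function.update_of_ne h]; exact hg _

theorem Dg_comm (g : Fin 4 → ℝ → ℝ) {d d' : Fin 4} (h : d ≠ d') : Dg d (Dg d' g) = Dg d' (Dg d g) := by
  unfold Dg
  rw [Function.update_of_ne h, Function.update_of_ne h.symm, Function.update_comm h.symm]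

theorem Dg_zero {g : Fin 4 → ℝ → ℝ} {d' : Fin 4} {O : Set ℝ} (hO : IsOpen O)
    (h : ∀ x ∈ O, g d' x = 0) (d : Fin 4) : ∀ x ∈ O, Dg d g d' x = 0 := by
  intro x hx
  by_cases hd : d' = d
  · subst hd
    rw [Dg, Function.update_self]
    have : g d' =ᶠ[nhds x] fun _ => 0 := by
      filter_upwards [hO.mem_nhds hx] with y hy using h y hy
    rw [this.deriv_eq]; simp
  · rw [Dg, Function.update_of_ne hd]; exact h x hx

/-- The rotated gradient of a product stream function in the `(j,k)` plane. -/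
noncomputable def curl (g : Fin 4 → ℝ → ℝ) (j k : Fin 3) : Field :=
  sep (Dg k.succ g) (Pi.single j 1) + sep (Dg j.succ g) (Pi.single k (-1))

theorem pre_curl {g : Fin 4 → ℝ → ℝ} (hg : ∀ d, Eff1 (g d)) (R : ℝ)
    (hR : ∀ d x, R < |x| → g d x = 0) (j k : Fin 3) : Pre (curl g j k) := by
  have hO : IsOpen {y : ℝ | R < |y|} := isOpen_lt continuous_const continuous_abs
  exact (pre_sep (Dg_eff hg _) R (fun d x hx => Dg_zero hO (hR d) _ x hx) _).add
    (pre_sep (Dg_eff hg _) R (fun d x hx => Dg_zero hO (hR d) _ x hx) _)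

theorem spaceDiv_curl {g : Fin 4 → ℝ → ℝ} (hg : ∀ d, ContDiff ℝ ∞ (g d)) {j k : Fin 3} (hjk : j ≠ k)
    (p : ℝ × V) : spaceDiv (curl g j k) p = 0 := by
  rw [curl, spaceDiv_add (sep_smooth (Dg_smooth hg _) _) (sep_smooth (Dg_smooth hg _) _),
    spaceDiv_sep (Dg_smooth hg _), spaceDiv_sep (Dg_smooth hg _),
    Dg_comm g (fun h => hjk (Fin.succ_injective _ h))]
  simp

/-! ### Flows -/

theorem exists_lip {U : Field} (hU : ContDiff ℝ ∞ U) (hs : HasCompactSupport U) :
    ∃ K, ∀ t, LipschitzWith K fun x => U (t, x) := by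
  obtain ⟨K, hK⟩ := ContDiff.lipschitzWith_of_hasCompactSupport hs hU (by simp)
  exact ⟨K * 1, fun t => hK.comp (LipschitzWith.prodMk_left t)⟩

theorem exists_traj {U : Field} (hU : ContDiff ℝ ∞ U) (hs : HasCompactSupport U)
    (h0 : ∀ p : ℝ × V, p.1 ∉ Set.Icc (0 : ℝ) 1 → U p = 0) (x : V) :
    ∃ γ : ℝ → V, γ 0 = x ∧ ∀ t, HasDerivAt γ (U (t, γ t)) t := by
  obtain ⟨K, hK⟩ := exists_lip hU hs
  obtain ⟨L, hL⟩ := hs.exists_bound_of_continuous hU.continuous
  have hL0 : 0 ≤ L := (norm_nonneg _).trans (hL 0)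
  have hp : IsPicardLindelof (fun t x => U (t, x)) (tmin := 0) (tmax := 1) ⟨0, by simp⟩ x
      ⟨L, hL0⟩ 0 ⟨L, hL0⟩ K :=
    ⟨fun t _ => (hK t).lipschitzOnWith, fun y _ => (hU.continuous.comp (by fun_prop)).continuousOn,
      fun t _ y _ => hL _, by simp⟩
  obtain ⟨α, hα0, hα⟩ := hp.exists_eq_forall_mem_Icc_hasDerivWithinAt₀
  have hαc : ContinuousOn α (Set.Icc 0 1) := fun t ht => (hα t ht).continuousWithinAt
  let c : ℝ → ℝ := fun s => max 0 (min s 1)
  have hc : ∀ s, c s ∈ Set.Icc (0 : ℝ) 1 := fun s =>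
    ⟨le_max_left _ _, max_le zero_le_one (min_le_right _ _)⟩
  have hc' : ∀ s ∈ Set.Icc (0 : ℝ) 1, c s = s := fun s hs => by
    simp only [c]; rw [min_eq_left hs.2, max_eq_right hs.1]
  have hcc : Continuous c := by fun_prop
  have hh : Continuous fun s => U (s, α (c s)) :=
    hU.continuous.comp (continuous_id.prodMk (hαc.comp_continuous hcc hc))
  let γ : ℝ → V := fun t => x + ∫ s in (0 : ℝ)..t, U (s, α (c s))
  have hγ : ∀ t, HasDerivAt γ (U (t, α (c t))) t := fun t =>
    (hh.integral_hasStrictDerivAt 0 t).hasDerivAt.const_add x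
  have hγ0 : γ 0 = x := by simp [γ]
  have heq : ∀ t ∈ Set.Icc (0 : ℝ) 1, γ t = α t := by
    refine eq_of_has_deriv_right_eq (f' := fun t => U (t, α t)) (fun t ht => ?_) (fun t ht => ?_)
      (fun t _ => (hγ t).continuousAt.continuousWithinAt) hαc (hγ0.trans hα0.symm)
    · have := hγ t
      rw [hc' t ⟨ht.1, ht.2.le⟩] at this
      exact this.hasDerivWithinAt
    · exact (hα t ⟨ht.1, ht.2.le⟩).mono_of_mem_nhdsWithin (Icc_mem_nhdsGE_of_mem ht)
  refine ⟨γ, hγ0, fun t => ?_⟩
  by_cases ht : t ∈ Set.Icc (0 : ℝ) 1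
  · have := hγ t
    rwa [hc' t ht, ← heq t ht] at this
  · have := hγ t
    rw [h0 _ ht] at this
    rwa [h0 _ ht]

theorem traj_unique {U : Field} (hU : ContDiff ℝ ∞ U) (hs : HasCompactSupport U) {γ δ : ℝ → V}
    (hγ : ∀ t, HasDerivAt γ (U (t, γ t)) t) (hδ : ∀ t, HasDerivAt δ (U (t, δ t)) t)
    (h0 : γ 0 = δ 0) : γ = δ := by
  obtain ⟨K, hK⟩ := exists_lip hU hs
  exact ODE_solution_unique_univ (v := fun t x => U (t, x)) (s := fun _ => Set.univ)
    (fun t => (hK t).lipschitzOnWith) (fun t => ⟨hγ t, trivial⟩) (fun t => ⟨hδ t, trivial⟩) h0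

end Crest.Agent.H2.Box
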