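import Crest.Agent.H2.BoxMove

/-! Chains of elementary moves: separating boxes, canonical position, and rescaling. -/

set_option autoImplicit false
set_option linter.unusedVariables false

namespace Crest.Agent.H2.Box

open Crest.AnalysisR.BoxFlow

theorem Elem1.symm {K S : Set V} {p q : V → V} (h : Elem1 K S p q) : Elem1 K S q p := by
  obtain ⟨hp, hq, j, k, α, β, l, u, ε, hjk, hε, hlu, hsh, hpK, hqK, hS⟩ := h
  refine ⟨hq, hp, j, k, -α, -β, l, u, ε, hjk, hε, hlu, fun x => ?_, hqK, hpK, hS⟩
  rw [hsh]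
  funext d
  by_cases hd : d = j
  · subst hd; simp [shear, hjk.symm]; ring
  · simp [shear, hd]

theorem Elem1.mono {K S S' : Set V} {p q : V → V} (h : Elem1 K S p q) (hS' : S ⊆ S') :
    Elem1 K S' p q := by
  obtain ⟨hp, hq, j, k, α, β, l, u, ε, hjk, hε, hlu, hsh, hpK, hqK, hS⟩ := h
  exact ⟨hp, hq, j, k, α, β, l, u, ε, hjk, hε, hlu, hsh, hpK, hqK, fun y hy => hS' (hS y hy)⟩

theorem Elem.symm {n : ℕ} {K : Fin n → Set V} {f g : Fin n → V → V} (h : Elem K f g) :
    Elem K g f := by
  obtain ⟨hf, i0, S, h1, h2⟩ := h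
  refine ⟨fun i => ?_, i0, S, h1.symm, fun i hi => ⟨(h2 i hi).1.symm, ?_⟩⟩
  · by_cases hi : i = i0
    · subst hi; exact h1.2.1
    · rw [(h2 i hi).1]; exact hf i
  · rw [(h2 i hi).1]; exact (h2 i hi).2

theorem Ch.symm {n : ℕ} {K : Fin n → Set V} {f g : Fin n → V → V} (h : Ch K f g) : Ch K g f := by
  induction h with
  | refl => exact Relation.ReflTransGen.refl
  | tail _ h ih => exact Relation.ReflTransGen.head h.symm ih

theorem Ch.trans {n : ℕ} {K : Fin n → Set V} {f g h : Fin n → V → V} (h1 : Ch K f g)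
    (h2 : Ch K g h) : Ch K f h := Relation.ReflTransGen.trans h1 h2

/-- Chains of moves of one box inside the region `S`. -/
def Loc (K S : Set V) : (V → V) → (V → V) → Prop := Relation.ReflTransGen (Elem1 K S)

theorem Loc.mono {K S S' : Set V} {p q : V → V} (h : Loc K S p q) (hS' : S ⊆ S') : Loc K S' p q := by
  induction h with
  | refl => exact Relation.ReflTransGen.refl
  | tail _ h ih => exact Relation.ReflTransGen.tail ih (h.mono hS')

theorem Loc.cont {K S : Set V} {p q : V → V} (h : Loc K S p q) (hp : Continuous p) :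
    Continuous q := by
  induction h with
  | refl => exact hp
  | tail _ h ih => exact h.2.1

theorem Loc.lift {n : ℕ} {K : Fin n → Set V} {f : Fin n → V → V} (hf : ∀ i, Continuous (f i))
    {i0 : Fin n} {S : Set V} {q : V → V} (h : Loc (K i0) S (f i0) q)
    (hS : ∀ i, i ≠ i0 → ∀ x ∈ K i, f i x ∉ S) : Ch K f (Function.update f i0 q) := by
  induction h with
  | refl => rw [Function.update_eq_self]; exact Relation.ReflTransGen.refl
  | @tail q q' _ h ih =>
    refine Relation.ReflTransGen.tail ih ⟨fun i => ?_, i0, S, ?_, fun i hi => ?_⟩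
    · by_cases hi : i = i0
      · subst hi; rw [Function.update_self]; exact h.1
      · rw [Function.update_of_ne hi]; exact hf i
    · rw [Function.update_self, Function.update_self]; exact h
    · rw [Function.update_of_ne hi, Function.update_of_ne hi]; exact ⟨rfl, hS i hi⟩

theorem ch_seq {n : ℕ} {K : Fin n → Set V} {f g : Fin n → V → V} (hf : ∀ i, Continuous (f i))
    (key : Fin n → ℕ) (hkey : Function.Injective key) (S : Fin n → Set V)
    (hL : ∀ i, Loc (K i) (S i) (f i) (g i))
    (h1 : ∀ i i', key i' < key i → ∀ x ∈ K i', f i' x ∉ S i)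
    (h2 : ∀ i i', key i < key i' → ∀ x ∈ K i', g i' x ∉ S i) : Ch K f g := by
  have hg : ∀ i, Continuous (g i) := fun i => (hL i).cont (hf i)
  let c : ℕ → Fin n → V → V := fun m i => if m ≤ key i then g i else f i
  have hc : ∀ m i, Continuous (c m i) := fun m i => by
    simp only [c]; split_ifs; exacts [hg i, hf i]
  have step : ∀ m, Ch K (c (m + 1)) (c m) := fun m => by
    by_cases hm : ∃ i0, key i0 = m
    · obtain ⟨i0, rfl⟩ := hm
      have e : c (key i0) = Function.update (c (key i0 + 1)) i0 (g i0) := by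
        funext i
        by_cases hi : i = i0
        · subst hi; simp [c]
        · have : key i ≠ key i0 := fun h => hi (hkey h)
          rw [Function.update_of_ne hi]
          simp only [c]
          by_cases h : key i0 ≤ key i
          · rw [if_pos h, if_pos (by omega)]
          · rw [if_neg h, if_neg (by omega)]
      rw [e]
      refine Loc.lift (hc _) (S := S i0) ?_ fun i hi x hx => ?_
      · simp only [c]; rw [if_neg (by omega)]; exact hL i0
      · have : key i ≠ key i0 := fun h => hi (hkey h)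
        simp only [c]
        split_ifs with h
        · exact h2 i0 i (by omega) x hx
        · exact h1 i0 i (by omega) x hx
    · push Not at hm
      have e : c m = c (m + 1) := by
        funext i
        have := hm i
        simp only [c]
        by_cases h : m ≤ key i
        · rw [if_pos h, if_pos (by omega)]
        · rw [if_neg h, if_neg (by omega)]
      rw [e]; exact Relation.ReflTransGen.refl
  have all : ∀ m, Ch K (c m) (c 0) := fun m => by
    induction m with
    | zero => exact Relation.ReflTransGen.refl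
    | succ m ih => exact (step m).trans ih
  have e0 : c 0 = g := by funext i; simp [c]
  have e1 : c (∑ i, key i + 1) = f := by
    funext i
    have : key i ≤ ∑ i, key i := Finset.single_le_sum (fun _ _ => Nat.zero_le _) (Finset.mem_univ i)
    simp only [c]; rw [if_neg (by omega)]
  rw [← e0, ← e1]; exact all _

/-- A shape placed at a rational centre. -/
def place (c : Fin 3 → ℚ) (p : V → V) : V → V := fun x => ratPoint c + p x

theorem place_apply (c : Fin 3 → ℚ) (p : V → V) (x : V) (d : Fin 3) :
    place c p x d = c d + p x d := rfl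

theorem place_cont (c : Fin 3 → ℚ) {p : V → V} (hp : Continuous p) : Continuous (place c p) :=
  continuous_const.add hp

/-- The region swept by a translation. -/
def swept (c c' h : Fin 3 → ℚ) (ε : ℚ) : Set V :=
  {y | ∀ d, ((min (c d) (c' d) - h d - 2 * ε : ℚ) : ℝ) ≤ y d ∧
    y d ≤ ((max (c d) (c' d) + h d + 2 * ε : ℚ) : ℝ)}

theorem loc_translate {K : Set V} {p : V → V} (hp : Continuous p) {h : Fin 3 → ℚ}
    (h0 : ∀ d, 0 ≤ h d) (hpK : ∀ x ∈ K, ∀ d, |p x d| ≤ h d) (c : Fin 3 → ℚ) (j : Fin 3) (s : ℚ)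
    {ε : ℚ} (hε : 0 < ε) :
    Loc K (swept c (Function.update c j s) h ε) (place c p) (place (Function.update c j s) p) := by
  obtain ⟨k, hk⟩ := exists_ne j
  have hε' : (0 : ℝ) < ε := by exact_mod_cast hε
  refine Relation.ReflTransGen.single ⟨place_cont _ hp, place_cont _ hp, j, k, s - c j, 0,
    fun d => min (c d) (Function.update c j s d) - h d - ε,
    fun d => max (c d) (Function.update c j s d) + h d + ε, ε, hk.symm, hε, fun d => ?_,
    fun x => ?_, fun x hx d => ?_, fun x hx d => ?_, fun y hy d => ?_⟩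
  · have := min_le_max (a := c d) (b := Function.update c j s d)
    linarith [h0 d]
  · funext d
    by_cases hd : d = j
    · subst hd; simp [shear, place_apply]; ring
    · simp [shear, place_apply, hd]
  · have := abs_le.1 (hpK x hx d)
    rw [place_apply]; push_cast
    constructor
    · linarith [min_le_left (c d : ℝ) (Function.update c j s d : ℚ)]
    · linarith [le_max_left (c d : ℝ) (Function.update c j s d : ℚ)]
  · have := abs_le.1 (hpK x hx d)
    rw [place_apply]; push_cast
    constructor
    · linarith [min_le_right (c d : ℝ) (Function.update c j s d : ℚ)]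
    · linarith [le_max_right (c d : ℝ) (Function.update c j s d : ℚ)]
  · have := hy d
    push_cast at this ⊢
    constructor <;> linarith [this.1, this.2]

theorem not_mem_swept {c c' h : Fin 3 → ℚ} {ε : ℚ} {e h' : ℚ} {y : V} (d : Fin 3)
    (hy : |y d - e| ≤ h')
    (hd : e + h' < min (c d) (c' d) - h d - 2 * ε ∨ max (c d) (c' d) + h d + 2 * ε < e - h') :
    y ∉ swept c c' h ε := by
  intro hs
  obtain ⟨h1, h2⟩ := hs d
  have := abs_le.1 hy
  rcases hd with hd | hd
  · have : ((e + h' : ℚ) : ℝ) < ((min (c d) (c' d) - h d - 2 * ε : ℚ) : ℝ) := by exact_mod_cast hd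
    rw [Rat.cast_add] at this
    linarith
  · have : ((max (c d) (c' d) + h d + 2 * ε : ℚ) : ℝ) < ((e - h' : ℚ) : ℝ) := by exact_mod_cast hd
    rw [Rat.cast_sub] at this
    linarith

section
variable {n : ℕ} {K : Fin n → Set V} {p : Fin n → V → V} {h : Fin n → Fin 3 → ℚ}

theorem ch_slab (hp : ∀ i, Continuous (p i)) (h0 : ∀ i d, 0 ≤ h i d)
    (hpK : ∀ i, ∀ x ∈ K i, ∀ d, |p i x d| ≤ h i d) {N : ℚ} (hN : ∀ i d, h i d ≤ N)
    (c : Fin n → Fin 3 → ℚ) {j k : Fin 3} (hjk : k ≠ j)
    (hc : ∀ i i', i ≠ i' → 2 * N + 2 ≤ |c i k - c i' k|) (s : Fin n → ℚ) :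
    Ch K (fun i => place (c i) (p i)) (fun i => place (Function.update (c i) j (s i)) (p i)) := by
  have key : ∀ i i', i ≠ i' → c i' k + h i' k < min (c i k) (Function.update (c i) j (s i) k) - h i k
      - 2 * (1 / 4) ∨ max (c i k) (Function.update (c i) j (s i) k) + h i k + 2 * (1 / 4) <
        c i' k - h i' k := fun i i' hi => by
    rw [Function.update_of_ne hjk, min_self, max_self]
    have := hN i k
    have := hN i' k
    rcases le_abs.1 (hc i i' hi) with h | h
    · left; linarith
    · right; linarith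
  refine ch_seq (fun i => place_cont _ (hp i)) (fun i => i.val) Fin.val_injective
    (fun i => swept (c i) (Function.update (c i) j (s i)) (h i) (1 / 4))
    (fun i => loc_translate (hp i) (h0 i) (hpK i) _ _ _ (by norm_num)) ?_ ?_
  · intro i i' hi x hx
    refine not_mem_swept k ?_ (key i i' (fun h => by subst h; omega))
    rw [place_apply, add_sub_cancel_left]; exact hpK i' x hx k
  · intro i i' hi x hx
    refine not_mem_swept k ?_ (key i i' (fun h => by subst h; omega))
    rw [place_apply, Function.update_of_ne hjk, add_sub_cancel_left]; exact hpK i' x hx k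

theorem exists_pos_le {ι : Type} [Finite ι] (δ : ι → ℚ) (hδ : ∀ i, 0 < δ i) :
    ∃ ε, 0 < ε ∧ ε ≤ 1 / 4 ∧ ∀ i, ε ≤ δ i := by
  cases isEmpty_or_nonempty ι with
  | inl _ => exact ⟨1 / 4, by norm_num, le_rfl, fun i => isEmptyElim i⟩
  | inr _ =>
    obtain ⟨i, hi⟩ := Finite.exists_min δ
    exact ⟨min (δ i) (1 / 4), lt_min (hδ i) (by norm_num), min_le_right _ _,
      fun j => (min_le_left _ _).trans (hi j)⟩

theorem abs_mul_natCast_sub {M : ℚ} (hM : 0 ≤ M) {a b : ℕ} (hab : a ≠ b) :
    M ≤ |M * a - M * b| := by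
  rcases lt_or_gt_of_ne hab with h | h
  · have : (a : ℚ) + 1 ≤ b := by exact_mod_cast h
    rw [le_abs]; right; nlinarith
  · have : (b : ℚ) + 1 ≤ a := by exact_mod_cast h
    rw [le_abs]; left; nlinarith

theorem ch_separate (hp : ∀ i, Continuous (p i)) (h0 : ∀ i d, 0 ≤ h i d)
    (hpK : ∀ i, ∀ x ∈ K i, ∀ d, |p i x d| ≤ h i d) {N : ℚ} (hN : ∀ i d, h i d ≤ N) (hN0 : 0 ≤ N)
    (c : Fin n → Fin 3 → ℚ) (hc : ∀ i i', i ≠ i' → ∃ d, h i d + h i' d < |c i d - c i' d|) :
    ∃ s : Fin n → ℚ, (∀ i i', i ≠ i' → 2 * N + 2 ≤ |s i - s i'|) ∧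
      Ch K (fun i => place (c i) (p i)) (fun i => place (Function.update (c i) 0 (s i)) (p i)) := by
  have hδ : ∀ q : Fin n × Fin n, ∃ δ : ℚ, 0 < δ ∧ (q.1 ≠ q.2 →
      ∃ d, h q.1 d + h q.2 d + 2 * δ < |c q.1 d - c q.2 d|) := fun ⟨i, i'⟩ => by
    by_cases hi : i = i'
    · exact ⟨1, one_pos, fun h => absurd hi h⟩
    · obtain ⟨d, hd⟩ := hc i i' hi
      exact ⟨(|c i d - c i' d| - (h i d + h i' d)) / 4, by linarith, fun _ => ⟨d, by linarith⟩⟩
  choose δ hδ0 hδ using hδ
  obtain ⟨ε, hε, hε4, hεδ⟩ := exists_pos_le δ hδ0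
  let σ := Tuple.sort fun i => c i 0
  let key : Fin n → ℕ := fun i => (σ.symm i).val
  have hkey : Function.Injective key := Fin.val_injective.comp σ.symm.injective
  have hmono : ∀ i i', key i' < key i → c i' 0 ≤ c i 0 := fun i i' hi => by
    have := Tuple.monotone_sort (fun i => c i 0) (show σ.symm i' ≤ σ.symm i from le_of_lt hi)
    simpa [σ] using this
  let B : ℚ := ∑ i, |c i 0|
  have hB : ∀ i, c i 0 ≤ B := fun i => (le_abs_self _).trans
    (Finset.single_le_sum (f := fun i => |c i 0|) (fun _ _ => abs_nonneg _) (Finset.mem_univ i))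
  let s : Fin n → ℚ := fun i => B + (2 * N + 2) * key i
  have hs : ∀ i, c i 0 ≤ s i := fun i => (hB i).trans (le_add_of_nonneg_right (by positivity))
  refine ⟨s, fun i i' hi => ?_, ?_⟩
  · simp only [s, add_sub_add_left_eq_sub]
    exact abs_mul_natCast_sub (by positivity) fun h => hi (hkey h)
  refine ch_seq (fun i => place_cont _ (hp i)) key hkey
    (fun i => swept (c i) (Function.update (c i) 0 (s i)) (h i) ε)
    (fun i => loc_translate (hp i) (h0 i) (hpK i) _ _ _ hε) ?_ ?_
  · intro i i' hi x hx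
    obtain ⟨d, hd⟩ := hδ (i, i') (fun h => by dsimp only at h; subst h; omega)
    have := hεδ (i, i')
    dsimp only at hd
    refine not_mem_swept (e := c i' d) (h' := h i' d) d ?_ ?_
    · rw [place_apply, add_sub_cancel_left]; exact hpK i' x hx d
    · by_cases hd0 : d = 0
      · subst hd0
        rw [Function.update_self, min_eq_left (hs i)]
        rw [abs_of_nonneg (sub_nonneg.2 (hmono i i' hi))] at hd
        left; linarith
      · rw [Function.update_of_ne hd0, min_self, max_self]
        rcases lt_abs.1 hd with h | h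
        · left; linarith
        · right; linarith
  · intro i i' hi x hx
    refine not_mem_swept (e := s i') (h' := h i' 0) 0 ?_ ?_
    · rw [place_apply, Function.update_self, add_sub_cancel_left]; exact hpK i' x hx 0
    · rw [Function.update_self, max_eq_right (hs i)]
      right
      have h1 : (key i : ℚ) + 1 ≤ key i' := by exact_mod_cast hi
      have h2 : s i + (2 * N + 2) ≤ s i' := by simp only [s]; nlinarith
      linarith [hN i 0, hN i' 0]

/-- The canonical centres. -/
def canon (M : ℚ) (i : Fin n) : Fin 3 → ℚ := ![0, M * i.val, 0]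

theorem ch_canon (hp : ∀ i, Continuous (p i)) (h0 : ∀ i d, 0 ≤ h i d)
    (hpK : ∀ i, ∀ x ∈ K i, ∀ d, |p i x d| ≤ h i d) {N : ℚ} (hN : ∀ i d, h i d ≤ N) (hN0 : 0 ≤ N)
    (c : Fin n → Fin 3 → ℚ) (hc : ∀ i i', i ≠ i' → ∃ d, h i d + h i' d < |c i d - c i' d|)
    {M : ℚ} (hM : 2 * N + 2 ≤ M) :
    Ch K (fun i => place (c i) (p i)) (fun i => place (canon M i) (p i)) := by
  obtain ⟨s, hs, h1⟩ := ch_separate hp h0 hpK hN hN0 c hc
  have hsep : ∀ i i' : Fin n, i ≠ i' → 2 * N + 2 ≤ |M * i.val - M * i'.val| := fun i i' hi =>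
    hM.trans (abs_mul_natCast_sub (by linarith) fun h => hi (Fin.ext h))
  have h2 := ch_slab hp h0 hpK hN (fun i => Function.update (c i) 0 (s i)) (j := 1) (k := 0)
    (by decide) (fun i i' hi => by simpa using hs i i' hi) fun i => M * i.val
  have h3 := ch_slab hp h0 hpK hN
    (fun i => Function.update (Function.update (c i) 0 (s i)) 1 (M * i.val)) (j := 0) (k := 1)
    (by decide) (fun i i' hi => by simpa using hsep i i' hi) fun i => 0
  have h4 := ch_slab hp h0 hpK hN
    (fun i => Function.update (Function.update (Function.update (c i) 0 (s i)) 1 (M * i.val)) 0 0)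
    (j := 2) (k := 1) (by decide) (fun i i' hi => by simpa using hsep i i' hi) fun i => 0
  have e : ∀ i, Function.update (Function.update (Function.update (Function.update (c i) 0 (s i)) 1
      (M * i.val)) 0 0) 2 0 = canon M i := fun i => by
    funext d; fin_cases d <;> simp [canon]
  simp only [e] at h4
  exact ((h1.trans h2).trans h3).trans h4

end

/-- Change of shape inside a cube of fixed size around any centre. -/
def Free (K : Set V) (p q : V → V) : Prop :=
  ∃ R : ℕ, ∀ c : Fin 3 → ℚ, Loc K {y | ∀ d, |y d - c d| ≤ R} (place c p) (place c q)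

theorem Free.trans {K : Set V} {p q r : V → V} (h1 : Free K p q) (h2 : Free K q r) : Free K p r := by
  obtain ⟨R, h1⟩ := h1
  obtain ⟨R', h2⟩ := h2
  refine ⟨R + R', fun c => Relation.ReflTransGen.trans ((h1 c).mono fun y hy d => ?_)
    ((h2 c).mono fun y hy d => ?_)⟩
  · push_cast; linarith [hy d, (Nat.cast_nonneg R' : (0 : ℝ) ≤ R')]
  · push_cast; linarith [hy d, (Nat.cast_nonneg R : (0 : ℝ) ≤ R)]

theorem shear_cont (j k : Fin 3) (α β : ℚ) : Continuous (shear j k α β) := by
  refine continuous_pi fun d => ?_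
  simp only [shear, Pi.add_apply, Pi.single_apply]
  split_ifs <;> fun_prop

theorem free_shear {K : Set V} (hK : IsCompact K) {p : V → V} (hp : Continuous p) {j k : Fin 3}
    (hjk : j ≠ k) (β : ℚ) : Free K p fun x => shear j k 0 β (p x) := by
  have hq : Continuous fun x => shear j k 0 β (p x) := (shear_cont _ _ _ _).comp hp
  obtain ⟨C, hC⟩ := hK.exists_bound_of_continuousOn hp.continuousOn
  obtain ⟨C', hC'⟩ := hK.exists_bound_of_continuousOn hq.continuousOn
  obtain ⟨N, hN⟩ := exists_nat_gt (max C C')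
  refine ⟨N + 1, fun c => Relation.ReflTransGen.single ⟨place_cont _ hp, place_cont _ hq, j, k,
    -β * c k, β, fun d => c d - N, fun d => c d + N, 1, hjk, one_pos, fun d => ?_, fun x => ?_,
    fun x hx d => ?_, fun x hx d => ?_, fun y hy d => ?_⟩⟩
  · linarith [(Nat.cast_nonneg N : (0 : ℚ) ≤ N)]
  · funext d
    by_cases hd : d = j
    · subst hd; simp [shear, place_apply]; ring
    · simp [shear, place_apply, hd]
  · have := abs_le.1 ((norm_le_pi_norm _ d).trans (hC x hx))
    rw [place_apply]; push_cast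
    constructor <;> linarith [le_max_left C C']
  · have := abs_le.1 ((norm_le_pi_norm _ d).trans (hC' x hx))
    rw [place_apply]; push_cast
    constructor <;> linarith [le_max_right C C']
  · have := hy d
    push_cast at this ⊢
    rw [abs_le]; constructor <;> linarith [this.1, this.2]

theorem free_diag {K : Set V} (hK : IsCompact K) {p : V → V} (hp : Continuous p) {j k : Fin 3}
    (hjk : j ≠ k) {r : ℚ} (hr : r ≠ 0) :
    Free K p fun x d => if d = j then r * p x j else if d = k then p x k / r else p x d := by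
  have c1 := (shear_cont j k 0 (-1 / r)).comp hp
  have c2 := (shear_cont k j 0 (r - 1)).comp c1
  have c3 := (shear_cont j k 0 1).comp c2
  have h := (((free_shear hK hp hjk (-1 / r)).trans (free_shear hK c1 hjk.symm (r - 1))).trans
    (free_shear hK c2 hjk 1)).trans (free_shear hK c3 hjk.symm (-(r - 1) / r))
  have hr' : (r : ℝ) ≠ 0 := by exact_mod_cast hr
  convert h using 1
  funext x d
  by_cases h1 : d = j
  · subst h1; simp [shear, hjk, hjk.symm]; field_simp; ring
  · by_cases h2 : d = k
    · subst h2; simp [shear, hjk, hjk.symm]; field_simp; ring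
    · simp [shear, h1, h2]

theorem free_scale {K : Set V} (hK : IsCompact K) {p : V → V} (hp : Continuous p) (r : Fin 3 → ℚ)
    (hr : ∏ j, r j = 1) : Free K p fun x d => r d * p x d := by
  rw [Fin.prod_univ_three] at hr
  have h0 : r 0 ≠ 0 := fun h => by simp [h] at hr
  have h2 : r 2 ≠ 0 := fun h => by simp [h] at hr
  have h := (free_diag hK hp (j := 0) (k := 1) (by decide) h0).trans
    (free_diag hK (by
      refine continuous_pi fun d => ?_
      split_ifs <;> fun_prop) (j := 2) (k := 1) (by decide) h2)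
  convert h using 1
  funext x d
  have hr' : (r 0 : ℝ) * r 1 * r 2 = 1 := by exact_mod_cast hr
  have h0' : (r 0 : ℝ) ≠ 0 := by exact_mod_cast h0
  have h2' : (r 2 : ℝ) ≠ 0 := by exact_mod_cast h2
  fin_cases d
  · simp
  · simp; field_simp; linear_combination (p x 1) * hr'
  · simp

theorem ch_shape {n : ℕ} {K : Fin n → Set V} {p q : Fin n → V → V} (hp : ∀ i, Continuous (p i))
    (hF : ∀ i, Free (K i) (p i) (q i)) {N : ℚ}
    (hpK : ∀ i, ∀ x ∈ K i, ∀ d, |p i x d| ≤ N) (hqK : ∀ i, ∀ x ∈ K i, ∀ d, |q i x d| ≤ N) :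
    ∃ M0 : ℚ, ∀ M, M0 ≤ M → 0 ≤ M →
      Ch K (fun i => place (canon M i) (p i)) (fun i => place (canon M i) (q i)) := by
  choose R hR using hF
  refine ⟨(∑ i, R i : ℕ) + N + 1, fun M hM hM0 => ?_⟩
  have key : ∀ (i i' : Fin n) (y : V), i ≠ i' → |y 1 - canon M i' 1| ≤ N →
      y ∉ {y : V | ∀ d, |y d - canon M i d| ≤ R i} := fun i i' y hi hy hs => by
    have h1 := abs_le.1 (hs 1)
    have h2 := abs_le.1 hy
    have h3 : ((M : ℚ) : ℝ) ≤ ((|M * i.val - M * i'.val| : ℚ) : ℝ) := by
      exact_mod_cast abs_mul_natCast_sub hM0 fun h => hi (Fin.ext h)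
    have h4 : (R i : ℝ) ≤ (∑ i, R i : ℕ) := by
      exact_mod_cast Finset.single_le_sum (f := R) (fun _ _ => Nat.zero_le _) (Finset.mem_univ i)
    have h5 : (((∑ i, R i : ℕ) + N + 1 : ℚ) : ℝ) ≤ M := by exact_mod_cast hM
    rw [Rat.cast_add, Rat.cast_add, Rat.cast_natCast, Rat.cast_one] at h5
    simp only [canon, Matrix.cons_val_one, Matrix.cons_val_zero] at h1 h2
    rw [Rat.cast_abs, Rat.cast_sub] at h3
    rcases le_abs.1 h3 with h | h <;> linarith [h1.1, h1.2, h2.1, h2.2]
  refine ch_seq (fun i => place_cont _ (hp i)) (fun i => i.val) Fin.val_injective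
    (fun i => {y | ∀ d, |y d - canon M i d| ≤ R i}) (fun i => hR i _) ?_ ?_
  · intro i i' hi x hx
    refine key i i' _ (fun h => by subst h; omega) ?_
    rw [place_apply, add_sub_cancel_left]; exact hpK i' x hx 1
  · intro i i' hi x hx
    refine key i i' _ (fun h => by subst h; omega) ?_
    rw [place_apply, add_sub_cancel_left]; exact hqK i' x hx 1

theorem sep_of_disjoint {a a' h h' : Fin 3 → ℚ} (hh : ∀ d, 0 < h d) (hh' : ∀ d, 0 < h' d)
    (hd : Disjoint (box a h) (box a' h')) : ∃ d, h d + h' d < |a d - a' d| := by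
  by_contra hc
  push Not at hc
  have hd' := Set.disjoint_left.1 hd
  refine @hd' (ratPoint fun d => max (a d - h d) (a' d - h' d))
    (fun d => ?_) (fun d => ?_)
  · have h1 := abs_le.1 (hc d)
    have : |max (a d - h d) (a' d - h' d) - a d| ≤ h d := by
      rw [abs_le]; constructor
      · linarith [le_max_left (a d - h d) (a' d - h' d)]
      · rw [sub_le_iff_le_add, max_le_iff]; constructor <;> linarith [hh d, h1.1]
    simp only [ratPoint]; exact_mod_cast this
  · have h1 := abs_le.1 (hc d)
    have : |max (a d - h d) (a' d - h' d) - a' d| ≤ h' d := by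
      rw [abs_le]; constructor
      · linarith [le_max_right (a d - h d) (a' d - h' d)]
      · rw [sub_le_iff_le_add, max_le_iff]; constructor <;> linarith [hh' d, h1.2]
    simp only [ratPoint]; exact_mod_cast this

theorem box_compact (a h : Fin 3 → ℚ) : IsCompact (box a h) := by
  have : box a h = Set.pi Set.univ fun d => Set.Icc ((a d : ℝ) - h d) (a d + h d) := by
    ext x
    simp only [box, Set.mem_ofPred_eq, Set.mem_pi, Set.mem_univ, true_imp_iff, Set.mem_Icc, abs_le]
    exact forall_congr' fun d => by constructor <;> rintro ⟨h1, h2⟩ <;> constructor <;> linarith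
  rw [this]
  exact isCompact_univ_pi fun d => isCompact_Icc

theorem ch_main (n : ℕ) (a b h k : Fin n → Fin 3 → ℚ)
    (hh : ∀ i j, 0 < h i j) (hk : ∀ i j, 0 < k i j)
    (ha : Pairwise fun i i' => Disjoint (box (a i) (h i)) (box (a i') (h i')))
    (hb : Pairwise fun i i' => Disjoint (box (b i) (k i)) (box (b i') (k i')))
    (hvol : ∀ i, ∏ j : Fin 3, k i j / h i j = 1) :
    Ch (fun i => box (a i) (h i)) (fun _ x => x)
      (fun i x j => (b i j : ℝ) + ((k i j / h i j : ℚ) : ℝ) * (x j - (a i j : ℝ))) := by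
  let p : Fin n → V → V := fun i x d => x d - a i d
  let q : Fin n → V → V := fun i x d => ((k i d / h i d : ℚ) : ℝ) * p i x d
  have hp : ∀ i, Continuous (p i) := fun i => by fun_prop
  have hq : ∀ i, Continuous (q i) := fun i => by fun_prop
  have hpK : ∀ i, ∀ x ∈ box (a i) (h i), ∀ d, |p i x d| ≤ h i d := fun i x hx d => hx d
  have hqK : ∀ i, ∀ x ∈ box (a i) (h i), ∀ d, |q i x d| ≤ k i d := fun i x hx d => by
    have h1 : (0 : ℝ) < h i d := by exact_mod_cast hh i d
    have h2 : (0 : ℝ) < k i d := by exact_mod_cast hk i d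
    simp only [q]; push_cast
    rw [abs_mul, abs_of_pos (div_pos h2 h1), div_mul_eq_mul_div, div_le_iff₀ h1]
    exact mul_le_mul_of_nonneg_left (hpK i x hx d) h2.le
  let N : ℚ := ∑ i, ∑ d, (h i d + k i d)
  have hN : ∀ i d, h i d + k i d ≤ N := fun i d =>
    (Finset.single_le_sum (f := fun d => h i d + k i d) (fun d _ => (add_pos (hh i d) (hk i d)).le)
      (Finset.mem_univ d)).trans
    (Finset.single_le_sum (f := fun i => ∑ d, (h i d + k i d))
      (fun i _ => Finset.sum_nonneg fun d _ => (add_pos (hh i d) (hk i d)).le) (Finset.mem_univ i))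
  have hN0 : 0 ≤ N := Finset.sum_nonneg fun i _ => Finset.sum_nonneg fun d _ =>
    (add_pos (hh i d) (hk i d)).le
  have hNh : ∀ i d, h i d ≤ N := fun i d => by linarith [hN i d, hk i d]
  have hNk : ∀ i d, k i d ≤ N := fun i d => by linarith [hN i d, hh i d]
  obtain ⟨M0, hM0⟩ := ch_shape (K := fun i => box (a i) (h i)) (q := q) hp
    (fun i => free_scale (box_compact _ _) (hp i) (fun d => k i d / h i d) (hvol i)) (N := N)
    (fun i x hx d => (hpK i x hx d).trans (by exact_mod_cast hNh i d))
    (fun i x hx d => (hqK i x hx d).trans (by exact_mod_cast hNk i d))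
  have hM : 2 * N + 2 ≤ max M0 (2 * N + 2) := le_max_right _ _
  have h1 := ch_canon hp (fun i d => (hh i d).le) hpK hNh hN0 a
    (fun i i' hi => sep_of_disjoint (hh i) (hh i') (ha hi)) hM
  have h2 := hM0 _ (le_max_left M0 (2 * N + 2)) (by linarith)
  have h3 := ch_canon hq (fun i d => (hk i d).le) hqK hNk hN0 b
    (fun i i' hi => sep_of_disjoint (hk i) (hk i') (hb hi)) hM
  have h4 := (h1.trans h2).trans h3.symm
  have e : (fun i => place (a i) (p i)) = fun _ x => x := by
    funext i x d; simp [place_apply, p]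
  rw [e] at h4
  exact h4

end Crest.Agent.H2.Box
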