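import Crest.Agent.H2.BoxField

/-! Elementary shear moves of one box are realised by effective divergence-free fields. -/

set_option autoImplicit false
set_option linter.unusedVariables false

open scoped ContDiff

namespace Crest.Agent.H2.Box

open Crest.AnalysisR.BoxFlow Crest.Agent.H2.Eff Crest.Agent.H2.Fabius

/-- The shear `y j += α + β * y k`. -/
noncomputable def shear (j k : Fin 3) (α β : ℚ) (y : V) : V :=
  y + Pi.single j ((α : ℝ) + β * y k)

/-- The configuration `f` can be moved to the configuration `g` in any rational time window. -/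
def Realize {n : ℕ} (K : Fin n → Set V) (f g : Fin n → V → V) : Prop :=
  ∀ t0 t1 : ℚ, t0 < t1 → ∃ U : Field, Pre U ∧ (∀ p, spaceDiv U p = 0) ∧
    (∀ p : ℝ × V, (p.1 ≤ t0 ∨ (t1 : ℝ) ≤ p.1) → U p = 0) ∧
    ∀ i, ∃ O : Set V, IsOpen O ∧ K i ⊆ O ∧ ∀ x ∈ O, ∃ γ : ℝ → V,
      (∀ t, HasDerivAt γ (U (t, γ t)) t) ∧ (∀ t : ℝ, t ≤ t0 → γ t = f i x) ∧
        (∀ t : ℝ, (t1 : ℝ) ≤ t → γ t = g i x)

theorem pre_zero : Pre 0 := by
  have := pre_sep (g := fun _ x => ((0 : ℚ) : ℝ) * F x) (fun _ => eff1_F.const_mul 0) 0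
    (fun d x _ => by simp) 0
  convert this using 1
  funext p; simp [sep, prodFn]

theorem Realize.refl {n : ℕ} (K : Fin n → Set V) (f : Fin n → V → V) : Realize K f f := by
  intro t0 t1 _
  refine ⟨0, pre_zero, fun p => by simp [spaceDiv], fun _ _ => rfl, fun i =>
    ⟨Set.univ, isOpen_univ, Set.subset_univ _, fun x _ => ⟨fun _ => f i x, fun t => ?_,
      fun _ _ => rfl, fun _ _ => rfl⟩⟩⟩
  exact hasDerivAt_const t _

theorem Realize.trans {n : ℕ} {K : Fin n → Set V} {f g h : Fin n → V → V} (h1 : Realize K f g)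
    (h2 : Realize K g h) : Realize K f h := by
  intro t0 t2 ht
  obtain ⟨t1, h01, h12⟩ := exists_between ht
  have h01' : (t0 : ℝ) < t1 := by exact_mod_cast h01
  have h12' : (t1 : ℝ) < t2 := by exact_mod_cast h12
  obtain ⟨U, hU, hUd, hU0, hUt⟩ := h1 t0 t1 h01
  obtain ⟨W, hW, hWd, hW0, hWt⟩ := h2 t1 t2 h12
  refine ⟨U + W, hU.add hW, fun p => by rw [spaceDiv_add hU.smooth hW.smooth, hUd, hWd, add_zero],
    fun p hp => ?_, fun i => ?_⟩
  · rw [Pi.add_apply, hU0 p, hW0 p, add_zero]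
    · rcases hp with hp | hp
      · exact Or.inl (by linarith)
      · exact Or.inr hp
    · rcases hp with hp | hp
      · exact Or.inl hp
      · exact Or.inr (by linarith)
  · obtain ⟨O, hO, hKO, hOt⟩ := hUt i
    obtain ⟨O', hO', hKO', hOt'⟩ := hWt i
    refine ⟨O ∩ O', hO.inter hO', Set.subset_inter hKO hKO', fun x hx => ?_⟩
    obtain ⟨γ, hγ, hγ0, hγ1⟩ := hOt x hx.1
    obtain ⟨δ, hδ, hδ0, hδ1⟩ := hOt' x hx.2
    refine ⟨fun t => γ t + δ t - g i x, fun t => ?_, fun t ht => ?_, fun t ht => ?_⟩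
    · refine (((hγ t).add (hδ t)).sub_const (g i x)).congr_deriv ?_
      rcases le_total t t1 with h | h
      · simp only [Pi.add_apply, hδ0 t h, add_sub_cancel_right]
        rw [hW0 (t, g i x) (Or.inl h), hW0 (t, γ t) (Or.inl h)]
      · simp only [Pi.add_apply, hγ1 t h, add_sub_cancel_left]
        rw [hU0 (t, g i x) (Or.inr h), hU0 (t, δ t) (Or.inr h)]
    · simp only [hγ0 t ht, hδ0 t (by linarith), add_sub_cancel_right]
    · simp only [hγ1 t (by linarith), hδ1 t ht, add_sub_cancel_left]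

/-- One box moves by one shear inside the region `S`. -/
def Elem1 (K S : Set V) (p q : V → V) : Prop :=
  Continuous p ∧ Continuous q ∧ ∃ (j k : Fin 3) (α β : ℚ) (l u : Fin 3 → ℚ) (ε : ℚ),
    j ≠ k ∧ 0 < ε ∧ (∀ d, l d ≤ u d) ∧ (∀ x, q x = shear j k α β (p x)) ∧
    (∀ x ∈ K, ∀ d, (l d : ℝ) < p x d ∧ p x d < u d) ∧
    (∀ x ∈ K, ∀ d, (l d : ℝ) < q x d ∧ q x d < u d) ∧
    ∀ y : V, (∀ d, (l d : ℝ) - ε ≤ y d ∧ y d ≤ u d + ε) → y ∈ S

/-- One box moves by one shear while the others rest outside its region. -/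
def Elem {n : ℕ} (K : Fin n → Set V) (f g : Fin n → V → V) : Prop :=
  (∀ i, Continuous (f i)) ∧ ∃ (i0 : Fin n) (S : Set V), Elem1 (K i0) S (f i0) (g i0) ∧
    ∀ i, i ≠ i0 → g i = f i ∧ ∀ x ∈ K i, f i x ∉ S

/-- The cutoff that is `1` on `[l,u]` and `0` off `[l-ε,u+ε]`. -/
noncomputable def chi (l u ε : ℚ) (y : ℝ) : ℝ :=
  F ((ε⁻¹ : ℚ) * y + ((ε - l) / ε : ℚ)) + ((-1 : ℚ) : ℝ) * F ((ε⁻¹ : ℚ) * y + (-u / ε : ℚ))

theorem chi_eff (l u ε : ℚ) : Eff1 (chi l u ε) :=
  (eff1_F.affine _ _).add ((eff1_F.affine _ _).const_mul _)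

theorem chi_eq (l u ε : ℚ) (hε : 0 < ε) (y : ℝ) :
    chi l u ε y = F ((y - (l - ε)) / ε) - F ((y - u) / ε) := by
  have : (ε : ℝ) ≠ 0 := by exact_mod_cast hε.ne'
  unfold chi
  push_cast
  rw [neg_one_mul, ← sub_eq_add_neg]
  congr 2 <;> field_simp <;> ring

theorem chi_one {l u ε : ℚ} (hε : 0 < ε) {y : ℝ} (h1 : (l : ℝ) < y) (h2 : y < u) :
    chi l u ε y = 1 := by
  have hε' : (0 : ℝ) < ε := by exact_mod_cast hε
  rw [chi_eq _ _ _ hε, F_step.2.2, F_step.2.1, sub_zero]
  · exact div_nonpos_of_nonpos_of_nonneg (by linarith) hε'.le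
  · rw [le_div_iff₀ hε']; linarith

theorem chi_zero {l u ε : ℚ} (hε : 0 < ε) (hlu : l ≤ u) {y : ℝ}
    (h : y < l - ε ∨ (u : ℝ) + ε < y) : chi l u ε y = 0 := by
  have hε' : (0 : ℝ) < ε := by exact_mod_cast hε
  have hlu' : (l : ℝ) ≤ u := by exact_mod_cast hlu
  rw [chi_eq _ _ _ hε]
  rcases h with h | h
  · rw [F_step.2.1, F_step.2.1, sub_zero]
    · exact div_nonpos_of_nonpos_of_nonneg (by linarith) hε'.le
    · exact div_nonpos_of_nonpos_of_nonneg (by linarith) hε'.le
  · rw [F_step.2.2, F_step.2.2, sub_self]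
    · rw [le_div_iff₀ hε']; linarith
    · rw [le_div_iff₀ hε']; linarith

/-- The time profile. -/
noncomputable def sig (t0 t1 : ℚ) (t : ℝ) : ℝ :=
  F (((t1 - t0)⁻¹ : ℚ) * t + (-t0 / (t1 - t0) : ℚ))

theorem sig_eff (t0 t1 : ℚ) : Eff1 (sig t0 t1) := eff1_F.affine _ _

theorem sig_eq {t0 t1 : ℚ} (h : t0 < t1) : sig t0 t1 = fun t => F ((t - t0) / (t1 - t0)) := by
  have h' : (t0 : ℝ) < t1 := by exact_mod_cast h
  have : (t1 : ℝ) - t0 ≠ 0 := by linarith
  funext t
  unfold sig
  push_cast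
  congr 1; field_simp; ring

theorem deriv_sig_zero {t0 t1 : ℚ} (h : t0 < t1) {t : ℝ} (ht : t ≤ t0 ∨ (t1 : ℝ) ≤ t) :
    deriv (sig t0 t1) t = 0 := by
  have h' : (0 : ℝ) < t1 - t0 := by
    have : (t0 : ℝ) < t1 := by exact_mod_cast h
    linarith
  have h1 : HasDerivAt (fun t : ℝ => (t - t0) / (t1 - t0)) (1 / (t1 - t0)) t :=
    ((hasDerivAt_id t).sub_const _).div_const _
  have h2 := ((F_hasDerivAt _).comp t h1).deriv
  rw [sig_eq h]
  refine Eq.trans h2 ?_
  rcases ht with ht | ht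
  · have : (t - t0) / (t1 - t0) ≤ 0 := div_nonpos_of_nonpos_of_nonneg (by linarith) h'.le
    rw [F_step.2.1 _ (by linarith), F_step.2.1 _ (by linarith)]; simp
  · have : 1 ≤ (t - t0) / (t1 - t0) := by rw [le_div_iff₀ h']; linarith
    rw [F_step.2.2 _ (by linarith), F_step.2.2 _ (by linarith)]; simp

theorem prodFn_eq (g : Fin 4 → ℝ → ℝ) (t : ℝ) (y : V) :
    prodFn g (t, y) = g 0 t * ∏ i : Fin 3, g i.succ (y i) := by
  rw [prodFn, Fin.prod_univ_succ]; rfl

theorem Elem.realize {n : ℕ} {K : Fin n → Set V} {f g : Fin n → V → V} (h : Elem K f g) :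
    Realize K f g := by
  obtain ⟨hf, i0, S, ⟨hp, hq, j, k, α, β, l, u, ε, hjk, hε, hlu, hsh, hpK, hqK, hS⟩, hrest⟩ := h
  intro t0 t1 ht
  have ht' : (0 : ℝ) < t1 - t0 := by
    have : (t0 : ℝ) < t1 := by exact_mod_cast ht
    linarith
  have hε' : (0 : ℝ) < ε := by exact_mod_cast hε
  -- the spatial factors
  let ψ : Fin 3 → ℝ → ℝ := fun d y => if d = k then
    (α : ℝ) * (y * chi (l d) (u d) ε y) + ((β / 2 : ℚ) : ℝ) * (y * (y * chi (l d) (u d) ε y))
    else chi (l d) (u d) ε y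
  obtain ⟨R, hR⟩ := exists_nat_ge (∑ d, (|(l d : ℝ)| + |(u d : ℝ)|) + ε + |(t0 : ℝ)| + |(t1 : ℝ)|)
  have hs0 : 0 ≤ ∑ d, (|(l d : ℝ)| + |(u d : ℝ)|) := Finset.sum_nonneg fun _ _ => by positivity
  have hout : ∀ d (y : ℝ), (R : ℝ) < |y| → y < l d - ε ∨ (u d : ℝ) + ε < y := fun d y hy => by
    have h1 : |(l d : ℝ)| + |(u d : ℝ)| ≤ ∑ d, (|(l d : ℝ)| + |(u d : ℝ)|) :=
      Finset.single_le_sum (f := fun d => |(l d : ℝ)| + |(u d : ℝ)|) (fun _ _ => by positivity)
        (Finset.mem_univ d)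
    have := abs_nonneg (t0 : ℝ)
    have := abs_nonneg (t1 : ℝ)
    have := neg_abs_le (l d : ℝ)
    have := le_abs_self (u d : ℝ)
    have := abs_nonneg (l d : ℝ)
    have := abs_nonneg (u d : ℝ)
    rcases lt_abs.1 hy with hy | hy
    · right; linarith
    · left; linarith
  have hψ0 : ∀ d (y : ℝ), y < l d - ε ∨ (u d : ℝ) + ε < y → ψ d y = 0 := fun d y hy => by
    simp only [ψ, chi_zero hε (hlu d) hy]; simp
  have hψe : ∀ d, Eff1 (ψ d) := fun d => by
    by_cases hd : d = k
    · simp only [ψ, if_pos hd]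
      have h1 := (chi_eff (l d) (u d) ε).id_mul R fun y hy => chi_zero hε (hlu d) (hout d y hy)
      have h2 := h1.id_mul R fun y hy => by simp [chi_zero hε (hlu d) (hout d y hy)]
      exact (h1.const_mul _).add (h2.const_mul _)
    · simp only [ψ, if_neg hd]; exact chi_eff _ _ _
  let G : Fin 4 → ℝ → ℝ := Fin.cons (deriv (sig t0 t1)) ψ
  have hG0 : G 0 = deriv (sig t0 t1) := rfl
  have hGs : ∀ d : Fin 3, G d.succ = ψ d := fun d => rfl
  have hGe : ∀ d, Eff1 (G d) := fun d => Fin.cases (sig_eff t0 t1).deriv hψe d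
  have hGR : ∀ d (x : ℝ), (R : ℝ) < |x| → G d x = 0 := fun d => by
    refine Fin.cases (fun x hx => ?_) (fun d x hx => hψ0 d x (hout d x hx)) d
    apply deriv_sig_zero ht
    have := neg_abs_le (t0 : ℝ)
    have := le_abs_self (t1 : ℝ)
    have := abs_nonneg (t0 : ℝ)
    have := abs_nonneg (t1 : ℝ)
    rcases lt_abs.1 hx with hy | hy
    · right; linarith
    · left; linarith
  have hD0 : ∀ d : Fin 3, Dg d.succ G 0 = deriv (sig t0 t1) := fun d => by
    rw [Dg, Function.update_of_ne (Fin.succ_ne_zero d).symm]; rfl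
  refine ⟨curl G j k, pre_curl hGe R hGR j k, spaceDiv_curl (fun d => (hGe d).smooth) hjk,
    fun p hp => ?_, fun i => ?_⟩
  · obtain ⟨t, y⟩ := p
    simp only [curl, sep, Pi.add_apply, prodFn_eq, hD0, deriv_sig_zero ht hp]
    simp
  by_cases hi : i = i0
  · subst hi
    let W : Set V := {y | ∀ d, (l d : ℝ) < y d ∧ y d < u d}
    have hW : IsOpen W := by
      simp only [W, Set.ofPred_forall]
      exact isOpen_iInter_of_finite fun d =>
        (isOpen_lt continuous_const (continuous_apply d)).inter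
          (isOpen_lt (continuous_apply d) continuous_const)
    refine ⟨f i ⁻¹' W ∩ g i ⁻¹' W, (hW.preimage hp).inter (hW.preimage hq),
      fun x hx => ⟨hpK x hx, hqK x hx⟩, fun x hx => ?_⟩
    set y0 := f i x with hy0
    set v : V := Pi.single j ((α : ℝ) + β * y0 k) with hv
    have hg : g i x = y0 + v := hsh x
    refine ⟨fun t => y0 + sig t0 t1 t • v, fun t => ?_, fun t h => ?_, fun t h => ?_⟩
    · have hd : HasDerivAt (sig t0 t1) (deriv (sig t0 t1) t) t :=
        (((sig_eff t0 t1).smooth.differentiable (by simp)) t).hasDerivAt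
      refine ((hd.smul_const v).const_add y0).congr_deriv ?_
      set y := y0 + sig t0 t1 t • v with hy
      have hs0 : 0 ≤ sig t0 t1 t := F_step.nonneg _
      have hs1 : sig t0 t1 t ≤ 1 := F_step.le_one _
      have hyW : y ∈ W := fun d => by
        have h1 := hx.1 d
        have h2 := hx.2 d
        rw [hg] at h2
        rw [← hy0] at h1
        simp only [hy, Pi.add_apply, Pi.smul_apply, smul_eq_mul] at h2 ⊢
        rcases le_total 0 (v d) with h | h
        · constructor <;> nlinarith [h1.1, h1.2, h2.1, h2.2]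
        · constructor <;> nlinarith [h1.1, h1.2, h2.1, h2.2]
      have hyk : y k = y0 k := by simp [hy, hv, hjk.symm]
      have hev : ∀ d, ∀ᶠ z in nhds (y d), chi (l d) (u d) ε z = 1 := fun d => by
        filter_upwards [Ioo_mem_nhds (hyW d).1 (hyW d).2] with z hz using chi_one hε hz.1 hz.2
      have hk : deriv (ψ k) (y k) = α + β * y k := by
        have : ψ k =ᶠ[nhds (y k)] fun z => (α : ℝ) * z + ((β / 2 : ℚ) : ℝ) * (z * z) := by
          filter_upwards [hev k] with z hz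
          simp only [ψ, if_true, hz, mul_one]
        rw [this.deriv_eq]
        have h1 := (((hasDerivAt_id (y k)).const_mul (α : ℝ)).add
          (((hasDerivAt_id (y k)).mul (hasDerivAt_id (y k))).const_mul ((β / 2 : ℚ) : ℝ))).deriv
        refine Eq.trans h1 ?_
        push_cast; simp; ring
      have hj : deriv (ψ j) (y j) = 0 := by
        have : ψ j =ᶠ[nhds (y j)] fun z => 1 := by
          filter_upwards [hev j] with z hz
          simp only [ψ, if_neg hjk, hz]
        rw [this.deriv_eq]; simp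
      have e1 : ∏ d : Fin 3, Dg k.succ G d.succ (y d) = α + β * y k := by
        rw [Finset.prod_eq_single k]
        · rw [Dg, Function.update_self, hGs, hk]
        · intro d _ hd
          rw [Dg, Function.update_of_ne (fun h => hd (Fin.succ_injective _ h)), hGs]
          simp only [ψ, if_neg hd]
          exact chi_one hε (hyW d).1 (hyW d).2
        · simp
      have e2 : ∏ d : Fin 3, Dg j.succ G d.succ (y d) = 0 :=
        Finset.prod_eq_zero (Finset.mem_univ j) (by rw [Dg, Function.update_self, hGs, hj])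
      show _ = curl G j k (t, y)
      rw [curl, Pi.add_apply, sep, sep, prodFn_eq, prodFn_eq, hD0, hD0, e1, e2, hyk]
      funext d
      by_cases hd : d = j
      · subst hd; simp [hv, ratPoint]
      · simp [hv, ratPoint, hd]
    · have : sig t0 t1 t = 0 := by
        rw [sig_eq ht]
        exact F_step.2.1 _ (div_nonpos_of_nonpos_of_nonneg (by linarith) ht'.le)
      simp [this]
    · have : sig t0 t1 t = 1 := by
        rw [sig_eq ht]
        exact F_step.2.2 _ (by rw [le_div_iff₀ ht']; linarith)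
      simp [this, hg]
  · obtain ⟨hgf, hK⟩ := hrest i hi
    let W : Set V := {y | ∃ d, y d < l d - ε ∨ (u d : ℝ) + ε < y d}
    have hO : ∀ d, IsOpen {z : ℝ | z < l d - ε ∨ (u d : ℝ) + ε < z} := fun d =>
      isOpen_Iio.union isOpen_Ioi
    have hW : IsOpen W := by
      simp only [W, Set.ofPred_exists]
      exact isOpen_iUnion fun d =>
        (isOpen_lt (continuous_apply d) continuous_const).union
          (isOpen_lt continuous_const (continuous_apply d))
    refine ⟨f i ⁻¹' W, hW.preimage (hf i), fun x hx => ?_, fun x hx => ⟨fun _ => f i x, fun t => ?_,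
      fun _ _ => rfl, fun _ _ => by rw [hgf]⟩⟩
    · by_contra hc
      apply hK x hx
      apply hS
      intro d
      simp only [W, Set.mem_preimage, Set.mem_ofPred_eq, not_exists, not_or, not_lt] at hc
      exact hc d
    · obtain ⟨d, hd⟩ := hx
      refine (hasDerivAt_const t _).congr_deriv ?_
      have e : ∀ d' : Fin 4, ∏ d : Fin 3, Dg d' G d.succ (f i x d) = 0 := fun d' =>
        Finset.prod_eq_zero (Finset.mem_univ d) (Dg_zero (g := G) (d' := d.succ) (hO d) (fun y hy => hψ0 d y hy) d' _ hd)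
      simp only [curl, sep, Pi.add_apply, prodFn_eq, e]
      simp

/-- Chains of elementary moves. -/
def Ch {n : ℕ} (K : Fin n → Set V) : (Fin n → V → V) → (Fin n → V → V) → Prop :=
  Relation.ReflTransGen (Elem K)

theorem Ch.realize {n : ℕ} {K : Fin n → Set V} {f g : Fin n → V → V} (h : Ch K f g) :
    Realize K f g := by
  induction h with
  | refl => exact Realize.refl _ _
  | tail _ h ih => exact ih.trans h.realize

end Crest.Agent.H2.Box
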