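import Crest.Agent.H9.FdI

/-! Row 178: the Koszul complex in four variables (Euler homotopy). -/

set_option autoImplicit false

noncomputable section
namespace Crest.Agent.H2.FdKos
open Crest.Agent.H9.Fd MvPolynomial

def DD {κ ι : Type} (S : κ → ι → Fin 4 → ℤ) : Matrix κ ι P :=
  fun k i => ∑ l, (S k i l : P) * X l

def HH {κ ι : Type} [Fintype ι] (S : κ → ι → Fin 4 → ℤ) (p : ι → P) : κ → P :=
  fun k => ∑ i, ∑ l, (S k i l : P) * pderiv l (p i)

lemma int_hom {n : ℕ} {p : P} (hp : p.IsHomogeneous n) (z : ℤ) : ((z : P) * p).IsHomogeneous n := by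
  have : ((z : P) * p) = C (z : ℂ) * p := by simp
  rw [this]
  simpa using (isHomogeneous_C (Fin 4) (z : ℂ)).mul hp

lemma DD_hom {κ ι : Type} (S : κ → ι → Fin 4 → ℤ) (k : κ) (i : ι) : (DD S k i).IsHomogeneous 1 :=
  IsHomogeneous.sum _ _ _ fun l _ => int_hom (isHomogeneous_X ℂ l) _

lemma HH_hom {κ ι : Type} [Fintype ι] (S : κ → ι → Fin 4 → ℤ) {p : ι → P} {m : ℕ}
    (hp : ∀ i, (p i).IsHomogeneous (m + 1)) (k : κ) : (HH S p k).IsHomogeneous m :=
  IsHomogeneous.sum _ _ _ fun i _ => IsHomogeneous.sum _ _ _ fun l _ =>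
    int_hom (by simpa using (hp i).pderiv (i := l)) _

lemma HH_zero {κ ι : Type} [Fintype ι] (S : κ → ι → Fin 4 → ℤ) {p : ι → P}
    (hp : ∀ i, (p i).IsHomogeneous 0) : HH S p = 0 := by
  funext k
  refine Finset.sum_eq_zero fun i _ => Finset.sum_eq_zero fun l _ => ?_
  have h := (hp i).totalDegree_le
  rw [Nat.le_zero, totalDegree_eq_zero_iff_eq_C] at h
  rw [h, pderiv_C, mul_zero]

lemma homotopy {κ' κ ι : Type} [Fintype κ'] [Fintype κ] [Fintype ι] [DecidableEq κ]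
    (S' : κ' → κ → Fin 4 → ℤ) (S : κ → ι → Fin 4 → ℤ) (r : ℤ)
    (hA : ∀ k k2 l l2, (∑ k', S' k' k l * S' k' k2 l2) + ∑ i, S k i l2 * S k2 i l =
      if k = k2 ∧ l = l2 then 1 else 0)
    (hB : ∀ k k2, (∑ i, ∑ l, S k i l * S k2 i l) = if k = k2 then r else 0)
    (p : κ → P) (k : κ) :
    Matrix.vecMul (HH S' p) (DD S') k + HH S (Matrix.vecMul p (DD S)) k =
      (∑ l, X l * pderiv l (p k)) + (r : P) * p k := by
  have e1 : Matrix.vecMul (HH S' p) (DD S') k = ∑ k2, ∑ l, ∑ l2,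
      ((∑ k', S' k' k l * S' k' k2 l2 : ℤ) : P) * (X l * pderiv l2 (p k2)) := by
    simp only [Matrix.vecMul, dotProduct, HH, DD, Finset.sum_mul, Finset.mul_sum, Int.cast_sum,
      Int.cast_mul]
    rw [Finset.sum_comm]
    refine Eq.trans (Finset.sum_congr rfl fun l _ => Finset.sum_comm) ?_
    rw [Finset.sum_comm]
    refine Finset.sum_congr rfl fun k2 _ => Finset.sum_congr rfl fun l _ => ?_
    rw [Finset.sum_comm]
    refine Finset.sum_congr rfl fun l2 _ => Finset.sum_congr rfl fun k' _ => by ring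
  have hd : ∀ (l2 : Fin 4) (q : P) (z : ℤ) (l : Fin 4), pderiv l2 (q * ((z : P) * X l)) =
      (z : P) * (X l * pderiv l2 q) + if l = l2 then (z : P) * q else 0 := by
    intro l2 q z l
    rw [Derivation.leibniz, Derivation.leibniz, Derivation.map_intCast, pderiv_X]
    by_cases h : l = l2
    · subst h; simp; ring
    · rw [Pi.single_eq_of_ne h]; simp [h]; ring
  have e2 : HH S (Matrix.vecMul p (DD S)) k = (∑ k2, ∑ l, ∑ l2,
      ((∑ i, S k i l2 * S k2 i l : ℤ) : P) * (X l * pderiv l2 (p k2))) +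
      ∑ k2, ((∑ i, ∑ l, S k i l * S k2 i l : ℤ) : P) * p k2 := by
    simp only [Matrix.vecMul, dotProduct, HH, DD, Finset.mul_sum, map_sum, hd, mul_add,
      Finset.sum_add_distrib, Int.cast_sum, Int.cast_mul, Finset.sum_mul]
    congr 1
    · rw [Finset.sum_comm]
      refine Eq.trans (Finset.sum_congr rfl fun l2 _ => Finset.sum_comm) ?_
      rw [Finset.sum_comm]
      refine Finset.sum_congr rfl fun k2 _ => ?_
      refine Eq.trans (Finset.sum_congr rfl fun l2 _ => Finset.sum_comm) ?_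
      rw [Finset.sum_comm]
      refine Finset.sum_congr rfl fun l _ => Finset.sum_congr rfl fun l2 _ =>
        Finset.sum_congr rfl fun i _ => by ring
    · simp only [mul_ite, mul_zero, Finset.sum_ite_eq', Finset.mem_univ, if_true]
      refine Eq.trans (Finset.sum_congr rfl fun i _ => Finset.sum_comm) ?_
      rw [Finset.sum_comm]
      refine Finset.sum_congr rfl fun k2 _ => Finset.sum_congr rfl fun i _ =>
        Finset.sum_congr rfl fun l _ => by ring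
  rw [e1, e2, ← add_assoc, ← Finset.sum_add_distrib]
  simp only [← Finset.sum_add_distrib, ← add_mul, ← Int.cast_add, hA, hB]
  congr 1
  · rw [Finset.sum_eq_single k]
    · simp
    · intro b _ h; simp [Ne.symm h]
    · simp

lemma euler {m : ℕ} {q : P} (hq : q.IsHomogeneous m) : (∑ l, X l * pderiv l q) = (m : P) * q := by
  rw [hq.sum_X_mul_pderiv, nsmul_eq_mul]

lemma solve {κ' κ ι : Type} [Fintype κ'] [Fintype κ] [Fintype ι] [DecidableEq κ]
    (S' : κ' → κ → Fin 4 → ℤ) (S : κ → ι → Fin 4 → ℤ) (r : ℕ)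
    (hA : ∀ k k2 l l2, (∑ k', S' k' k l * S' k' k2 l2) + ∑ i, S k i l2 * S k2 i l =
      if k = k2 ∧ l = l2 then 1 else 0)
    (hB : ∀ k k2, (∑ i, ∑ l, S k i l * S k2 i l) = if k = k2 then (r : ℤ) else 0)
    (m : ℕ) (hm : m + r ≠ 0) (p : κ → P) (hp : ∀ k, (p k).IsHomogeneous m)
    (h0 : Matrix.vecMul p (DD S) = 0) :
    Matrix.vecMul (((m + r : ℕ) : ℂ)⁻¹ • HH S' p) (DD S') = p := by
  funext k
  have h := homotopy S' S r hA hB p k
  have hz : HH S (0 : ι → P) k = 0 := by simp [HH]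
  rw [h0, hz, add_zero, euler (hp k), ← add_mul] at h
  rw [Matrix.smul_vecMul, Pi.smul_apply, h]
  have : ((m : P) + ((r : ℤ) : P)) * p k = ((m + r : ℕ) : ℂ) • p k := by
    rw [smul_eq_C_mul]; simp
  rw [this, smul_smul, inv_mul_cancel₀ (by exact_mod_cast hm), one_smul]

lemma mul_zero' {κ' κ ι : Type} [Fintype κ] (S' : κ' → κ → Fin 4 → ℤ) (S : κ → ι → Fin 4 → ℤ)
    (hC : ∀ k' i l l2, (∑ k, S' k' k l * S k i l2) + ∑ k, S' k' k l2 * S k i l = 0) :
    DD S' * DD S = 0 := by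
  ext1 k' i
  have e : (DD S' * DD S) k' i = ∑ l, ∑ l2, ((∑ k, S' k' k l * S k i l2 : ℤ) : P) * (X l * X l2) := by
    simp only [Matrix.mul_apply, DD, Finset.sum_mul, Finset.mul_sum, Int.cast_sum, Int.cast_mul]
    rw [Finset.sum_comm]
    refine Eq.trans (Finset.sum_congr rfl fun l _ => Finset.sum_comm) ?_
    rw [Finset.sum_comm]
    refine Finset.sum_congr rfl fun l _ => Finset.sum_congr rfl fun l2 _ =>
      Finset.sum_congr rfl fun k _ => by ring
  have e' : (DD S' * DD S) k' i = ∑ l, ∑ l2, ((∑ k, S' k' k l2 * S k i l : ℤ) : P) * (X l * X l2) := by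
    rw [e, Finset.sum_comm]
    refine Finset.sum_congr rfl fun l _ => Finset.sum_congr rfl fun l2 _ => by ring
  have h2 : (2 : P) * (DD S' * DD S) k' i = 0 := by
    rw [two_mul]
    nth_rewrite 1 [e]
    rw [e', ← Finset.sum_add_distrib]
    simp only [← Finset.sum_add_distrib, ← add_mul, ← Int.cast_add, hC]
    simp
  exact (mul_eq_zero.1 h2).resolve_left two_ne_zero

lemma smul_hom {n : ℕ} {p : P} (hp : p.IsHomogeneous n) (c : ℂ) : (c • p).IsHomogeneous n := by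
  rw [smul_eq_C_mul]
  simpa using (isHomogeneous_C (Fin 4) c).mul hp

lemma ex {κ' κ ι : Type} [Fintype κ'] [Fintype κ] [Fintype ι] [DecidableEq κ]
    (S' : κ' → κ → Fin 4 → ℤ) (S : κ → ι → Fin 4 → ℤ) (r : ℕ) (hr : r ≠ 0)
    (hA : ∀ k k2 l l2, (∑ k', S' k' k l * S' k' k2 l2) + ∑ i, S k i l2 * S k2 i l =
      if k = k2 ∧ l = l2 then 1 else 0)
    (hB : ∀ k k2, (∑ i, ∑ l, S k i l * S k2 i l) = if k = k2 then (r : ℤ) else 0)
    (hC : ∀ k' i l l2, (∑ k, S' k' k l * S k i l2) + ∑ k, S' k' k l2 * S k i l = 0) :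
    Ex (DD S') (DD S) := by
  refine ⟨mul_zero' S' S hC, fun p hp h0 => ?_, fun m p hp h0 => ?_⟩
  · rw [← solve S' S r hA hB 0 (by omega) p hp h0, HH_zero S' hp, smul_zero, Matrix.zero_vecMul]
  · exact ⟨_, fun k => smul_hom (HH_hom S' hp k) _, solve S' S r hA hB (m + 1) (by omega) p hp h0⟩

def S0 : Fin 1 → Fin 0 → Fin 4 → ℤ := fun _ i => i.elim0
def S1 : Fin 4 → Fin 1 → Fin 4 → ℤ := fun k _ l => if k = l then 1 else 0
def S2 : Fin 6 → Fin 4 → Fin 4 → ℤ :=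
  ![![![0,-1,0,0],![1,0,0,0],![0,0,0,0],![0,0,0,0]],
    ![![0,0,-1,0],![0,0,0,0],![1,0,0,0],![0,0,0,0]],
    ![![0,0,0,-1],![0,0,0,0],![0,0,0,0],![1,0,0,0]],
    ![![0,0,0,0],![0,0,-1,0],![0,1,0,0],![0,0,0,0]],
    ![![0,0,0,0],![0,0,0,-1],![0,0,0,0],![0,1,0,0]],
    ![![0,0,0,0],![0,0,0,0],![0,0,0,-1],![0,0,1,0]]]
def S3 : Fin 4 → Fin 6 → Fin 4 → ℤ :=
  ![![![0,0,1,0],![0,-1,0,0],![0,0,0,0],![1,0,0,0],![0,0,0,0],![0,0,0,0]],
    ![![0,0,0,1],![0,0,0,0],![0,-1,0,0],![0,0,0,0],![1,0,0,0],![0,0,0,0]],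
    ![![0,0,0,0],![0,0,0,1],![0,0,-1,0],![0,0,0,0],![0,0,0,0],![1,0,0,0]],
    ![![0,0,0,0],![0,0,0,0],![0,0,0,0],![0,0,0,1],![0,0,-1,0],![0,1,0,0]]]
def S4 : Fin 1 → Fin 4 → Fin 4 → ℤ :=
  ![![![0,0,0,-1],![0,0,1,0],![0,-1,0,0],![1,0,0,0]]]

theorem kosStmt : KosStmt := by
  refine ⟨DD S1, DD S2, DD S3, DD S4, DD_hom _, DD_hom _, DD_hom _, DD_hom _, ?_,
    ex S2 S1 1 (by decide) (by decide) (by decide) (by decide),
    ex S3 S2 2 (by decide) (by decide) (by decide) (by decide),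
    ex S4 S3 3 (by decide) (by decide) (by decide) (by decide), ?_⟩
  · intro m p hp
    exact ⟨_, fun k => smul_hom (HH_hom S1 hp k) _, solve S1 S0 0 (by decide) (by decide) (m + 1)
      (by omega) p hp (Subsingleton.elim _ _)⟩
  · intro p h
    have h3 := congrFun h 3
    simp [Matrix.vecMul, dotProduct, DD, S4, Fin.sum_univ_four] at h3
    funext k
    rw [Subsingleton.elim k 0]; exact h3

end Crest.Agent.H2.FdKos
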