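import Mathlib

set_option autoImplicit false

namespace Crest.Agent.H2.GS

open Finset

/-- uniform average over a finite type -/
noncomputable def av {Ω : Type} [Fintype Ω] (f : Ω → ℝ) : ℝ := (∑ x, f x) / (Fintype.card Ω : ℝ)

section
variable {Ω : Type} [Fintype Ω]

lemma av_add (f g : Ω → ℝ) : av (fun x => f x + g x) = av f + av g := by
  unfold av; rw [Finset.sum_add_distrib, add_div]

lemma av_sub (f g : Ω → ℝ) : av (fun x => f x - g x) = av f - av g := by
  unfold av; rw [Finset.sum_sub_distrib, sub_div]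

lemma av_mul_left (c : ℝ) (f : Ω → ℝ) : av (fun x => c * f x) = c * av f := by
  unfold av; rw [← Finset.mul_sum, mul_div_assoc]

lemma av_mul_right (c : ℝ) (f : Ω → ℝ) : av (fun x => f x * c) = av f * c := by
  unfold av; rw [← Finset.sum_mul]; ring

lemma av_sum {κ : Type} (s : Finset κ) (f : κ → Ω → ℝ) :
    av (fun x => ∑ k ∈ s, f k x) = ∑ k ∈ s, av (f k) := by
  unfold av; rw [Finset.sum_comm, Finset.sum_div]

lemma av_const [Nonempty Ω] (c : ℝ) : av (fun _ : Ω => c) = c := by
  unfold av
  have : (Fintype.card Ω : ℝ) ≠ 0 := by positivity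
  simp only [sum_const, card_univ, nsmul_eq_mul]
  field_simp

lemma av_zero : av (fun _ : Ω => (0 : ℝ)) = 0 := by simp [av]

lemma av_mono {f g : Ω → ℝ} (h : ∀ x, f x ≤ g x) : av f ≤ av g := by
  unfold av
  exact div_le_div_of_nonneg_right (Finset.sum_le_sum fun x _ => h x) (by positivity)

lemma av_nonneg {f : Ω → ℝ} (h : ∀ x, 0 ≤ f x) : 0 ≤ av f := by
  unfold av
  exact div_nonneg (Finset.sum_nonneg fun x _ => h x) (by positivity)

lemma av_congr {f g : Ω → ℝ} (h : ∀ x, f x = g x) : av f = av g := by
  rw [show f = g from funext h]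

lemma av_equiv {Ω' : Type} [Fintype Ω'] (e : Ω ≃ Ω') (f : Ω' → ℝ) :
    av (fun x => f (e x)) = av f := by
  unfold av
  rw [Equiv.sum_comp e f, Fintype.card_congr e]

lemma av_eq_zero_iff_sum [Nonempty Ω] (f : Ω → ℝ) : av f = 0 ↔ ∑ x, f x = 0 := by
  unfold av
  have : (Fintype.card Ω : ℝ) ≠ 0 := by positivity
  simp [this]

lemma eq_zero_of_av_eq_zero [Nonempty Ω] {f : Ω → ℝ} (h : ∀ x, 0 ≤ f x) (h0 : av f = 0) (x : Ω) :
    f x = 0 := by
  rw [av_eq_zero_iff_sum, Finset.sum_eq_zero_iff_of_nonneg (fun x _ => h x)] at h0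
  exact h0 x (Finset.mem_univ _)

variable {K : Type} [Fintype K] [DecidableEq K]

lemma av_pi_prod (f : K → Ω → ℝ) :
    av (fun x : K → Ω => ∏ k, f k (x k)) = ∏ k, av (f k) := by
  unfold av
  rw [Finset.prod_div_distrib, Finset.prod_univ_sum]
  simp [Fintype.piFinset_univ]

lemma av_update [Nonempty Ω] (k : K) (g : (K → Ω) → ℝ) :
    av g = av (fun x => av (fun z => g (Function.update x k z))) := by
  have key : ∑ x : K → Ω, ∑ z : Ω, g (Function.update x k z) = ∑ x : K → Ω, ∑ _z : Ω, g x := by
    rw [← Finset.sum_product', ← Finset.sum_product']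
    let e : ((K → Ω) × Ω) ≃ ((K → Ω) × Ω) :=
      { toFun := fun p => (Function.update p.1 k p.2, p.1 k)
        invFun := fun p => (Function.update p.1 k p.2, p.1 k)
        left_inv := fun p => by simp
        right_inv := fun p => by simp }
    simp only [Finset.univ_product_univ]
    exact Equiv.sum_comp e (fun p => g p.1)
  unfold av
  rw [← Finset.sum_div, key]
  have : (Fintype.card Ω : ℝ) ≠ 0 := by positivity
  simp only [sum_const, card_univ, nsmul_eq_mul]
  rw [← Finset.mul_sum]
  field_simp

/-- independence of one coordinate from a function not depending on it -/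
lemma av_mul_indep [Nonempty Ω] (k : K) (g : (K → Ω) → ℝ)
    (hg : ∀ x z, g (Function.update x k z) = g x) (f : Ω → ℝ) :
    av (fun x => g x * f (x k)) = av g * av f := by
  rw [av_update k, ← av_mul_right]
  apply av_congr
  intro x
  simp only [hg, Function.update_self]
  rw [av_mul_left]

lemma av_coord [Nonempty Ω] (k : K) (f : Ω → ℝ) : av (fun x : K → Ω => f (x k)) = av f := by
  have := av_mul_indep k (fun _ : K → Ω => (1 : ℝ)) (fun _ _ => rfl) f
  simpa [av_const] using this

/-- second moment of a sum of independent terms under a product weight -/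
lemma av_prod_mul_sq (a ξ : K → Ω → ℝ) (k₀ : K) (h1 : ∀ k, k ≠ k₀ → av (a k) = 1)
    (h0 : ∀ k, k ≠ k₀ → av (fun z => a k z * ξ k z) = 0) :
    av (fun x : K → Ω => (∏ k, a k (x k)) * (∑ k, ξ k (x k)) ^ 2) =
      av (fun z => a k₀ z * ξ k₀ z ^ 2) +
        av (a k₀) * ∑ k ∈ univ.erase k₀, av (fun z => a k z * ξ k z ^ 2) := by
  have e : ∀ x : K → Ω, (∏ k, a k (x k)) * (∑ k, ξ k (x k)) ^ 2 =
      ∑ i, ∑ j, ∏ k, (a k (x k) * (if k = i then ξ k (x k) else 1) *
        (if k = j then ξ k (x k) else 1)) := by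
    intro x
    simp only [Finset.prod_mul_distrib, Finset.prod_ite_eq', Finset.mem_univ, if_true]
    rw [sq, Finset.sum_mul_sum, Finset.mul_sum]
    refine Finset.sum_congr rfl fun i _ => ?_
    rw [Finset.mul_sum]
    refine Finset.sum_congr rfl fun j _ => ?_
    ring
  rw [av_congr e, av_sum]
  have e2 : ∀ i, av (fun x : K → Ω => ∑ j, ∏ k, (a k (x k) * (if k = i then ξ k (x k) else 1) *
        (if k = j then ξ k (x k) else 1))) =
      av (fun z => a i z * ξ i z ^ 2) * ∏ k ∈ univ.erase i, av (a k) := by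
    intro i
    rw [av_sum, Finset.sum_eq_single i]
    · rw [av_pi_prod (fun k z => a k z * (if k = i then ξ k z else 1) * (if k = i then ξ k z else 1)),
        ← Finset.mul_prod_erase _ _ (Finset.mem_univ i)]
      congr 1
      · apply av_congr; intro z; simp only [if_true]; ring
      · refine Finset.prod_congr rfl fun k hk => ?_
        have := Finset.ne_of_mem_erase hk
        simp [this]
    · intro j _ hj
      rw [av_pi_prod (fun k z => a k z * (if k = i then ξ k z else 1) * (if k = j then ξ k z else 1))]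
      by_cases hi : i = k₀
      · apply Finset.prod_eq_zero (Finset.mem_univ j)
        simp only [hj, if_false, if_true, mul_one]
        exact h0 j (hi ▸ hj)
      · apply Finset.prod_eq_zero (Finset.mem_univ i)
        simp only [Ne.symm hj, if_false, if_true, mul_one]
        exact h0 i hi
    · intro h; exact absurd (Finset.mem_univ i) h
  simp only [e2]
  rw [← Finset.add_sum_erase _ _ (Finset.mem_univ k₀), Finset.mul_sum]
  congr 1
  · rw [Finset.prod_eq_one (fun k hk => h1 k (Finset.ne_of_mem_erase hk)), mul_one]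
  · refine Finset.sum_congr rfl fun i hi => ?_
    have hi' := Finset.ne_of_mem_erase hi
    rw [Finset.prod_eq_single k₀]
    · ring
    · intro k _ hk; exact h1 k hk
    · intro h; exact absurd (Finset.mem_erase.2 ⟨Ne.symm hi', Finset.mem_univ _⟩) h

end

end Crest.Agent.H2.GS
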