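import Mathlib
import Crest.Agent.H2.GSAvg

set_option autoImplicit false

namespace Crest.Agent.H2.GS

open Finset

def sg (b : Bool) : ℝ := if b then 1 else -1

noncomputable def chi {ι : Type} (T : Finset ι) (x : ι → Bool) : ℝ := ∏ i ∈ T, sg (x i)

noncomputable def score {ι : Type} [Fintype ι] (x : ι → Bool) : ℝ := ∑ i, sg (x i)

def LowDeg {ι : Type} [Fintype ι] [DecidableEq ι] (D : ℕ) (g : (ι → Bool) → ℝ) : Prop :=
  ∀ T : Finset ι, D < T.card → av (fun x => g x * chi T x) = 0

structure Good {ι : Type} [Fintype ι] [DecidableEq ι] (X : (ι → Bool) → ℝ) (D : ℕ) (c : ℝ) : Prop where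
  deg : ∀ F : ℝ → ℝ, LowDeg D (fun x => F (X x))
  cond : ∀ F : ℝ → ℝ, av (fun x => F (X x) * score x) = c * av (fun x => F (X x) * X x)

section
variable {ι : Type} [Fintype ι] [DecidableEq ι]

lemma av_sg : av sg = 0 := by simp [av, sg]

lemma av_chi {T : Finset ι} (hT : T.Nonempty) : av (chi T) = 0 := by
  obtain ⟨i, hi⟩ := hT
  have e : ∀ x : ι → Bool, chi T x = chi (T.erase i) x * sg (x i) := by
    intro x; unfold chi; rw [Finset.prod_erase_mul _ _ hi]
  rw [av_congr e, av_mul_indep i (chi (T.erase i)) _ sg, av_sg, mul_zero]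
  intro x z
  unfold chi
  refine Finset.prod_congr rfl fun j hj => ?_
  rw [Function.update_of_ne (Finset.ne_of_mem_erase hj)]

lemma av_score : av (score : (ι → Bool) → ℝ) = 0 := by
  unfold score
  rw [av_sum]
  exact Finset.sum_eq_zero fun i _ => by rw [av_coord i sg, av_sg]

lemma LowDeg.add {D : ℕ} {f g : (ι → Bool) → ℝ} (hf : LowDeg D f) (hg : LowDeg D g) :
    LowDeg D (fun x => f x + g x) := by
  intro T hT
  simp only [add_mul]
  rw [av_add, hf T hT, hg T hT, add_zero]

lemma LowDeg.sub {D : ℕ} {f g : (ι → Bool) → ℝ} (hf : LowDeg D f) (hg : LowDeg D g) :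
    LowDeg D (fun x => f x - g x) := by
  intro T hT
  simp only [sub_mul]
  rw [av_sub, hf T hT, hg T hT, sub_zero]

lemma LowDeg.sum {D : ℕ} {κ : Type} (s : Finset κ) {f : κ → (ι → Bool) → ℝ}
    (hf : ∀ k ∈ s, LowDeg D (f k)) : LowDeg D (fun x => ∑ k ∈ s, f k x) := by
  intro T hT
  simp only [Finset.sum_mul]
  rw [av_sum]
  exact Finset.sum_eq_zero fun k hk => hf k hk T hT

lemma Good.mean {X : (ι → Bool) → ℝ} {D : ℕ} {c : ℝ} (h : Good X D c) (hc : c ≠ 0) : av X = 0 := by
  have := h.cond (fun _ => 1)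
  simp only [one_mul] at this
  rw [av_score] at this
  exact (mul_eq_zero.1 this.symm).resolve_left hc

lemma Good.scale {X : (ι → Bool) → ℝ} {D : ℕ} {c : ℝ} (h : Good X D c) {a : ℝ} (ha : a ≠ 0) :
    Good (fun x => a⁻¹ * X x) D (c * a) := by
  refine ⟨fun F => h.deg (fun t => F (a⁻¹ * t)), fun F => ?_⟩
  rw [h.cond (fun t => F (a⁻¹ * t)), mul_assoc, ← av_mul_left a]
  congr 1
  apply av_congr; intro x; field_simp

variable {K : Type} [Fintype K] [DecidableEq K]

/-- lift a function of the block values to the big cube -/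
def lift (X : (ι → Bool) → ℝ) (G : (K → ℝ) → ℝ) (x : K × ι → Bool) : ℝ :=
  G (fun k => X (fun i => x (k, i)))

lemma av_curry (g : (K → ι → Bool) → ℝ) :
    av (fun x : K × ι → Bool => g (fun k i => x (k, i))) = av g :=
  av_equiv (Equiv.curry K ι Bool) g

lemma av_lift (X : (ι → Bool) → ℝ) (G : (K → ℝ) → ℝ) :
    av (lift X G) = av (fun x : K → ι → Bool => G (fun k => X (x k))) :=
  av_curry (fun x : K → ι → Bool => G (fun k => X (x k)))

omit [Fintype ι] [DecidableEq ι] [Fintype K] in
lemma comp_update (X : (ι → Bool) → ℝ) (x : K → ι → Bool) (k : K) (z : ι → Bool) :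
    (fun l => X (Function.update x k z l)) = Function.update (fun l => X (x l)) k (X z) := by
  funext l
  by_cases h : l = k
  · subst h; simp
  · simp [Function.update_of_ne h]

lemma lift_lowDeg {X : (ι → Bool) → ℝ} {D : ℕ} {c : ℝ} (h : Good X D c) (G : (K → ℝ) → ℝ)
    (S : Finset K) (hS : ∀ k, k ∉ S → ∀ y t, G (Function.update y k t) = G y) :
    LowDeg (S.card * D) (lift X G) := by
  intro T hT
  let Tk : K → Finset ι := fun k => univ.filter (fun i => (k, i) ∈ T)
  have hchi : ∀ x : K × ι → Bool, chi T x = ∏ k, chi (Tk k) (fun i => x (k, i)) := by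
    intro x
    unfold chi
    simp only [Tk, Finset.prod_filter]
    rw [← Finset.prod_product' univ univ (fun k i => if (k, i) ∈ T then sg (x (k, i)) else 1),
      Finset.univ_product_univ, ← Finset.prod_filter]
    simp
  have hcard : T.card = ∑ k, (Tk k).card := by
    simp only [Tk, Finset.card_filter]
    rw [← Finset.sum_product', Finset.univ_product_univ, ← Finset.card_filter]
    simp
  have hk : ∃ k, ∀ y : K → ℝ, av (fun z => G (Function.update y k (X z)) * chi (Tk k) z) = 0 := by
    by_cases h1 : ∃ k, k ∉ S ∧ (Tk k).Nonempty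
    · obtain ⟨k, hk1, hk2⟩ := h1
      refine ⟨k, fun y => ?_⟩
      simp only [hS k hk1]
      rw [av_mul_left, av_chi hk2, mul_zero]
    · push Not at h1
      have : ∃ k ∈ S, D < (Tk k).card := by
        by_contra hn
        push Not at hn
        have : ∑ k, (Tk k).card ≤ S.card * D := by
          rw [← Finset.sum_subset (Finset.subset_univ S) (fun k _ hk => by rw [h1 k hk]; rfl)]
          simpa using Finset.sum_le_card_nsmul S _ D hn
        omega
      obtain ⟨k, -, hk⟩ := this
      exact ⟨k, fun y => h.deg (fun t => G (Function.update y k t)) _ hk⟩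
  obtain ⟨k, hk⟩ := hk
  simp only [hchi]
  unfold lift
  rw [av_curry (fun x : K → ι → Bool => G (fun k => X (x k)) * ∏ k, chi (Tk k) (x k)),
    av_update k, ← av_zero (Ω := K → ι → Bool)]
  apply av_congr
  intro x
  have e : ∀ z, G (fun l => X (Function.update x k z l)) * ∏ l, chi (Tk l) (Function.update x k z l) =
      (∏ l ∈ univ.erase k, chi (Tk l) (x l)) *
        (G (Function.update (fun l => X (x l)) k (X z)) * chi (Tk k) z) := by
    intro z
    rw [comp_update, ← Finset.mul_prod_erase _ _ (Finset.mem_univ k), Function.update_self]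
    rw [Finset.prod_congr rfl (fun l hl => by rw [Function.update_of_ne (Finset.ne_of_mem_erase hl)])]
    ring
  rw [av_congr e, av_mul_left, hk, mul_zero]

lemma lift_cond {X : (ι → Bool) → ℝ} {D : ℕ} {c : ℝ} (h : Good X D c) (G : (K → ℝ) → ℝ) :
    av (fun x => lift X G x * score x) =
      c * av (fun x : K → ι → Bool => G (fun k => X (x k)) * ∑ k, X (x k)) := by
  have e : ∀ x : K × ι → Bool, lift X G x * score x =
      ∑ k, G (fun k => X (fun i => x (k, i))) * score (fun i => x (k, i)) := by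
    intro x
    unfold lift score
    rw [← Finset.mul_sum, ← Finset.sum_product', Finset.univ_product_univ]
  rw [av_congr e, av_curry (fun x : K → ι → Bool => ∑ k, G (fun k => X (x k)) * score (x k)),
    av_sum]
  simp only [Finset.mul_sum]
  rw [av_sum, Finset.mul_sum]
  refine Finset.sum_congr rfl fun k _ => ?_
  rw [av_update k, av_update k (fun x : K → ι → Bool => G (fun k => X (x k)) * X (x k)),
    ← av_mul_left]
  apply av_congr
  intro x
  simp only [comp_update, Function.update_self]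
  exact h.cond (fun t => G (Function.update (fun l => X (x l)) k t))

/-- normalised sum of `T` independent copies -/
noncomputable def nsum (X : (ι → Bool) → ℝ) (T : ℕ) : (Fin T × ι → Bool) → ℝ :=
  lift X (fun y => (√T)⁻¹ * ∑ k, y k)

lemma av_sum_sq {Ω : Type} [Fintype Ω] [Nonempty Ω] (X : Ω → ℝ) (h0 : av X = 0)
    (h1 : av (fun x => X x ^ 2) = 1) (S : Finset K) :
    av (fun x : K → Ω => (∑ k ∈ S, X (x k)) ^ 2) = S.card := by
  have e : ∀ x : K → Ω, (∑ k ∈ S, X (x k)) ^ 2 = ∑ i ∈ S, ∑ j ∈ S, X (x i) * X (x j) := by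
    intro x; rw [sq, Finset.sum_mul_sum]
  rw [av_congr e, av_sum]
  rw [Finset.sum_congr rfl (g := fun _ => (1 : ℝ))]
  · simp
  intro i hi
  rw [av_sum, Finset.sum_eq_single i]
  · rw [← h1, ← av_coord i (fun x => X x ^ 2)]
    apply av_congr; intro x; ring
  · intro j _ hj
    rw [av_mul_indep j (fun x : K → Ω => X (x i)) _ X, h0, mul_zero]
    intro x z
    rw [Function.update_of_ne (Ne.symm hj)]
  · intro h; exact absurd hi h

lemma Good.nsum {X : (ι → Bool) → ℝ} {D : ℕ} {c : ℝ} (h : Good X D c) {T : ℕ} (hT : 0 < T) :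
    Good (nsum X T) (T * D) (c * √T) := by
  have hs : (√T : ℝ) ≠ 0 := by positivity
  have : Good (lift X (fun y : Fin T → ℝ => ∑ k, y k)) (T * D) c := by
    refine ⟨fun F => ?_, fun F => ?_⟩
    · have := lift_lowDeg h (fun y : Fin T → ℝ => F (∑ k, y k)) univ (by simp)
      rw [Finset.card_univ, Fintype.card_fin] at this
      exact this
    · have := lift_cond h (fun y : Fin T → ℝ => F (∑ k, y k))
      rw [← av_lift X (fun y : Fin T → ℝ => F (∑ k, y k) * ∑ k, y k)] at this
      exact this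
  exact this.scale hs

lemma nsum_sq {X : (ι → Bool) → ℝ} (h0 : av X = 0) (h1 : av (fun x => X x ^ 2) = 1) {T : ℕ}
    (hT : 0 < T) : av (fun x => nsum X T x ^ 2) = 1 := by
  have := av_lift X (fun y : Fin T → ℝ => ((√T)⁻¹ * ∑ k, y k) ^ 2)
  have e : (fun x => nsum X T x ^ 2) = lift X (fun y : Fin T → ℝ => ((√T)⁻¹ * ∑ k, y k) ^ 2) := rfl
  rw [e, this]
  simp only [mul_pow]
  rw [av_mul_left, av_sum_sq X h0 h1, inv_pow, Real.sq_sqrt (by positivity)]
  have : (T : ℝ) ≠ 0 := by positivity
  simp [this]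

lemma av_nsum (X : (ι → Bool) → ℝ) (T : ℕ) (F : ℝ → ℝ) :
    av (fun x => F (nsum X T x)) =
      av (fun x : Fin T → ι → Bool => F ((√T)⁻¹ * ∑ k, X (x k))) :=
  av_lift X (fun y : Fin T → ℝ => F ((√T)⁻¹ * ∑ k, y k))

end

lemma good_base : Good (ι := Unit) (fun x => sg (x ())) 1 1 := by
  refine ⟨fun F T hT => ?_, fun F => ?_⟩
  · have := Finset.card_le_univ T
    simp at this
    omega
  · simp [score]

lemma base_sq : av (fun x : Unit → Bool => sg (x ()) ^ 2) = 1 := by
  rw [← av_const (Ω := Unit → Bool) 1]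
  apply av_congr
  intro x
  unfold sg
  split_ifs <;> norm_num

end Crest.Agent.H2.GS
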