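import Mathlib
import Crest.Agent.H2.GSBlock

set_option autoImplicit false

namespace Crest.Agent.H2.GS

open Finset

open Classical in
/-- real indicator of a proposition -/
noncomputable def ind (p : Prop) : ℝ := if p then 1 else 0

lemma ind_cases (p : Prop) : ind p = 0 ∨ ind p = 1 := by
  unfold ind; split_ifs <;> simp

lemma ind_nonneg (p : Prop) : 0 ≤ ind p := by
  rcases ind_cases p with h | h <;> simp [h]

lemma ind_le_one (p : Prop) : ind p ≤ 1 := by
  rcases ind_cases p with h | h <;> simp [h]

lemma ind_pos {p : Prop} (h : p) : ind p = 1 := by simp [ind, h]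
lemma ind_neg {p : Prop} (h : ¬ p) : ind p = 0 := by simp [ind, h]

section
variable {J : Type} [Fintype J] [DecidableEq J] (cls : ℝ → J) (W : J → Set ℝ)

noncomputable def Lm (y : Option (Option J) → ℝ) : ℝ := ∏ k, ind (y (some (some k)) ∈ W k)

noncomputable def Lp (j : J) (y : Option (Option J) → ℝ) : ℝ :=
  ind (cls (y (some none)) = j) * ∏ k ∈ univ.erase j, ind (y (some (some k)) ∈ W k)

noncomputable def IA (y : Option (Option J) → ℝ) : ℝ := ∑ j, Lp cls W j y - Lm W y

noncomputable def Sg (y : Option (Option J) → ℝ) : ℝ := y (some none) + ∑ k, y (some (some k))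

omit [DecidableEq J] in
lemma prod_ind_cases (s : Finset J) (p : J → Prop) : ∏ k ∈ s, ind (p k) = 0 ∨ ∏ k ∈ s, ind (p k) = 1 := by
  by_cases h : ∀ k ∈ s, p k
  · right; exact Finset.prod_eq_one fun k hk => ind_pos (h k hk)
  · push Not at h
    obtain ⟨k, hk, hp⟩ := h
    left; exact Finset.prod_eq_zero hk (ind_neg hp)

lemma IA_cases (y : Option (Option J) → ℝ) : IA cls W y = 0 ∨ IA cls W y = 1 := by
  unfold IA Lp Lm
  rw [Finset.sum_eq_single (cls (y (some none)))]
  · rw [ind_pos rfl, one_mul, ← Finset.mul_prod_erase _ _ (Finset.mem_univ (cls (y (some none))))]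
    rcases prod_ind_cases (univ.erase (cls (y (some none)))) (fun k => y (some (some k)) ∈ W k)
      with h | h <;>
    rcases ind_cases (y (some (some (cls (y (some none))))) ∈ W (cls (y (some none)))) with h' | h' <;>
    simp [h, h']
  · intro j _ hj
    rw [ind_neg (Ne.symm hj), zero_mul]
  · intro h; exact absurd (Finset.mem_univ _) h

omit [Fintype J] in
lemma upd_none (y : Option (Option J) → ℝ) (t : ℝ) (o : Option J) :
    Function.update y none t (some o) = y (some o) := Function.update_of_ne (by simp) _ _

lemma IA_none (y : Option (Option J) → ℝ) (t : ℝ) :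
    IA cls W (Function.update y none t) = IA cls W y := by
  simp only [IA, Lp, Lm, upd_none]

lemma Sg_none (y : Option (Option J) → ℝ) (t : ℝ) :
    Sg (Function.update y none t) = Sg y := by
  simp only [Sg, upd_none]

lemma Lm_upd (y : Option (Option J) → ℝ) (t : ℝ) :
    Lm W (Function.update y (some none) t) = Lm W y := by
  unfold Lm
  refine Finset.prod_congr rfl fun k _ => ?_
  rw [Function.update_of_ne (by simp)]

lemma Lp_upd (j : J) (y : Option (Option J) → ℝ) (t : ℝ) :
    Lp cls W j (Function.update y (some (some j)) t) = Lp cls W j y := by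
  unfold Lp
  rw [Function.update_of_ne (by simp)]
  congr 1
  refine Finset.prod_congr rfl fun k hk => ?_
  rw [Function.update_of_ne (by simpa using Finset.ne_of_mem_erase hk)]

noncomputable def newY (m : ℝ) (y : Option (Option J) → ℝ) : ℝ :=
  if IA cls W y = 1 then m + y none else Sg y

lemma F_newY (m : ℝ) (F : ℝ → ℝ) (y : Option (Option J) → ℝ) :
    F (newY cls W m y) = (1 - IA cls W y) * F (Sg y) + IA cls W y * F (m + y none) := by
  unfold newY
  rcases IA_cases cls W y with h | h <;> simp [h]

variable {ι : Type} [Fintype ι] [DecidableEq ι]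

lemma newY_deg {X : (ι → Bool) → ℝ} {D : ℕ} {c : ℝ} (h : Good X D c) (m : ℝ) (F : ℝ → ℝ) :
    LowDeg ((Fintype.card J + 1) * D) (fun x => F (lift X (newY cls W m) x)) := by
  have hc : ∀ k : Option (Option J), (univ.erase k).card = Fintype.card J + 1 := by
    intro k; rw [Finset.card_erase_of_mem (Finset.mem_univ _)]; simp
  have gen : ∀ (k : Option (Option J)) (G : (Option (Option J) → ℝ) → ℝ),
      (∀ y t, G (Function.update y k t) = G y) → LowDeg ((Fintype.card J + 1) * D) (lift X G) := by
    intro k G hG
    rw [← hc k]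
    apply lift_lowDeg h
    intro l hl
    have : l = k := by simpa using hl
    subst this; exact hG
  have e : (fun x => F (lift X (newY cls W m) x)) = fun x =>
      lift X (fun y => (1 - IA cls W y) * F (Sg y)) x +
        (∑ j, lift X (fun y => Lp cls W j y * F (m + y none)) x -
          lift X (fun y => Lm W y * F (m + y none)) x) := by
    funext x
    unfold lift
    rw [F_newY cls W m F, ← Finset.sum_mul, ← sub_mul]
    rfl
  rw [e]
  refine LowDeg.add (gen none _ ?_) (LowDeg.sub (LowDeg.sum _ fun j _ => gen (some (some j)) _ ?_)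
    (gen (some none) _ ?_))
  · intro y t; rw [IA_none, Sg_none]
  · intro y t; rw [Lp_upd, Function.update_of_ne (by simp)]
  · intro y t; rw [Lm_upd, Function.update_of_ne (by simp)]

omit [DecidableEq J] in
lemma sum_eq_Sg (y : Option (Option J) → ℝ) : ∑ k, y k = Sg y + y none := by
  rw [Fintype.sum_option, Fintype.sum_option]; unfold Sg; ring

lemma newY_good {X : (ι → Bool) → ℝ} {D : ℕ} {c : ℝ} (h : Good X D c) (h0 : av X = 0) (m : ℝ)
    (hm : av (fun x : Option (Option J) → ι → Bool =>
      IA cls W (fun k => X (x k)) * (Sg (fun k => X (x k)) - m)) = 0) :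
    Good (lift X (newY cls W m)) ((Fintype.card J + 1) * D) c := by
  refine ⟨newY_deg cls W h m, fun F => ?_⟩
  have := lift_cond h (fun y => F (newY cls W m y))
  have e1 : (fun x => F (lift X (newY cls W m) x) * score x) =
      fun x => lift X (fun y => F (newY cls W m y)) x * score x := rfl
  have e2 : (fun x => F (lift X (newY cls W m) x) * lift X (newY cls W m) x) =
      lift X (fun y => F (newY cls W m y) * newY cls W m y) := rfl
  rw [e1, this, e2, av_lift]
  congr 1
  have e3 : ∀ y : Option (Option J) → ℝ, F (newY cls W m y) * ∑ k, y k =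
      F (newY cls W m y) * newY cls W m y + ((1 - IA cls W y) * F (Sg y) * y none +
        IA cls W y * (Sg y - m) * F (m + y none)) := by
    intro y
    rw [sum_eq_Sg, F_newY cls W m (fun t => F t * t), F_newY cls W m F]
    ring
  simp only [e3]
  rw [av_add, av_add]
  rw [av_mul_indep none (fun x : Option (Option J) → ι → Bool =>
      (1 - IA cls W (fun k => X (x k))) * F (Sg (fun k => X (x k)))) _ X, h0,
    av_mul_indep none (fun x : Option (Option J) → ι → Bool =>
      IA cls W (fun k => X (x k)) * (Sg (fun k => X (x k)) - m)) _ (fun z => F (m + X z)), hm]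
  · ring
  · intro x z; simp only [comp_update, IA_none, Sg_none]
  · intro x z; simp only [comp_update, IA_none, Sg_none]

lemma exists_m (X : (ι → Bool) → ℝ) : ∃ m : ℝ, av (fun x : Option (Option J) → ι → Bool =>
      IA cls W (fun k => X (x k)) * (Sg (fun k => X (x k)) - m)) = 0 := by
  set P := av (fun x : Option (Option J) → ι → Bool => IA cls W (fun k => X (x k))) with hP
  by_cases h : P = 0
  · refine ⟨0, ?_⟩
    have : ∀ x : Option (Option J) → ι → Bool, IA cls W (fun k => X (x k)) = 0 :=
      eq_zero_of_av_eq_zero (fun x => by rcases IA_cases cls W (fun k => X (x k)) with h | h <;> simp [h])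
        (hP ▸ h)
    simp only [this, zero_mul, av_zero]
  · refine ⟨av (fun x : Option (Option J) → ι → Bool =>
      IA cls W (fun k => X (x k)) * Sg (fun k => X (x k))) / P, ?_⟩
    simp only [mul_sub]
    rw [av_sub, av_mul_right, ← hP]
    field_simp
    ring

lemma newY_sq {X : (ι → Bool) → ℝ} (h0 : av X = 0) (h1 : av (fun x => X x ^ 2) = 1) (m m₀ : ℝ)
    (hm : av (fun x : Option (Option J) → ι → Bool =>
      IA cls W (fun k => X (x k)) * (Sg (fun k => X (x k)) - m)) = 0) :
    (Fintype.card J + 1) + (av (fun x : Option (Option J) → ι → Bool =>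
      IA cls W (fun k => X (x k))) - av (fun x : Option (Option J) → ι → Bool =>
      IA cls W (fun k => X (x k)) * (Sg (fun k => X (x k)) - m₀) ^ 2)) ≤
      av (fun x => lift X (newY cls W m) x ^ 2) := by
  have e2 : (fun x => lift X (newY cls W m) x ^ 2) = lift X (fun y => newY cls W m y ^ 2) := rfl
  rw [e2, av_lift]
  have e3 : ∀ y : Option (Option J) → ℝ, newY cls W m y ^ 2 =
      Sg y ^ 2 + (IA cls W y * y none ^ 2 - IA cls W y * (Sg y - m₀) ^ 2) +
        (IA cls W y * (m - m₀) ^ 2 + (2 * m * (IA cls W y * y none) +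
          (-2 * m₀) * (IA cls W y * (Sg y - m)))) := by
    intro y
    rw [F_newY cls W m (fun t => t ^ 2)]
    ring
  simp only [e3]
  rw [av_add, av_add, av_add, av_add, av_sub, av_mul_left, av_mul_left, hm]
  have i1 : ∀ f : (ι → Bool) → ℝ, av (fun x : Option (Option J) → ι → Bool =>
      IA cls W (fun k => X (x k)) * f (x none)) =
      av (fun x : Option (Option J) → ι → Bool => IA cls W (fun k => X (x k))) * av f := by
    intro f
    apply av_mul_indep
    intro x z; simp only [comp_update, IA_none]
  rw [i1 X, i1 (fun z => X z ^ 2), h0, h1]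
  have s1 : av (fun x : Option (Option J) → ι → Bool => Sg (fun k => X (x k)) ^ 2) =
      Fintype.card J + 1 := by
    have := av_sum_sq (K := Option (Option J)) X h0 h1 (univ.erase none)
    rw [Finset.card_erase_of_mem (Finset.mem_univ _)] at this
    simp only [card_univ, Fintype.card_option, Nat.add_sub_cancel] at this
    push_cast at this
    rw [← this]
    apply av_congr
    intro x
    congr 1
    have := sum_eq_Sg (fun k => X (x k))
    rw [← Finset.add_sum_erase _ _ (Finset.mem_univ none)] at this
    linarith
  rw [s1]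
  have : 0 ≤ av (fun x : Option (Option J) → ι → Bool => IA cls W (fun k => X (x k)) * (m - m₀) ^ 2) := by
    apply av_nonneg
    intro x
    rcases IA_cases cls W (fun k => X (x k)) with h | h <;> simp [h, sq_nonneg]
  linarith

omit [DecidableEq J] in
lemma prod_opt {M : Type} [CommMonoid M] (f : Option (Option J) → M) :
    ∏ k, f k = f none * (f (some none) * ∏ k, f (some (some k))) := by
  rw [Fintype.prod_option, Fintype.prod_option]

lemma sum_erase_opt (f : Option (Option J) → ℝ) :
    ∑ k ∈ univ.erase (some none), f k = f none + ∑ k, f (some (some k)) := by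
  have h1 := Finset.add_sum_erase univ f (Finset.mem_univ (some none))
  rw [Fintype.sum_option, Fintype.sum_option] at h1
  linarith

lemma gain {Ω : Type} [Fintype Ω] [Nonempty Ω] {X : Ω → ℝ} (h0 : av X = 0)
    (h1 : av (fun x => X x ^ 2) = 1) (δ b : ℝ) (τ w : J → ℝ)
    (hτ : ∀ k, τ k = av (fun z => ind (X z ∈ W k))) (hτ0 : ∀ k, 0 < τ k)
    (hw : ∀ k, av (fun z => ind (X z ∈ W k) * (X z - w k)) = 0)
    (hb : ∀ k, ∀ u ∈ W k, (u - w k) ^ 2 ≤ b) :
    (∏ k, τ k) * (δ ^ 2 - ∑ j, (av (fun z => ind (cls (X z) = j) * (X z - w j + δ) ^ 2) +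
        av (fun z => ind (cls (X z) = j)) * (Fintype.card J * b)) / τ j) ≤
      av (fun x : Option (Option J) → Ω => IA cls W (fun k => X (x k))) -
      av (fun x : Option (Option J) → Ω =>
        IA cls W (fun k => X (x k)) * (Sg (fun k => X (x k)) - (∑ k, w k - δ)) ^ 2) := by
  set π := ∏ k, τ k with hπ
  have hπ0 : 0 < π := Finset.prod_pos fun k _ => hτ0 k
  set s : J → ℝ := fun k => av (fun z => (ind (X z ∈ W k) / τ k) * (X z - w k) ^ 2) with hs
  have n1 : ∀ k, av (fun z => ind (X z ∈ W k) / τ k) = 1 := by
    intro k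
    simp only [div_eq_mul_inv]
    rw [av_mul_right, ← hτ, mul_inv_cancel₀ (hτ0 k).ne']
  have n0 : ∀ k, av (fun z => ind (X z ∈ W k) / τ k * (X z - w k)) = 0 := by
    intro k
    have : ∀ z, ind (X z ∈ W k) / τ k * (X z - w k) = (τ k)⁻¹ * (ind (X z ∈ W k) * (X z - w k)) := by
      intro z; ring
    rw [av_congr this, av_mul_left, hw, mul_zero]
  have s0 : ∀ k, 0 ≤ s k := fun k => av_nonneg fun z =>
    mul_nonneg (div_nonneg (ind_nonneg _) (hτ0 k).le) (sq_nonneg _)
  have sb : ∀ k, s k ≤ b := by
    intro k
    have : av (fun z => ind (X z ∈ W k) / τ k * b) = b := by rw [av_mul_right, n1, one_mul]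
    rw [← this]
    apply av_mono
    intro z
    by_cases hz : X z ∈ W k
    · exact mul_le_mul_of_nonneg_left (hb k _ hz) (div_nonneg (ind_nonneg _) (hτ0 k).le)
    · simp [ind_neg hz]
  -- the negative line
  have m1 : av (fun x : Option (Option J) → Ω => Lm W (fun k => X (x k))) = π := by
    have := av_pi_prod (K := Option (Option J)) (Ω := Ω)
      (fun o z => match o with
        | none => 1
        | some none => 1
        | some (some k) => ind (X z ∈ W k))
    simp only [prod_opt, one_mul, av_const, ← hτ] at this
    exact this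
  have m2 : av (fun x : Option (Option J) → Ω =>
      Lm W (fun k => X (x k)) * (Sg (fun k => X (x k)) - (∑ k, w k - δ)) ^ 2) =
      π * (1 + δ ^ 2 + ∑ k, s k) := by
    have := av_prod_mul_sq (K := Option (Option J)) (Ω := Ω)
      (fun o z => match o with
        | none => 1
        | some none => 1
        | some (some k) => ind (X z ∈ W k) / τ k)
      (fun o z => match o with
        | none => 0
        | some none => X z + δ
        | some (some k) => X z - w k) (some none)
      (by rintro (_ | _ | k) hk
          · exact av_const 1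
          · exact absurd rfl hk
          · exact n1 k)
      (by rintro (_ | _ | k) hk
          · simp [av_zero]
          · exact absurd rfl hk
          · exact n0 k)
    rw [sum_erase_opt] at this
    simp only [prod_opt, Fintype.sum_option, one_mul, av_const, zero_add, ne_eq, OfNat.ofNat_ne_zero,
      not_false_eq_true, zero_pow] at this
    have e : av (fun z => (X z + δ) ^ 2) = 1 + δ ^ 2 := by
      have : ∀ z, (X z + δ) ^ 2 = X z ^ 2 + (2 * δ * X z + δ ^ 2) := by intro z; ring
      rw [av_congr this, av_add, av_add, av_mul_left, h0, h1, av_const]; ring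
    rw [e] at this
    rw [← this, ← av_mul_left]
    apply av_congr
    intro x
    unfold Lm Sg
    rw [Finset.prod_div_distrib, Finset.sum_sub_distrib, ← hπ]
    field_simp
    ring
  -- the positive lines
  have πj : ∀ j, ∏ k ∈ univ.erase j, τ k = π / τ j := by
    intro j
    rw [hπ, ← Finset.mul_prod_erase _ _ (Finset.mem_univ j)]
    have := (hτ0 j).ne'
    field_simp
  have p1 : ∀ j, av (fun x : Option (Option J) → Ω => Lp cls W j (fun k => X (x k))) =
      π / τ j * av (fun z => ind (cls (X z) = j)) := by
    intro j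
    have := av_pi_prod (K := Option (Option J)) (Ω := Ω)
      (fun o z => match o with
        | none => 1
        | some none => ind (cls (X z) = j)
        | some (some k) => if k = j then 1 else ind (X z ∈ W k))
    simp only [prod_opt, one_mul, av_const] at this
    have e1 : ∀ x : Option (Option J) → Ω, Lp cls W j (fun k => X (x k)) =
        ind (cls (X (x (some none))) = j) *
          ∏ k, if k = j then 1 else ind (X (x (some (some k))) ∈ W k) := by
      intro x
      unfold Lp
      rw [← Finset.mul_prod_erase _ _ (Finset.mem_univ j), if_pos rfl, one_mul]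
      congr 1
      exact Finset.prod_congr rfl fun k hk => by rw [if_neg (Finset.ne_of_mem_erase hk)]
    rw [av_congr e1, this, ← πj, ← Finset.mul_prod_erase _ _ (Finset.mem_univ j), mul_comm]
    simp only [if_true, av_const, one_mul]
    congr 1
    exact Finset.prod_congr rfl fun k hk => by
      simp only [if_neg (Finset.ne_of_mem_erase hk), hτ]
  have p2 : ∀ j, av (fun x : Option (Option J) → Ω =>
      Lp cls W j (fun k => X (x k)) * (Sg (fun k => X (x k)) - (∑ k, w k - δ)) ^ 2) ≤
      π / τ j * (av (fun z => ind (cls (X z) = j) * (X z - w j + δ) ^ 2) +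
        av (fun z => ind (cls (X z) = j)) * (1 + Fintype.card J * b)) := by
    intro j
    have := av_prod_mul_sq (K := Option (Option J)) (Ω := Ω)
      (fun o z => match o with
        | none => 1
        | some none => ind (cls (X z) = j)
        | some (some k) => if k = j then 1 else ind (X z ∈ W k) / τ k)
      (fun o z => match o with
        | none => 0
        | some none => X z - w j + δ
        | some (some k) => if k = j then X z else X z - w k) (some none)
      (by rintro (_ | _ | k) hk
          · exact av_const 1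
          · exact absurd rfl hk
          · by_cases hkj : k = j
            · simp only [hkj, if_true]; exact av_const 1
            · simp only [hkj, if_false]; exact n1 k)
      (by rintro (_ | _ | k) hk
          · simp [av_zero]
          · exact absurd rfl hk
          · by_cases hkj : k = j
            · simp only [hkj, if_true, one_mul]; exact h0
            · simp only [hkj, if_false]; exact n0 k)
    rw [sum_erase_opt] at this
    simp only [prod_opt, Fintype.sum_option, one_mul, av_const, zero_add, ne_eq, OfNat.ofNat_ne_zero,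
      not_false_eq_true, zero_pow] at this
    have e1 : ∀ x : Option (Option J) → Ω,
        Lp cls W j (fun k => X (x k)) * (Sg (fun k => X (x k)) - (∑ k, w k - δ)) ^ 2 =
        π / τ j * ((ind (cls (X (x (some none))) = j) *
          ∏ k, if k = j then 1 else ind (X (x (some (some k))) ∈ W k) / τ k) *
          (X (x (some none)) - w j + δ +
            ∑ k, if k = j then X (x (some (some k))) else X (x (some (some k))) - w k) ^ 2) := by
      intro x
      unfold Lp Sg
      have a1 : (∏ k, if k = j then 1 else ind (X (x (some (some k))) ∈ W k) / τ k) =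
          (∏ k ∈ univ.erase j, ind (X (x (some (some k))) ∈ W k)) / (π / τ j) := by
        rw [← Finset.mul_prod_erase _ _ (Finset.mem_univ j), if_pos rfl, one_mul, ← πj,
          ← Finset.prod_div_distrib]
        exact Finset.prod_congr rfl fun k hk => by rw [if_neg (Finset.ne_of_mem_erase hk)]
      have a2 : (∑ k, if k = j then X (x (some (some k))) else X (x (some (some k))) - w k) =
          ∑ k, X (x (some (some k))) - ∑ k, w k + w j := by
        have : ∀ k, (if k = j then X (x (some (some k))) else X (x (some (some k))) - w k) =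
            X (x (some (some k))) - w k + (if k = j then w k else 0) := by
          intro k; split_ifs <;> ring
        simp only [this]
        rw [Finset.sum_add_distrib, Finset.sum_sub_distrib]
        simp
      rw [a1, a2]
      have : π / τ j ≠ 0 := (div_pos hπ0 (hτ0 j)).ne'
      generalize π / τ j = q at *
      field_simp
      ring
    rw [av_congr e1, av_mul_left, this]
    apply mul_le_mul_of_nonneg_left _ (div_pos hπ0 (hτ0 j)).le
    gcongr
    · exact av_nonneg fun z => ind_nonneg _
    rw [← Finset.add_sum_erase _ _ (Finset.mem_univ j)]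
    simp only [if_true, one_mul, h1]
    gcongr
    have hb0 : 0 ≤ b := le_trans (s0 j) (sb j)
    calc _ ≤ ∑ k ∈ univ.erase j, b := by
          refine Finset.sum_le_sum fun k hk => ?_
          simp only [if_neg (Finset.ne_of_mem_erase hk)]
          exact sb k
      _ ≤ ∑ _k : J, b := Finset.sum_le_sum_of_subset_of_nonneg (Finset.erase_subset _ _)
          (fun _ _ _ => hb0)
      _ = _ := by simp
  unfold IA
  simp only [sub_mul, Finset.sum_mul]
  rw [av_sub, av_sub, av_sum, av_sum, m1, m2]
  have t1 := Finset.sum_le_sum (s := univ) fun j _ => p2 j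
  simp only [p1]
  have t2 : 0 ≤ π * ∑ k, s k := mul_nonneg hπ0.le (Finset.sum_nonneg fun k _ => s0 k)
  have t3 : ∑ j, π / τ j * (av (fun z => ind (cls (X z) = j) * (X z - w j + δ) ^ 2) +
        av (fun z => ind (cls (X z) = j)) * (1 + Fintype.card J * b)) =
      ∑ j, π / τ j * av (fun z => ind (cls (X z) = j)) +
        π * ∑ j, (av (fun z => ind (cls (X z) = j) * (X z - w j + δ) ^ 2) +
        av (fun z => ind (cls (X z) = j)) * (Fintype.card J * b)) / τ j := by
    rw [Finset.mul_sum, ← Finset.sum_add_distrib]
    refine Finset.sum_congr rfl fun j _ => ?_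
    ring
  rw [t3] at t1
  nlinarith

theorem gadget {X : (ι → Bool) → ℝ} {D : ℕ} {c : ℝ} (h : Good X D c) (h0 : av X = 0)
    (h1 : av (fun x => X x ^ 2) = 1) (δ b g τ₀ : ℝ) (p : J → ℝ) (hτ₀ : 0 < τ₀) (hg : 0 ≤ g)
    (hτ : ∀ k, τ₀ ≤ av (fun z => ind (X z ∈ W k)))
    (hW : ∀ k, W k ⊆ Set.Icc (p k) (p k + b))
    (he : ∀ w : J → ℝ, (∀ k, w k ∈ Set.Icc (p k) (p k + b)) →
      ∑ j, (av (fun z => ind (cls (X z) = j) * (X z - w j + δ) ^ 2) +
        av (fun z => ind (cls (X z) = j)) * (Fintype.card J * b ^ 2)) /
          av (fun z => ind (X z ∈ W j)) ≤ δ ^ 2 - g) :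
    ∃ X' : (Option (Option J) × ι → Bool) → ℝ, Good X' ((Fintype.card J + 1) * D) c ∧
      (Fintype.card J + 1) + τ₀ ^ Fintype.card J * g ≤ av (fun x => X' x ^ 2) := by
  obtain ⟨m, hm⟩ := exists_m cls W X
  refine ⟨lift X (newY cls W m), newY_good cls W h h0 m hm, ?_⟩
  set τ : J → ℝ := fun k => av (fun z => ind (X z ∈ W k)) with hτd
  have hτ0 : ∀ k, 0 < τ k := fun k => lt_of_lt_of_le hτ₀ (hτ k)
  set w : J → ℝ := fun k => av (fun z => ind (X z ∈ W k) * X z) / τ k with hwd
  have hw : ∀ k, av (fun z => ind (X z ∈ W k) * (X z - w k)) = 0 := by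
    intro k
    simp only [mul_sub]
    rw [av_sub, av_mul_right]
    have := (hτ0 k).ne'
    simp only [hwd]
    change _ - τ k * _ = 0
    field_simp
    ring
  have hwI : ∀ k, w k ∈ Set.Icc (p k) (p k + b) := by
    intro k
    constructor
    · simp only [hwd]
      rw [le_div_iff₀ (hτ0 k), mul_comm, ← av_mul_right]
      apply av_mono
      intro z
      by_cases hz : X z ∈ W k
      · exact mul_le_mul_of_nonneg_left (hW k hz).1 (ind_nonneg _)
      · simp [ind_neg hz]
    · simp only [hwd]
      rw [div_le_iff₀ (hτ0 k), mul_comm, ← av_mul_right]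
      apply av_mono
      intro z
      by_cases hz : X z ∈ W k
      · exact mul_le_mul_of_nonneg_left (hW k hz).2 (ind_nonneg _)
      · simp [ind_neg hz]
  have hb : ∀ k, ∀ u ∈ W k, (u - w k) ^ 2 ≤ b ^ 2 := by
    intro k u hu
    have a := hW k hu
    have a' := hwI k
    apply sq_le_sq'
    · linarith [a.1, a.2, a'.1, a'.2]
    · linarith [a.1, a.2, a'.1, a'.2]
  have g1 := gain cls W h0 h1 δ (b ^ 2) τ w (fun _ => rfl) hτ0 hw hb
  have g2 := newY_sq cls W h0 h1 m (∑ k, w k - δ) hm
  have g3 := he w hwI
  have g4 : τ₀ ^ Fintype.card J ≤ ∏ k, τ k := by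
    rw [← Finset.card_univ, ← Finset.prod_const]
    exact Finset.prod_le_prod (fun _ _ => hτ₀.le) fun k _ => hτ k
  have g5 : τ₀ ^ Fintype.card J * g ≤ (∏ k, τ k) * g := mul_le_mul_of_nonneg_right g4 hg
  have g6 : 0 ≤ ∏ k, τ k := Finset.prod_nonneg fun k _ => (hτ0 k).le
  have g7 := (mul_le_mul_of_nonneg_left (le_sub_comm.1 g3) g6).trans g1
  linarith

end

end Crest.Agent.H2.GS
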