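import Mathlib
import Crest.Agent.H2.GSGadget

set_option autoImplicit false

namespace Crest.Agent.H2.GS

open Finset MeasureTheory ProbabilityTheory Filter
open scoped Topology ENNReal

section
variable {Ω : Type} [Fintype Ω]

/-- the law of `X` under the uniform distribution -/
noncomputable def law (X : Ω → ℝ) : Measure ℝ :=
  ((Fintype.card Ω : ℝ≥0∞)⁻¹) • ∑ x : Ω, Measure.dirac (X x)

instance law_prob [Nonempty Ω] (X : Ω → ℝ) : IsProbabilityMeasure (law X) where
  measure_univ := by
    unfold law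
    simp only [Measure.smul_apply, Measure.coe_finsetSum, Finset.sum_apply, measure_univ, sum_const,
      card_univ, nsmul_eq_mul, mul_one, smul_eq_mul]
    exact ENNReal.inv_mul_cancel (by simp) (by simp)

lemma integral_law {E : Type} [NormedAddCommGroup E] [NormedSpace ℝ E] [CompleteSpace E]
    (X : Ω → ℝ) (f : ℝ → E) :
    ∫ t, f t ∂(law X) = ((Fintype.card Ω : ℝ)⁻¹) • ∑ x, f (X x) := by
  unfold law
  rw [integral_smul_measure, integral_finsetSum_measure (fun x _ => integrable_dirac (by simp))]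
  simp [integral_dirac]

lemma integral_law_real (X : Ω → ℝ) (f : ℝ → ℝ) :
    ∫ t, f t ∂(law X) = av (fun x => f (X x)) := by
  rw [integral_law, av, smul_eq_mul, div_eq_inv_mul]

lemma law_real (X : Ω → ℝ) {s : Set ℝ} (hs : MeasurableSet s) :
    (law X).real s = av (fun x => ind (X x ∈ s)) := by
  rw [← integral_indicator_one hs, integral_law_real]
  apply av_congr
  intro x
  by_cases h : X x ∈ s
  · rw [ind_pos h]; simp [h]
  · rw [ind_neg h]; simp [h]

lemma charFun_law_nsum [Nonempty Ω] (X : Ω → ℝ) (T : ℕ) (t : ℝ) :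
    charFun (law (fun x : Fin T → Ω => (√T)⁻¹ * ∑ k, X (x k))) t =
      (charFun (law X) ((√T)⁻¹ * t)) ^ T := by
  rw [charFun_apply_real, charFun_apply_real, integral_law, integral_law, smul_pow,
    Finset.sum_pow']
  simp only [Fintype.card_pi, prod_const, card_univ, Fintype.card_fin, Nat.cast_pow, inv_pow,
    Fintype.piFinset_univ]
  congr 1
  refine Finset.sum_congr rfl fun x _ => ?_
  rw [← Complex.exp_sum]
  congr 1
  push_cast
  rw [Finset.mul_sum, Finset.mul_sum, Finset.sum_mul]
  refine Finset.sum_congr rfl fun k _ => ?_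
  ring

theorem clt_Ico [Nonempty Ω] (X : Ω → ℝ) (h0 : av X = 0) (h1 : av (fun x => X x ^ 2) = 1)
    (a b : ℝ) :
    Tendsto (fun T : ℕ => av (fun x : Fin T → Ω => ind ((√T)⁻¹ * ∑ k, X (x k) ∈ Set.Ico a b)))
      atTop (𝓝 (∫ x in Set.Ico a b, gaussianPDFReal 0 1 x)) := by
  let μ : ℕ → ProbabilityMeasure ℝ := fun T =>
    ⟨law (fun x : Fin T → Ω => (√T)⁻¹ * ∑ k, X (x k)), inferInstance⟩
  let γ : ProbabilityMeasure ℝ := ⟨gaussianReal 0 1, inferInstance⟩
  have hlim : Tendsto μ atTop (𝓝 γ) := by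
    refine ProbabilityMeasure.tendsto_iff_tendsto_charFun.2 fun t => ?_
    have := tendsto_charFun_inv_sqrt_mul_pow (P := law X) (X := id) aemeasurable_id
      (by simpa using (integral_law_real X id).trans h0)
      (by simpa using (integral_law_real X (fun t => t ^ 2)).trans h1) t
    simp only [Measure.map_id] at this
    simpa [μ, γ, charFun_law_nsum, charFun_gaussianReal, neg_div] using this
  have hfr : (γ : Measure ℝ) (frontier (Set.Ico a b)) = 0 := by
    have := nullSingletonClass_gaussianReal (μ := 0) (v := 1) one_ne_zero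
    change gaussianReal 0 1 _ = 0
    rcases lt_or_ge a b with hab | hab
    · rw [frontier_Ico hab]
      exact (Set.toFinite _).measure_zero _
    · rw [Set.Ico_eq_empty (not_lt.2 hab)]; simp
  have key := ProbabilityMeasure.tendsto_measure_of_null_frontier_of_tendsto' hlim hfr
  have key2 := (ENNReal.tendsto_toReal (measure_ne_top _ _)).comp key
  have e : ((γ : Measure ℝ) (Set.Ico a b)).toReal = ∫ x in Set.Ico a b, gaussianPDFReal 0 1 x := by
    change (gaussianReal 0 1 (Set.Ico a b)).toReal = _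
    rw [gaussianReal_apply_eq_integral _ one_ne_zero, ENNReal.toReal_ofReal]
    exact integral_nonneg fun x => gaussianPDFReal_nonneg _ _ _
  rw [e] at key2
  refine key2.congr fun T => ?_
  exact law_real _ measurableSet_Ico

theorem mgf_bound [Nonempty Ω] (X : Ω → ℝ) (h0 : av X = 0) (h1 : av (fun x => X x ^ 2) = 1)
    (t : ℝ) : ∀ᶠ T : ℕ in atTop,
      av (fun x : Fin T → Ω => Real.exp (t * ((√T)⁻¹ * ∑ k, X (x k)))) ≤ Real.exp (t ^ 2) := by
  obtain ⟨M, hM⟩ : ∃ M : ℝ, ∀ x, |t * X x| ≤ M := by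
    obtain ⟨x₀, -, hx₀⟩ := Finset.exists_max_image univ (fun x => |t * X x|) Finset.univ_nonempty
    exact ⟨_, fun x => hx₀ x (Finset.mem_univ _)⟩
  have ev : ∀ᶠ T : ℕ in atTop, M ≤ √T :=
    (Real.tendsto_sqrt_atTop.comp tendsto_natCast_atTop_atTop).eventually_ge_atTop M
  filter_upwards [ev, eventually_gt_atTop 0] with T hT hT0
  have hs : (0 : ℝ) < √T := by positivity
  have hT0' : (0 : ℝ) < T := by positivity
  have e : ∀ x : Fin T → Ω, Real.exp (t * ((√T)⁻¹ * ∑ k, X (x k))) =
      ∏ k, Real.exp ((√T)⁻¹ * (t * X (x k))) := by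
    intro x
    rw [← Real.exp_sum, Finset.mul_sum, Finset.mul_sum]
    congr 1
    exact Finset.sum_congr rfl fun k _ => by ring
  rw [av_congr e, av_pi_prod (fun (_ : Fin T) z => Real.exp ((√T)⁻¹ * (t * X z)))]
  simp only [prod_const, card_univ, Fintype.card_fin]
  have b1 : av (fun z => Real.exp ((√T)⁻¹ * (t * X z))) ≤ Real.exp (t ^ 2 / T) := by
    calc _ ≤ av (fun z => 1 + (((√T)⁻¹ * t) * X z + (t ^ 2 / T) * X z ^ 2)) := by
          apply av_mono
          intro z
          have hz : |(√T)⁻¹ * (t * X z)| ≤ 1 := by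
            rw [abs_mul, abs_of_pos (inv_pos.2 hs), inv_mul_le_iff₀ hs, mul_one]
            exact (hM z).trans hT
          have := (abs_le.1 (Real.abs_exp_sub_one_sub_id_le hz)).2
          have e2 : ((√T)⁻¹ * (t * X z)) ^ 2 = (t ^ 2 / T) * X z ^ 2 := by
            rw [mul_pow, inv_pow, Real.sq_sqrt hT0'.le]; field_simp
          rw [e2] at this
          linarith
      _ = 1 + t ^ 2 / T := by
          rw [av_add, av_add, av_mul_left, av_mul_left, h0, h1, av_const]; ring
      _ ≤ _ := by linarith [Real.add_one_le_exp (t ^ 2 / T)]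
  calc _ ≤ Real.exp (t ^ 2 / T) ^ T :=
        pow_le_pow_left₀ (av_nonneg fun z => (Real.exp_pos _).le) b1 T
    _ = _ := by
        rw [← Real.exp_nat_mul]; congr 1; field_simp

end

end Crest.Agent.H2.GS
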