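import Mathlib
import Crest.Agent.H2.GSClt

set_option autoImplicit false

namespace Crest.Agent.H2.GS

open Finset MeasureTheory ProbabilityTheory Filter
open scoped Topology

noncomputable def phi (x : ℝ) : ℝ := gaussianPDFReal 0 1 x

noncomputable def gI (a b : ℝ) : ℝ := ∫ x in Set.Ico a b, phi x

lemma phi_pos (x : ℝ) : 0 < phi x := gaussianPDFReal_pos _ _ _ one_ne_zero

lemma phi_eq (x : ℝ) : phi x = phi 0 * Real.exp (-x ^ 2 / 2) := by
  unfold phi gaussianPDFReal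
  simp

lemma gI_le {a b M : ℝ} (hab : a ≤ b) (h : ∀ x ∈ Set.Ico a b, phi x ≤ M) : gI a b ≤ (b - a) * M := by
  have : ∫ _x in Set.Ico a b, M = (b - a) * M := by
    rw [setIntegral_const, Real.volume_real_Ico_of_le hab, smul_eq_mul]
  rw [← this]
  apply setIntegral_mono_on (integrable_gaussianPDFReal _ _).integrableOn
    (integrableOn_const (by simp)) measurableSet_Ico h

lemma gI_ge {a b M : ℝ} (hab : a ≤ b) (h : ∀ x ∈ Set.Ico a b, M ≤ phi x) : (b - a) * M ≤ gI a b := by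
  have : ∫ _x in Set.Ico a b, M = (b - a) * M := by
    rw [setIntegral_const, Real.volume_real_Ico_of_le hab, smul_eq_mul]
  rw [← this]
  apply setIntegral_mono_on (integrableOn_const (by simp))
    (integrable_gaussianPDFReal _ _).integrableOn measurableSet_Ico h

lemma phi_ratio {a p K : ℝ} (h1 : |a - p| ≤ 1 / 4) (h2 : |p| ≤ K) :
    phi a ≤ phi p * Real.exp ((K + 1) / 4) ∧ phi p ≤ phi a * Real.exp ((K + 1) / 4) := by
  have key : |a ^ 2 - p ^ 2| ≤ (K + 1) / 2 := by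
    have e : a ^ 2 - p ^ 2 = (a - p) * ((a - p) + 2 * p) := by ring
    rw [e, abs_mul]
    have : |(a - p) + 2 * p| ≤ 1 / 4 + 2 * K := by
      refine (abs_add_le _ _).trans ?_
      rw [abs_mul, abs_two]; linarith
    have hK : 0 ≤ K := (abs_nonneg _).trans h2
    calc _ ≤ 1 / 4 * (1 / 4 + 2 * K) := mul_le_mul h1 this (abs_nonneg _) (by norm_num)
      _ ≤ _ := by linarith
  rw [abs_le] at key
  rw [phi_eq a, phi_eq p]
  constructor
  · rw [mul_assoc, ← Real.exp_add]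
    exact mul_le_mul_of_nonneg_left (Real.exp_le_exp.2 (by linarith)) (phi_pos 0).le
  · rw [mul_assoc, ← Real.exp_add]
    exact mul_le_mul_of_nonneg_left (Real.exp_le_exp.2 (by linarith)) (phi_pos 0).le

lemma gI_pos {a b : ℝ} (hab : a < b) (hb : b ≤ a + 1 / 4) : 0 < gI a b := by
  have := gI_ge (M := phi a / Real.exp ((|a| + 1) / 4)) hab.le (fun x hx => by
    rw [div_le_iff₀ (Real.exp_pos _)]
    exact (phi_ratio (by rw [abs_le]; constructor <;> linarith [hx.1, hx.2]) le_rfl).2)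
  exact lt_of_lt_of_le (mul_pos (by linarith) (div_pos (phi_pos a) (Real.exp_pos _))) this

lemma params (C₁ C : ℝ) (hC₁ : 1 ≤ C₁) (hC : 0 < C) :
    ∃ (K : ℝ) (N : ℕ) (h' : ℝ), 1 ≤ K ∧ 0 < N ∧ K / N ≤ 1 / 8 ∧ 0 < h' ∧ h' ≤ K / N ∧
      C₁ * Real.exp (K + 1) ^ 2 *
        ((K / N) ^ 2 + (2 * N + 1) * h' ^ 2 + C / Real.exp (K + 1) ^ 11) / h' ≤ 1 / 128 := by
  set C₂ : ℝ := 786432 * C₁ ^ 2 + 1 with hC₂
  set C₃ : ℝ := 1536 * C₁ ^ 2 * C₂ * C with hC₃
  have hC₂0 : 0 < C₂ := by positivity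
  have hC₃0 : 0 < C₃ := by positivity
  set K : ℝ := 512 * C₃ + 1 with hK
  have hK1 : 1 ≤ K := by linarith
  set E := Real.exp (K + 1) with hE
  have hKE : K ≤ E := by linarith [Real.add_one_le_exp (K + 1)]
  have hE1 : 1 ≤ E := hK1.trans hKE
  set N : ℕ := ⌈786432 * C₁ ^ 2 * E ^ 6⌉₊ with hN
  have hN1 : 786432 * C₁ ^ 2 * E ^ 6 ≤ N := Nat.le_ceil _
  have hE6 : E ≤ E ^ 6 := le_self_pow₀ hE1 (by norm_num)
  have hC12 : 1 ≤ C₁ ^ 2 := one_le_pow₀ hC₁
  have hN2 : (N : ℝ) ≤ C₂ * E ^ 6 := by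
    have := (Nat.ceil_lt_add_one (show 0 ≤ 786432 * C₁ ^ 2 * E ^ 6 by positivity)).le
    rw [← hN] at this
    rw [hC₂]; nlinarith
  have hN3 : 8 * E ≤ N := by nlinarith
  have hN0 : (0 : ℝ) < N := by linarith
  set B := C₁ * E ^ 2 with hB
  have hB1 : 1 ≤ B := by rw [hB]; nlinarith
  refine ⟨K, N, 1 / (512 * B * (2 * N + 1)), hK1, by exact_mod_cast hN0, ?_, by positivity, ?_, ?_⟩
  · rw [div_le_iff₀ hN0]; linarith
  · rw [div_le_div_iff₀ (by positivity) hN0]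
    nlinarith [mul_le_mul hK1 (show (N : ℝ) ≤ 512 * B * (2 * N + 1) by nlinarith) hN0.le (by linarith)]
  · have e : B * ((K / N) ^ 2 + (2 * N + 1) * (1 / (512 * B * (2 * N + 1))) ^ 2 + C / E ^ 11) /
        (1 / (512 * B * (2 * N + 1))) =
        512 * B ^ 2 * (2 * N + 1) * (K / N) ^ 2 + 1 / 512 + 512 * B ^ 2 * (2 * N + 1) * (C / E ^ 11) := by
      field_simp
    rw [e]
    have t0 : (2 * (N : ℝ) + 1) ≤ 3 * N := by linarith
    have t1 : 512 * B ^ 2 * (2 * N + 1) * (K / N) ^ 2 ≤ 1 / 512 := by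
      calc _ ≤ 512 * B ^ 2 * (3 * N) * (E / N) ^ 2 := by gcongr
        _ = (786432 * C₁ ^ 2 * E ^ 6) / N / 512 := by rw [hB]; field_simp; ring
        _ ≤ 1 / 512 := by gcongr; rwa [div_le_one hN0]
    have t2 : 512 * B ^ 2 * (2 * N + 1) * (C / E ^ 11) ≤ 1 / 512 := by
      calc _ ≤ 512 * B ^ 2 * (3 * (C₂ * E ^ 6)) * (C / E ^ 11) := by gcongr; linarith
        _ = C₃ / E := by rw [hB, hC₃]; field_simp; ring
        _ ≤ 1 / 512 := by rw [div_le_div_iff₀ (by positivity) (by norm_num)]; linarith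
    linarith

lemma tail_pt (K x u : ℝ) (hx : K ≤ |x|) (hu : |u| ≤ 1) :
    (x + u) ^ 2 ≤ Real.exp (-11 * K) * (Real.exp (13 * x) + Real.exp (-13 * x)) := by
  have h1 : |x + u| ≤ Real.exp |x| := by
    have := abs_add_le x u
    linarith [Real.add_one_le_exp |x|]
  have h2 : (x + u) ^ 2 ≤ Real.exp (2 * |x|) := by
    rw [← sq_abs, two_mul, Real.exp_add, sq]
    exact mul_le_mul h1 h1 (abs_nonneg _) (Real.exp_pos _).le
  have h3 : Real.exp (2 * |x|) ≤ Real.exp (-11 * K) * Real.exp (13 * |x|) := by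
    rw [← Real.exp_add]; exact Real.exp_le_exp.2 (by linarith)
  have h4 : Real.exp (13 * |x|) ≤ Real.exp (13 * x) + Real.exp (-13 * x) := by
    rcases abs_cases x with h | h
    · rw [h.1]; linarith [Real.exp_pos (-13 * x)]
    · rw [h.1]
      have : 13 * -x = -13 * x := by ring
      rw [this]; linarith [Real.exp_pos (13 * x)]
  exact h2.trans (h3.trans (mul_le_mul_of_nonneg_left h4 (Real.exp_pos _).le))

end Crest.Agent.H2.GS
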