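import Mathlib
import Crest.Agent.H2.GSGauss

set_option autoImplicit false

namespace Crest.Agent.H2.GS

open Finset MeasureTheory ProbabilityTheory Filter
open scoped Topology

/-- a block of ratio at least `R` exists -/
def Realised (R : ℝ) : Prop :=
  ∃ (ι : Type) (_ : Fintype ι) (_ : DecidableEq ι) (X : (ι → Bool) → ℝ) (D : ℕ) (c : ℝ),
    Good X D c ∧ 0 < D ∧ 0 < c ∧ av (fun x => X x ^ 2) = 1 ∧ R * D ≤ c ^ 2

open Classical in
noncomputable def clsF (K h : ℝ) (N : ℕ) (x : ℝ) : Option (Fin (2 * N)) :=
  if hx : ∃ i : Fin (2 * N), x ∈ Set.Ico (-K + i * h) (-K + i * h + h) then some hx.choose else none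

lemma clsF_some {K h : ℝ} {N : ℕ} {x : ℝ} {i : Fin (2 * N)} (H : clsF K h N x = some i) :
    x ∈ Set.Ico (-K + i * h) (-K + i * h + h) := by
  unfold clsF at H
  split_ifs at H with hx
  have := hx.choose_spec
  rw [Option.some.injEq] at H
  rwa [H] at this

lemma clsF_none {K : ℝ} {N : ℕ} (hN : 0 < N) (hK : 0 < K) {x : ℝ} (H : clsF K (K / N) N x = none) :
    K ≤ |x| := by
  unfold clsF at H
  split_ifs at H with hx
  by_contra hlt
  rw [not_le, abs_lt] at hlt
  apply hx
  have hN' : (0 : ℝ) < N := by positivity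
  have hh : 0 < K / N := by positivity
  have h0 : 0 ≤ (x + K) / (K / N) := div_nonneg (by linarith) hh.le
  have h1 : ⌊(x + K) / (K / N)⌋₊ < 2 * N := by
    rw [Nat.floor_lt h0, div_lt_iff₀ hh]
    push_cast
    have : 2 * (N : ℝ) * (K / N) = 2 * K := by field_simp
    linarith
  refine ⟨⟨_, h1⟩, ?_, ?_⟩
  · have := Nat.floor_le h0
    rw [le_div_iff₀ hh] at this
    simp only
    linarith
  · have := Nat.lt_floor_add_one ((x + K) / (K / N))
    rw [div_lt_iff₀ hh] at this
    simp only
    linarith

theorem amplify : ∃ η : ℝ, 0 < η ∧ ∀ R : ℝ, 0 ≤ R → Realised R → Realised ((1 + η) * R) := by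
  have φ0 := phi_pos 0
  obtain ⟨K, N, h', hK, hN, hh8, hh', hh'h, hpar⟩ :=
    params (8 + 2 / phi 0) (2 * Real.exp (13 ^ 2) * Real.exp 11) (by
      have : 0 < 2 / phi 0 := by positivity
      linarith) (by positivity)
  set h := K / N with hh
  set E := Real.exp (K + 1) with hE
  have hKE : K ≤ E := by linarith [Real.add_one_le_exp (K + 1)]
  have hE1 : 1 ≤ E := hK.trans hKE
  have hN' : (0 : ℝ) < N := by positivity
  have hpos : 0 < h := lt_of_lt_of_le hh' hh'h
  set Q := Real.exp ((K + 1) / 4) with hQ
  have hQ0 : 0 < Q := Real.exp_pos _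
  have hQ1 : 1 ≤ Q := Real.one_le_exp (by linarith)
  have hQ2 : Q * Q ≤ E := by
    rw [hQ, ← Real.exp_add]; exact Real.exp_le_exp.2 (by linarith)
  have hQE : Q ≤ E := by nlinarith
  let pt : Fin (2 * N) → ℝ := fun i => -K + i * h
  have hpt : ∀ i, |pt i| ≤ K := by
    intro i
    have h1 : (i : ℝ) ≤ 2 * N := by exact_mod_cast i.2.le
    have h2 : 2 * (N : ℝ) * h = 2 * K := by rw [hh]; field_simp
    have h3 : (0 : ℝ) ≤ i * h := by positivity
    have h4 : (i : ℝ) * h ≤ 2 * N * h := mul_le_mul_of_nonneg_right h1 hpos.le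
    rw [abs_le]; simp only [pt]; constructor <;> linarith
  let pp : Option (Fin (2 * N)) → ℝ := fun j => match j with
    | none => 0
    | some i => pt i + 1 / 8
  let W : Option (Fin (2 * N)) → Set ℝ := fun j => Set.Ico (pp j) (pp j + h')
  have gW : ∀ j, 0 < gI (pp j) (pp j + h') := fun j => gI_pos (by linarith) (by linarith)
  obtain ⟨j₀, -, hj₀⟩ := Finset.exists_min_image univ (fun j => gI (pp j) (pp j + h'))
    Finset.univ_nonempty
  set τ₀ := gI (pp j₀) (pp j₀ + h') / 2 with hτ₀
  have hτ₀0 : 0 < τ₀ := half_pos (gW j₀)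
  set n : ℕ := Fintype.card (Option (Fin (2 * N))) with hn
  have hn' : (n : ℝ) = 2 * N + 1 := by rw [hn]; simp
  refine ⟨τ₀ ^ n * (1 / 128) / (n + 1), by positivity, ?_⟩
  rintro R hR ⟨ι, i1, i2, X, D, c, hG, hD, hc, h1, hRc⟩
  have h0 := hG.mean hc.ne'
  have ev1 : ∀ᶠ T : ℕ in atTop, ∀ j, gI (pp j) (pp j + h') / 2 ≤
      av (fun x : Fin T → ι → Bool => ind ((√T)⁻¹ * ∑ k, X (x k) ∈ W j)) := by
    rw [eventually_all]
    intro j
    exact (clt_Ico X h0 h1 (pp j) (pp j + h')).eventually_const_le (half_lt_self (gW j))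
  have ev2 : ∀ᶠ T : ℕ in atTop, ∀ i, 
      av (fun x : Fin T → ι → Bool => ind ((√T)⁻¹ * ∑ k, X (x k) ∈ Set.Ico (pt i) (pt i + h))) ≤
        2 * gI (pt i) (pt i + h) := by
    rw [eventually_all]
    intro i
    have : 0 < gI (pt i) (pt i + h) := gI_pos (by linarith) (by linarith)
    exact (clt_Ico X h0 h1 (pt i) (pt i + h)).eventually_le_const (by
      change gI _ _ < _; linarith)
  obtain ⟨T, ⟨⟨e1, e2⟩, e3, e4⟩, hT⟩ := (((ev1.and ev2).and
    ((mgf_bound X h0 h1 13).and (mgf_bound X h0 h1 (-13)))).and (eventually_gt_atTop 0)).exists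
  have hG' := hG.nsum hT
  have hc' : 0 < c * √T := by positivity
  have h0' := hG'.mean hc'.ne'
  have h1' := nsum_sq h0 h1 hT
  have f1 : ∀ j, gI (pp j) (pp j + h') / 2 ≤ av (fun z => ind (nsum X T z ∈ W j)) := by
    intro j; rw [av_nsum X T (fun t => ind (t ∈ W j))]; exact e1 j
  have f2 : ∀ i, av (fun z => ind (nsum X T z ∈ Set.Ico (pt i) (pt i + h))) ≤
      2 * gI (pt i) (pt i + h) := by
    intro i; rw [av_nsum X T (fun t => ind (t ∈ Set.Ico (pt i) (pt i + h)))]; exact e2 i
  rw [← av_nsum X T (fun t => Real.exp (13 * t))] at e3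
  rw [← av_nsum X T (fun t => Real.exp (-13 * t))] at e4
  generalize nsum X T = Y at *
  obtain ⟨X', hG2, hv⟩ := gadget (clsF K h N) W hG' h0' h1' (1 / 8) h' (1 / 128) τ₀ pp hτ₀0
    (by norm_num) (fun k => le_trans (by linarith [hj₀ k (Finset.mem_univ _)]) (f1 k))
    (fun k => Set.Ico_subset_Icc_self) (by
      intro w hw
      rw [Fintype.sum_option, ← hn, hn']
      set tl := 2 * Real.exp (13 ^ 2) * Real.exp 11 / E ^ 11 with htl
      have tl0 : 0 ≤ tl := by positivity
      set S := h ^ 2 + (2 * N + 1) * h' ^ 2 + tl with hS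
      have S0 : 0 ≤ S := by positivity
      have t1 : (av (fun z => ind (clsF K h N (Y z) = none) * (Y z - w none + 1 / 8) ^ 2) +
          av (fun z => ind (clsF K h N (Y z) = none)) * ((2 * N + 1) * h' ^ 2)) /
          av (fun z => ind (Y z ∈ W none)) ≤ 2 / phi 0 * E ^ 2 * S / h' := by
        have a1 : av (fun z => ind (clsF K h N (Y z) = none) * (Y z - w none + 1 / 8) ^ 2) ≤ tl := by
          calc _ ≤ av (fun z => Real.exp (-11 * K) * (Real.exp (13 * Y z) + Real.exp (-13 * Y z))) := by
                apply av_mono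
                intro z
                by_cases hz : clsF K h N (Y z) = none
                · rw [ind_pos hz, one_mul, sub_add]
                  have hw0 := hw none
                  simp only [pp, Set.mem_Icc] at hw0
                  have := tail_pt K (Y z) (-(w none - 1 / 8)) (clsF_none hN (by linarith) hz)
                    (by rw [abs_le]; constructor <;> linarith [hw0.1, hw0.2])
                  rwa [← sub_eq_add_neg] at this
                · rw [ind_neg hz, zero_mul]; positivity
            _ ≤ Real.exp (-11 * K) * (Real.exp (13 ^ 2) + Real.exp (13 ^ 2)) := by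
                rw [av_mul_left, av_add]
                have : (-13 : ℝ) ^ 2 = 13 ^ 2 := by norm_num
                rw [this] at e4
                gcongr
            _ = tl := by
                rw [htl, hE, ← Real.exp_nat_mul, eq_div_iff (Real.exp_pos _).ne']
                have : Real.exp 11 = Real.exp (-11 * K) * Real.exp ((11 : ℕ) * (K + 1)) := by
                  rw [← Real.exp_add]; congr 1; push_cast; ring
                rw [this]; ring
        have a2 : av (fun z => ind (clsF K h N (Y z) = none)) ≤ 1 := by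
          rw [← av_const (Ω := Fin T × ι → Bool) 1]
          exact av_mono fun z => ind_le_one _
        have a3 : h' * (phi 0 / Q) / 2 ≤ av (fun z => ind (Y z ∈ W none)) := by
          refine le_trans ?_ (f1 none)
          have := gI_ge (a := pp none) (b := pp none + h') (M := phi 0 / Q) (by linarith) (fun x hx => by
            rw [div_le_iff₀ hQ0]
            simp only [pp, Set.mem_Ico] at hx
            exact (phi_ratio (p := 0) (by rw [abs_le]; constructor <;> linarith [hx.1, hx.2])
              (by simp; linarith)).2)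
          rw [add_sub_cancel_left] at this
          linarith
        calc _ ≤ S / (h' * (phi 0 / Q) / 2) := by
              apply div_le_div₀ S0 _ (by positivity) a3
              have : av (fun z => ind (clsF K h N (Y z) = none)) * ((2 * N + 1) * h' ^ 2) ≤
                  1 * ((2 * N + 1) * h' ^ 2) := mul_le_mul_of_nonneg_right a2 (by positivity)
              nlinarith [sq_nonneg h]
          _ = 2 / phi 0 * Q * S / h' := by field_simp
          _ ≤ _ := by gcongr; nlinarith
      have t2 : ∀ i : Fin (2 * N),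
          (av (fun z => ind (clsF K h N (Y z) = some i) * (Y z - w (some i) + 1 / 8) ^ 2) +
          av (fun z => ind (clsF K h N (Y z) = some i)) * ((2 * N + 1) * h' ^ 2)) /
          av (fun z => ind (Y z ∈ W (some i))) ≤ 4 * E * h * S / h' := by
        intro i
        have a0 : 0 ≤ av (fun z => ind (clsF K h N (Y z) = some i)) := av_nonneg fun z => ind_nonneg _
        have a1 : av (fun z => ind (clsF K h N (Y z) = some i) * (Y z - w (some i) + 1 / 8) ^ 2) ≤
            av (fun z => ind (clsF K h N (Y z) = some i)) * h ^ 2 := by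
          rw [← av_mul_right]
          apply av_mono
          intro z
          by_cases hz : clsF K h N (Y z) = some i
          · apply mul_le_mul_of_nonneg_left _ (ind_nonneg _)
            have b1 := clsF_some hz
            have b2 := hw (some i)
            simp only [pp, pt, Set.mem_Icc] at b2
            apply sq_le_sq' <;> linarith [b1.1, b1.2, b2.1, b2.2]
          · simp [ind_neg hz]
        have a2 : av (fun z => ind (clsF K h N (Y z) = some i)) ≤ 2 * (h * (phi (pt i) * Q)) := by
          calc _ ≤ av (fun z => ind (Y z ∈ Set.Ico (pt i) (pt i + h))) := by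
                apply av_mono
                intro z
                by_cases hz : clsF K h N (Y z) = some i
                · rw [ind_pos hz, ind_pos (clsF_some hz)]
                · rw [ind_neg hz]; exact ind_nonneg _
            _ ≤ _ := f2 i
            _ ≤ _ := by
                have := gI_le (a := pt i) (b := pt i + h) (M := phi (pt i) * Q) (by linarith)
                  (fun x hx => (phi_ratio (by rw [abs_le]; constructor <;> linarith [hx.1, hx.2])
                    (hpt i)).1)
                rw [add_sub_cancel_left] at this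
                linarith
        have a3 : h' * (phi (pt i) / Q) / 2 ≤ av (fun z => ind (Y z ∈ W (some i))) := by
          refine le_trans ?_ (f1 (some i))
          have := gI_ge (a := pp (some i)) (b := pp (some i) + h') (M := phi (pt i) / Q) (by linarith)
            (fun x hx => by
              rw [div_le_iff₀ hQ0]
              simp only [pp, Set.mem_Ico] at hx
              exact (phi_ratio (by rw [abs_le]; constructor <;> linarith [hx.1, hx.2]) (hpt i)).2)
          rw [add_sub_cancel_left] at this
          linarith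
        have φi := phi_pos (pt i)
        calc _ ≤ (2 * (h * (phi (pt i) * Q)) * S) / (h' * (phi (pt i) / Q) / 2) := by
              apply div_le_div₀ (by positivity) _ (by positivity) a3
              calc _ ≤ av (fun z => ind (clsF K h N (Y z) = some i)) * S := by
                    rw [hS]; nlinarith [mul_nonneg a0 tl0]
                _ ≤ _ := mul_le_mul_of_nonneg_right a2 S0
          _ = 4 * (Q * Q) * h * S / h' := by field_simp; ring
          _ ≤ _ := by gcongr
      have t3 := Finset.sum_le_sum (s := univ) fun i _ => t2 i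
      simp only [sum_const, card_univ, Fintype.card_fin, nsmul_eq_mul] at t3
      have t4 : ((2 * N : ℕ) : ℝ) * (4 * E * h * S / h') ≤ 8 * E ^ 2 * S / h' := by
        calc _ = 8 * (K * E) * S / h' := by rw [hh]; push_cast; field_simp; ring
          _ ≤ _ := by gcongr; nlinarith
      have t5 : (8 + 2 / phi 0) * E ^ 2 * S / h' = 2 / phi 0 * E ^ 2 * S / h' + 8 * E ^ 2 * S / h' := by
        ring
      linarith)
  rw [← hn] at hG2 hv
  set v := av (fun x => X' x ^ 2) with hvd
  have hv0 : 0 < v := lt_of_lt_of_le (by positivity) hv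
  have hsv : 0 < √v := Real.sqrt_pos.2 hv0
  refine ⟨_, inferInstance, inferInstance, _, _, _, hG2.scale hsv.ne', by positivity, by positivity,
    ?_, ?_⟩
  · simp only [mul_pow]
    rw [av_mul_left, ← hvd, inv_pow, Real.sq_sqrt hv0.le, inv_mul_cancel₀ hv0.ne']
  · rw [mul_pow, mul_pow, Real.sq_sqrt hv0.le, Real.sq_sqrt (by positivity)]
    push_cast
    calc _ = (R * D) * T * (n + 1 + τ₀ ^ n * (1 / 128)) := by field_simp
      _ ≤ _ := by gcongr

theorem realised_all (R : ℝ) : Realised R := by
  obtain ⟨η, hη, H⟩ := amplify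
  have base : Realised 1 :=
    ⟨Unit, inferInstance, inferInstance, _, 1, 1, good_base, one_pos, one_pos, base_sq, by simp⟩
  have it : ∀ k : ℕ, Realised ((1 + η) ^ k) := by
    intro k
    induction k with
    | zero => simpa using base
    | succ m ih => rw [pow_succ, mul_comm]; exact H _ (by positivity) ih
  obtain ⟨k, hk⟩ := ((tendsto_pow_atTop_atTop_of_one_lt (show 1 < 1 + η by linarith)).eventually_ge_atTop
    R).exists
  obtain ⟨ι, i1, i2, X, D, c, a1, a2, a3, a4, a5⟩ := it k
  exact ⟨ι, i1, i2, X, D, c, a1, a2, a3, a4,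
    le_trans (mul_le_mul_of_nonneg_right hk (by positivity)) a5⟩

theorem exists_bool (C : ℝ) (hC : 0 < C) :
    ∃ (ι : Type) (_ : Fintype ι) (_ : DecidableEq ι) (f : (ι → Bool) → Bool) (d : ℕ),
      LowDeg d (fun x => sg (f x)) ∧ C * √d < av (fun x => sg (f x) * score x) := by
  classical
  have g0 : 0 < gI 1 (1 + 1 / 4) := gI_pos (by norm_num) le_rfl
  set κ := gI 1 (1 + 1 / 4) / 2 with hκ
  have hκ0 : 0 < κ := half_pos g0
  obtain ⟨ι, i1, i2, X, D, c, hG, hD, hc, h1, hR⟩ := realised_all ((2 * C / κ) ^ 2)
  have h0 := hG.mean hc.ne'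
  obtain ⟨T, e1, hT⟩ := (((clt_Ico X h0 h1 1 (1 + 1 / 4)).eventually_const_le
    (half_lt_self g0)).and (eventually_gt_atTop 0)).exists
  rw [← av_nsum X T (fun t => ind (t ∈ Set.Ico (1 : ℝ) (1 + 1 / 4)))] at e1
  have hG' := hG.nsum hT
  refine ⟨_, inferInstance, inferInstance, fun x => decide (0 ≤ nsum X T x), T * D,
    hG'.deg (fun t => sg (decide (0 ≤ t))), ?_⟩
  rw [hG'.cond (fun t => sg (decide (0 ≤ t)))]
  have a1 : κ ≤ av (fun x => sg (decide (0 ≤ nsum X T x)) * nsum X T x) := by
    refine le_trans e1 (av_mono fun x => ?_)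
    by_cases hx : nsum X T x ∈ Set.Ico (1 : ℝ) (1 + 1 / 4)
    · have : 0 ≤ nsum X T x := by linarith [hx.1]
      rw [ind_pos hx]
      simp [sg, this, hx.1]
    · rw [ind_neg hx]
      by_cases h2 : 0 ≤ nsum X T x
      · simp [sg, h2]
      · simp [sg, h2]; linarith
  have a2 : 2 * C / κ * √D ≤ c := by
    apply (pow_le_pow_iff_left₀ (by positivity) hc.le two_ne_zero).1
    rw [mul_pow, Real.sq_sqrt (by positivity)]
    exact hR
  have hsD : (0 : ℝ) < √D := by positivity
  have hsT : (0 : ℝ) < √T := by positivity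
  calc C * √((T * D : ℕ) : ℝ) = C * √D * √T := by push_cast; rw [Real.sqrt_mul (by positivity)]; ring
    _ < 2 * C * √D * √T := by gcongr; linarith
    _ = (2 * C / κ * √D) * √T * κ := by field_simp
    _ ≤ _ := by gcongr

end Crest.Agent.H2.GS
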