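import Crest.Agent.H2.GmDefs

/-! Row 40: no colour support contains a long continuum. -/

set_option autoImplicit false

namespace Crest.Agent.H2.Gm
open Metric Set Filter Topology
open scoped ComplexConjugate

lemma arc_conn (z p : ℂ) (r : ℝ) : IsPreconnected (sphere z 1 ∩ ball p r) := by
  obtain ⟨u, hu, hd⟩ : ∃ u : ℂ, ‖u‖ = 1 ∧ p - z = (‖p - z‖ : ℂ) * u :=
    ⟨Complex.exp (Complex.arg (p - z) * Complex.I), by simp,
      (Complex.norm_mul_exp_arg_mul_I _).symm⟩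
  set d := ‖p - z‖
  have hd0 : 0 ≤ d := norm_nonneg _
  have u0 : u ≠ 0 := by rintro rfl; simp at hu
  set f : ℝ → ℂ := fun s => z + u * Complex.exp (s * Complex.I) with hf
  have hsq : ∀ s, dist (f s) p ^ 2 = 1 + d ^ 2 - 2 * d * Real.cos s := by
    intro s
    have : f s - p = u * (Complex.exp (s * Complex.I) - d) := by
      simp only [hf]; linear_combination (-1 : ℂ) * hd
    rw [dist_eq_norm, this, norm_mul, hu, one_mul, ← Complex.normSq_eq_norm_sq, Complex.normSq_apply]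
    simp only [Complex.sub_re, Complex.exp_ofReal_mul_I_re, Complex.ofReal_re, Complex.sub_im,
      Complex.exp_ofReal_mul_I_im, Complex.ofReal_im]
    linear_combination Real.cos_sq_add_sin_sq s
  have : sphere z 1 ∩ ball p r = f '' {s | s ∈ Icc (-Real.pi) Real.pi ∧ dist (f s) p < r} := by
    ext w
    constructor
    · rintro ⟨h1, h2⟩
      have hn : ‖(w - z) / u‖ = 1 := by rw [norm_div, hu, div_one]; simpa [dist_eq_norm] using h1
      have e : f (Complex.arg ((w - z) / u)) = w := by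
        have := Complex.norm_mul_exp_arg_mul_I ((w - z) / u)
        rw [hn, Complex.ofReal_one, one_mul] at this
        simp only [hf, this]; field_simp; ring
      exact ⟨_, ⟨⟨(Complex.neg_pi_lt_arg _).le, Complex.arg_le_pi _⟩, by rw [e]; exact h2⟩, e⟩
    · rintro ⟨s, ⟨-, h2⟩, rfl⟩
      exact ⟨by simp [hf, hu], h2⟩
  rw [this]
  refine IsPreconnected.image (OrdConnected.isPreconnected ⟨?_⟩) _ (by fun_prop)
  rintro a ⟨ha, ha'⟩ b ⟨hb, hb'⟩ s hs
  refine ⟨⟨ha.1.trans hs.1, hs.2.trans hb.2⟩, ?_⟩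
  have key : ∀ c, c ∈ Icc (-Real.pi) Real.pi → dist (f c) p < r → |s| ≤ |c| → dist (f s) p < r := by
    intro c hc hc' hsc
    refine lt_of_le_of_lt (le_of_sq_le_sq ?_ dist_nonneg) hc'
    have := Real.cos_le_cos_of_nonneg_of_le_pi (abs_nonneg s) (abs_le.2 hc) hsc
    rw [Real.cos_abs, Real.cos_abs] at this
    rw [hsq, hsq]; nlinarith
  rcases le_total 0 s with h | h
  · exact key b hb hb' (by rw [abs_of_nonneg h]; exact hs.2.trans (le_abs_self _))
  · exact key a ha ha' (by rw [abs_of_nonpos h]; linarith [hs.1, neg_abs_le a])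

lemma exists_out {p q y : ℂ} (hq : dist q p = 1) (hy : dist y p = 1) (hne : y ≠ q) {r : ℝ}
    (hr : 0 < r) : ∃ w, dist w y = 1 ∧ dist w p < r ∧ 1 < dist w q := by
  set s := min (r / 2) 1
  have s0 : 0 < s := by positivity
  have hc : Real.cos s < 1 := by
    have := Real.cos_lt_cos_of_nonneg_of_le_pi le_rfl
      (show s ≤ Real.pi from (min_le_right _ _).trans (by linarith [Real.pi_gt_three])) s0
    simpa using this
  set a := p - y
  set b := y - q
  have ha : ‖a‖ = 1 := by rw [← hy, dist_comm, dist_eq_norm]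
  have hab : ‖b + a‖ = 1 := by rw [← hq, dist_comm, dist_eq_norm]; congr 1; ring
  have hb : 0 < Complex.normSq b := Complex.normSq_pos.2 (sub_ne_zero.2 hne)
  have h1 : ∀ t : ℝ, |t| = s → dist (y + a * Complex.exp (t * Complex.I)) y = 1 ∧
      dist (y + a * Complex.exp (t * Complex.I)) p < r := fun t ht => by
    refine ⟨by simp [ha], ?_⟩
    have : y + a * Complex.exp (t * Complex.I) - p = a * (Complex.exp (Complex.I * t) - 1) := by
      rw [mul_comm Complex.I]; ring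
    rw [dist_eq_norm, this, norm_mul, ha, one_mul]
    refine (Real.norm_exp_I_mul_ofReal_sub_one_le).trans_lt ?_
    rw [Real.norm_eq_abs, ht]; linarith [min_le_left (r / 2) 1]
  have h2 : ∀ t : ℝ, dist (y + a * Complex.exp (t * Complex.I)) q ^ 2 =
      (b.re + (a.re * Real.cos t - a.im * Real.sin t)) ^ 2
        + (b.im + (a.re * Real.sin t + a.im * Real.cos t)) ^ 2 := fun t => by
    have : y + a * Complex.exp (t * Complex.I) - q = b + a * Complex.exp (t * Complex.I) := by ring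
    rw [dist_eq_norm, this, ← Complex.normSq_eq_norm_sq, Complex.normSq_apply]
    simp only [Complex.add_re, Complex.mul_re, Complex.exp_ofReal_mul_I_re, Complex.add_im,
      Complex.exp_ofReal_mul_I_im, Complex.mul_im]
    ring
  have ha2 : a.re ^ 2 + a.im ^ 2 = 1 := by
    have := Complex.normSq_eq_norm_sq a; rw [ha, Complex.normSq_apply] at this; linarith
  have hab2 : (b.re + a.re) ^ 2 + (b.im + a.im) ^ 2 = 1 := by
    have := Complex.normSq_eq_norm_sq (b + a); rw [hab, Complex.normSq_apply] at this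
    simp only [Complex.add_re, Complex.add_im] at this; linarith
  rw [Complex.normSq_apply] at hb
  by_contra hcon
  push Not at hcon
  have e1 := hcon _ (h1 s (abs_of_pos s0)).1 (h1 s (abs_of_pos s0)).2
  have e2 := hcon _ (h1 (-s) (by simp [abs_of_pos s0])).1 (h1 (-s) (by simp [abs_of_pos s0])).2
  have e3 := pow_le_one₀ (n := 2) dist_nonneg e1
  have e4 := pow_le_one₀ (n := 2) dist_nonneg e2
  rw [h2] at e3 e4
  rw [Real.cos_neg, Real.sin_neg] at e4
  have := Real.cos_sq_add_sin_sq s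
  have e5 : 2 * (b.re * a.re + b.im * a.im) = -(b.re * b.re + b.im * b.im) := by nlinarith
  have e6 : (b.re + (a.re * Real.cos s - a.im * Real.sin s)) ^ 2
      + (b.im + (a.re * Real.sin s + a.im * Real.cos s)) ^ 2
      + ((b.re + (a.re * Real.cos s - a.im * -Real.sin s)) ^ 2
      + (b.im + (a.re * -Real.sin s + a.im * Real.cos s)) ^ 2)
      = 2 + 2 * ((b.re * b.re + b.im * b.im) * (1 - Real.cos s)) := by
    linear_combination 2 * Real.cos s * e5 + 2 * (a.re ^ 2 + a.im ^ 2) * this + 2 * ha2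
  nlinarith [mul_pos hb (sub_pos.2 hc)]

lemma ev_out {p q y : ℂ} (hq : dist q p = 1) (hy : dist y p = 1) (hne : y ≠ q) {r : ℝ}
    (hr : 0 < r) : ∃ η > 0, ∀ y' z, dist y' y < η → dist z q < η →
      ∃ w, dist w y' = 1 ∧ dist w p < r ∧ 1 < dist w z := by
  obtain ⟨w, h1, h2, h3⟩ := exists_out hq hy hne hr
  refine ⟨min (r - dist w p) ((dist w q - 1) / 2), lt_min (by linarith) (by linarith),
    fun y' z h4 h5 => ⟨w + (y' - y), ?_, ?_, ?_⟩⟩
  · rw [← h1, dist_eq_norm, dist_eq_norm]; congr 1; ring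
  all_goals
    have e : dist (w + (y' - y)) w = dist y' y := by simp [dist_eq_norm]
    have h6 := (lt_min_iff.1 h4).1
    have h7 := (lt_min_iff.1 h4).2
    have h8 := (lt_min_iff.1 h5).2
  · linarith [dist_triangle (w + (y' - y)) w p]
  · linarith [dist_triangle4 w (w + (y' - y)) z q, dist_comm w (w + (y' - y))]

lemma cross {p y z w₁ w₂ : ℂ} {r : ℝ} (h1 : dist w₁ y = 1) (h2 : dist w₁ p < r)
    (h3 : dist w₁ z ≤ 1) (h4 : dist w₂ y = 1) (h5 : dist w₂ p < r) (h6 : 1 < dist w₂ z) :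
    ∃ w, dist w y = 1 ∧ dist w p < r ∧ dist w z = 1 := by
  obtain ⟨w, ⟨a, b⟩, c⟩ := (arc_conn y p r).intermediate_value (f := fun w => dist w z)
    (a := w₁) (b := w₂) ⟨h1, h2⟩ ⟨h4, h5⟩ (by fun_prop) ⟨h3, h6.le⟩
  exact ⟨w, a, b, c⟩

lemma exists_near (y p : ℂ) : ∃ w, dist w y = 1 ∧ dist w p = |dist y p - 1| := by
  obtain ⟨u, hu, hd⟩ : ∃ u : ℂ, ‖u‖ = 1 ∧ p - y = (‖p - y‖ : ℂ) * u :=
    ⟨Complex.exp (Complex.arg (p - y) * Complex.I), by simp,
      (Complex.norm_mul_exp_arg_mul_I _).symm⟩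
  refine ⟨y + u, by simp [hu], ?_⟩
  have : p - (y + u) = ((‖p - y‖ - 1 : ℝ) : ℂ) * u := by push_cast; linear_combination hd
  rw [dist_comm, dist_eq_norm, this, norm_mul, hu, mul_one, Complex.norm_real, dist_comm,
    dist_eq_norm, Real.norm_eq_abs]

namespace Top
variable (T : Top) (g : Fin 5)

/-- `j` is the only colour besides `g` at `w` -/
def P (j : Fin 5) (w : ℂ) : Prop :=
  j ≠ g ∧ w ∈ closure (T.A j) ∧ ∀ i, w ∈ closure (T.A i) → i = g ∨ i = j

/-- partner colour -/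
def Part (p : ℂ) (j : Fin 5) : Prop :=
  ∃ r > 0, ∀ z ∈ T.A g, |dist z p - 1| < r → ∀ w, dist w z = 1 → dist w p < r → T.P g j w

variable {T g}

lemma P.unique {j j' : Fin 5} {w : ℂ} (h : T.P g j w) (h' : T.P g j' w) : j = j' :=
  (h'.2.2 j h.2.1).resolve_left h.1

lemma exists_P {w z : ℂ} (hw : T.Hb g w) (hz : z ∈ T.A g) (h : dist w z = 1) : ∃ j, T.P g j w := by
  obtain ⟨j, h1, h2⟩ := T.fal w
  have hj : j ≠ g := by rintro rfl; exact h2 z hz h
  refine ⟨j, hj, h1, fun i hi => ?_⟩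
  by_contra hc
  rw [not_or] at hc
  exact (T.cons g w i j hw hc.2 hc.1 hj hi h1).2 z hz h

lemma mono {p z w w' : ℂ} {r : ℝ} (hB : ∀ x, dist x p < r → T.Hb g x) (hz : z ∈ T.A g)
    (h1 : dist w z = 1) (h2 : dist w p < r) (h3 : dist w' z = 1) (h4 : dist w' p < r) {j : Fin 5}
    (h : T.P g j w) : T.P g j w' := by
  by_contra hc
  obtain ⟨x, ⟨x1, x2⟩, x3, x4⟩ := isPreconnected_closed_iff.1 (arc_conn z p r) (closure (T.A j))
    (⋃ i : {i // i ≠ g ∧ i ≠ j}, closure (T.A i)) isClosed_closure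
    (isClosed_iUnion_of_finite fun _ => isClosed_closure) (by
      rintro x ⟨x1, x2⟩
      obtain ⟨i, hi⟩ := exists_P (hB x x2) hz x1
      by_cases hij : i = j
      · exact Or.inl (hij ▸ hi.2.1)
      · exact Or.inr (mem_iUnion.2 ⟨⟨i, hi.1, hij⟩, hi.2.1⟩)) ⟨w, ⟨h1, h2⟩, h.2.1⟩ (by
      obtain ⟨i, hi⟩ := exists_P (hB w' h4) hz h3
      exact ⟨w', ⟨h3, h4⟩, mem_iUnion.2 ⟨⟨i, hi.1, by rintro rfl; exact hc hi⟩, hi.2.1⟩⟩)
  obtain ⟨⟨i, i1, i2⟩, hi⟩ := mem_iUnion.1 x4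
  exact (T.cons g x i j (hB x x2) i2 i1 h.1 hi x3).2 z hz x1

/-- `q` is approached by points of colour `g` inside the unit disc about `p` -/
def In (T : Top) (g : Fin 5) (p q : ℂ) : Prop :=
  dist q p = 1 ∧ ∀ η > 0, ∃ z ∈ T.A g, dist z q < η ∧ dist z p < 1

lemma exists_part {p q₁ q₂ : ℂ} (hp : T.Hb g p) (h1 : T.In g p q₁) (h2 : T.In g p q₂)
    (hne : q₁ ≠ q₂) : ∃ j, T.Part g p j := by
  obtain ⟨r, hr, hB⟩ := Metric.eventually_nhds_iff.1 (T.opn g p hp)
  set c : ℂ → Fin 5 → Prop := fun z j => ∀ w, dist w z = 1 → dist w p < r → T.P g j w with hc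
  have tr : ∀ {y z : ℂ} {j : Fin 5}, y ∈ T.A g → z ∈ T.A g → c z j →
      (∃ w, dist w y = 1 ∧ dist w p < r ∧ dist w z = 1) → c y j := by
    rintro y z j hy - hj ⟨w, a1, a2, a3⟩ w' b1 b2
    exact mono (fun x hx => hB hx) hy a1 a2 b1 b2 (hj w a3 a2)
  obtain ⟨η₁, e1, H1⟩ := ev_out h1.1 h2.1 hne.symm hr
  obtain ⟨η₂, e2, H2⟩ := ev_out h2.1 h1.1 hne hr
  set η := min (min η₁ η₂) r
  have e0 : 0 < η := by positivity
  have l1 : η ≤ η₁ := (min_le_left _ _).trans (min_le_left _ _)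
  have l2 : η ≤ η₂ := (min_le_left _ _).trans (min_le_right _ _)
  have l3 : η ≤ r := min_le_right _ _
  have cr : ∀ z y, dist z q₁ < η → dist z p < 1 → dist y q₂ < η → dist y p < 1 →
      ∃ w, dist w y = 1 ∧ dist w p < r ∧ dist w z = 1 := by
    intro z y a1 a2 a3 a4
    rcases le_total (dist z p) (dist y p) with h | h
    · obtain ⟨w, b1, b2⟩ := exists_near y p
      obtain ⟨w', c1, c2, c3⟩ := H1 y z (a3.trans_le l1) (a1.trans_le l1)
      rw [abs_of_neg (by linarith)] at b2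
      exact cross b1 (by linarith [dist_triangle q₂ y p, dist_comm q₂ y, h2.1])
        (by linarith [dist_triangle w p z, dist_comm p z]) c1 c2 c3
    · obtain ⟨w, b1, b2⟩ := exists_near z p
      obtain ⟨w', c1, c2, c3⟩ := H2 z y (a1.trans_le l2) (a3.trans_le l2)
      rw [abs_of_neg (by linarith)] at b2
      obtain ⟨w, d1, d2, d3⟩ := cross b1 (by linarith [dist_triangle q₁ z p, dist_comm q₁ z, h1.1])
        (by linarith [dist_triangle w p y, dist_comm p y]) c1 c2 c3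
      exact ⟨w, d3, d2, d1⟩
  obtain ⟨z₁, a1, a2, a3⟩ := h1.2 η e0
  obtain ⟨z₂, b1, b2, b3⟩ := h2.2 η e0
  obtain ⟨w₀, c1, c2, c3⟩ := cr z₁ z₂ a2 a3 b2 b3
  obtain ⟨j, hj⟩ := exists_P (hB c2) a1 c3
  have j1 : c z₁ j := fun w d1 d2 => mono (fun x hx => hB hx) a1 c3 c2 d1 d2 hj
  have j2 : c z₂ j := fun w d1 d2 => mono (fun x hx => hB hx) b1 c1 c2 d1 d2 hj
  have loc : ∀ q, T.In g p q → (∀ z ∈ T.A g, dist z q < η → dist z p < 1 → c z j) →
      ∀ y₀, dist y₀ p = 1 → y₀ ≠ q → ∀ᶠ y in 𝓝 y₀, y ∈ T.A g → c y j := by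
    intro q hq hz y₀ hy₀ hn
    obtain ⟨η', e', H⟩ := ev_out hq.1 hy₀ hn hr
    obtain ⟨z, d1, d2, d3⟩ := hq.2 (min η η') (by positivity)
    refine Metric.eventually_nhds_iff.2 ⟨min (min η' r) (1 - dist z p),
      lt_min (by positivity) (by linarith), fun y hy hyA => ?_⟩
    simp only [lt_min_iff] at hy d2
    obtain ⟨w', f1, f2, f3⟩ := H y z hy.1.1 d2.2
    have e : dist (p + (y - y₀)) p = dist y y₀ := by simp [dist_eq_norm]
    refine tr hyA d1 (hz z d1 d2.1 d3) (cross (w₁ := p + (y - y₀)) ?_ (by linarith [hy.1.2])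
      (by linarith [dist_triangle (p + (y - y₀)) p z, dist_comm p z, hy.2]) f1 f2 f3)
    rw [← hy₀, dist_comm y₀, dist_eq_norm, dist_eq_norm]; congr 1; ring
  have all : ∀ y₀ ∈ sphere p 1, ∀ᶠ y in 𝓝 y₀, y ∈ T.A g → c y j := by
    intro y₀ hy₀
    by_cases hq : y₀ = q₁
    · exact loc q₂ h2 (fun z d1 d2 d3 => tr d1 a1 j1 (cr z₁ z a2 a3 d2 d3)) y₀ hy₀ (hq ▸ hne)
    · refine loc q₁ h1 (fun z d1 d2 d3 => tr d1 b1 j2 ?_) y₀ hy₀ hq
      obtain ⟨w, f1, f2, f3⟩ := cr z z₂ d2 d3 b2 b3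
      exact ⟨w, f3, f2, f1⟩
  obtain ⟨δ, hδ, hth⟩ := (isCompact_sphere p 1).exists_thickening_subset_open
    (t := interior {y | y ∈ T.A g → c y j}) isOpen_interior
    fun y hy => mem_interior_iff_mem_nhds.2 (all y hy)
  refine ⟨j, min δ r, by positivity, fun z hz h3 w h4 h5 => ?_⟩
  obtain ⟨y, f1, f2⟩ := exists_near p z
  exact interior_subset (hth (mem_thickening_iff.2 ⟨y, f1, by
    rw [dist_comm, f2, dist_comm]; exact (lt_min_iff.1 h3).1⟩)) hz w h4 (lt_min_iff.1 h5).2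

lemma Part.ev {p : ℂ} {j : Fin 5} (h : T.Part g p j) : ∀ᶠ p' in 𝓝 p, T.Part g p' j := by
  obtain ⟨r, hr, H⟩ := h
  refine Metric.eventually_nhds_iff.2 ⟨r / 2, by positivity, fun p' hp => ⟨r / 2, by positivity,
    fun z hz h1 w h2 h3 => H z hz ?_ w h2 (by linarith [dist_triangle w p' p])⟩⟩
  rw [abs_lt] at h1 ⊢
  constructor <;> linarith [dist_triangle z p' p, dist_triangle z p p', dist_comm p p', h1.1, h1.2]

lemma In.near {p q : ℂ} (h : T.In g p q) {r : ℝ} (hr : 0 < r) :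
    ∃ z ∈ T.A g, |dist z p - 1| < r ∧ ∃ w, dist w z = 1 ∧ dist w p < r := by
  obtain ⟨z, h1, h2, h3⟩ := h.2 r hr
  have : |dist z p - 1| < r := by
    rw [abs_of_neg (by linarith)]; linarith [dist_triangle q z p, dist_comm q z, h.1]
  obtain ⟨w, h4, h5⟩ := exists_near z p
  exact ⟨z, h1, this, w, h4, h5 ▸ this⟩

lemma Part.unique {p q : ℂ} (hq : T.In g p q) {j j' : Fin 5} (h : T.Part g p j)
    (h' : T.Part g p j') : j = j' := by
  obtain ⟨r, hr, H⟩ := h
  obtain ⟨r', hr', H'⟩ := h'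
  obtain ⟨z, h1, h2, w, h3, h4⟩ := hq.near (lt_min hr hr')
  simp only [lt_min_iff] at h2 h4
  exact (H z h1 h2.1 w h3 h4.1).unique (H' z h1 h2.2 w h3 h4.2)

lemma Part.mem {p q : ℂ} (hq : T.In g p q) {j : Fin 5} (h : T.Part g p j) :
    j ≠ g ∧ p ∈ closure (T.A j) := by
  obtain ⟨r, hr, H⟩ := h
  constructor
  · obtain ⟨z, h1, h2, w, h3, h4⟩ := hq.near hr
    exact (H z h1 h2 w h3 h4).1
  · rw [← closure_closure]
    refine Metric.mem_closure_iff.2 fun ε hε => ?_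
    obtain ⟨z, h1, h2, w, h3, h4⟩ := hq.near (lt_min hr hε)
    simp only [lt_min_iff] at h2 h4
    exact ⟨w, (H z h1 h2.1 w h3 h4.1).2.1, dist_comm w p ▸ h4.2⟩

lemma Part.free {p q₁ q₂ y : ℂ} (h1 : T.In g p q₁) (h2 : T.In g p q₂) (hne : q₁ ≠ q₂) {j : Fin 5}
    (h : T.Part g p j) (hy : y ∈ T.A j) : dist p y ≠ 1 := by
  intro hd
  obtain ⟨r, hr, H⟩ := h
  have key : ∀ q, T.In g p q → y ≠ q → False := by
    intro q hq hn
    obtain ⟨η, e, H'⟩ := ev_out hq.1 (dist_comm p y ▸ hd) hn hr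
    obtain ⟨z, d1, d2, d3⟩ := hq.2 (min η r) (by positivity)
    simp only [lt_min_iff] at d2
    obtain ⟨w', f1, f2, f3⟩ := H' y z (by simpa using e) d2.1
    obtain ⟨w, k1, k2, k3⟩ := cross (w₁ := p) hd (by simpa using hr) (dist_comm p z ▸ d3.le) f1 f2 f3
    have hP := H z d1 (by
      rw [abs_of_neg (by linarith)]; linarith [dist_triangle q z p, dist_comm q z, hq.1, d2.2]) w k3 k2
    obtain ⟨i, i1, i2⟩ := T.fal w
    rcases hP.2.2 i i1 with rfl | rfl
    · exact i2 z d1 k3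
    · exact i2 y hy k1
  by_cases hq : y = q₁
  · exact key q₂ h2 (hq ▸ hne)
  · exact key q₁ h1 hq

/-- extended partner -/
def Q (T : Top) (g : Fin 5) (p : ℂ) (j : Fin 5) : Prop :=
  (T.Hb g p ∧ T.Part g p j) ∨ (¬ T.Hb g p ∧ T.Hb j p)

/-- two sided points -/
def Good (T : Top) (g : Fin 5) (p : ℂ) : Prop :=
  p ∈ closure (T.A g) ∧ ∃ q₁ q₂, T.In g p q₁ ∧ T.In g p q₂ ∧ q₁ ≠ q₂

lemma three {p : ℂ} (h : ¬ T.Hb g p) : ∃ i k, i ≠ k ∧ i ≠ g ∧ k ≠ g ∧ p ∈ closure (T.A i) ∧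
    p ∈ closure (T.A k) := by
  by_contra hc
  exact h (T.vac g p fun i k a b c d e => hc ⟨i, k, a, b, c, d, e⟩)

lemma Good.ex {p : ℂ} (h : T.Good g p) : ∃ j, T.Q g p j := by
  by_cases hp : T.Hb g p
  · obtain ⟨-, q₁, q₂, h1, h2, h3⟩ := h
    exact (exists_part hp h1 h2 h3).imp fun j hj => Or.inl ⟨hp, hj⟩
  · exact (T.ex p).imp fun j hj => Or.inr ⟨hp, hj⟩

lemma Good.unique {p : ℂ} (h : T.Good g p) {j j' : Fin 5} (h1 : T.Q g p j) (h2 : T.Q g p j') :
    j = j' := by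
  rcases h1 with ⟨a, b⟩ | ⟨a, b⟩ <;> rcases h2 with ⟨c, d⟩ | ⟨c, d⟩
  · obtain ⟨-, q₁, -, h1, -⟩ := h
    exact b.unique h1 d
  · exact absurd a c
  · exact absurd c a
  · obtain ⟨i, k, e1, e2, e3, e4, e5⟩ := three a
    exact T.uniq j j' p i k g b d e1 e2 e3 e4 e5 h.1

lemma Good.free {p : ℂ} (h : T.Good g p) {j : Fin 5} (h1 : T.Q g p j) :
    p ∈ closure (T.A j) ∧ ∀ y ∈ T.A j, dist p y ≠ 1 := by
  rcases h1 with ⟨-, b⟩ | ⟨a, b⟩
  · obtain ⟨-, q₁, q₂, h1, h2, h3⟩ := h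
    exact ⟨(b.mem h1).2, fun y hy => b.free h1 h2 h3 hy⟩
  · obtain ⟨i, k, e1, e2, e3, e4, e5⟩ := three a
    have hj : g ≠ j := by rintro rfl; exact a b
    by_cases hi : i = j
    · exact T.cons j p k g b e3 (hi ▸ e1.symm) hj e5 h.1
    · exact T.cons j p i g b e2 hi hj e4 h.1

lemma Q.ev {p : ℂ} {j : Fin 5} (h : T.Q g p j) : ∀ᶠ p' in 𝓝 p, T.Good g p' → T.Q g p' j := by
  rcases h with ⟨a, b⟩ | ⟨a, b⟩
  · filter_upwards [T.opn g p a, b.ev] with p' c d _
    exact Or.inl ⟨c, d⟩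
  · filter_upwards [T.opn j p b] with p' c hG
    have hj : g ≠ j := by rintro rfl; exact a b
    by_cases hp : T.Hb g p'
    · obtain ⟨h0, q₁, q₂, h1, h2, h3⟩ := hG
      obtain ⟨k, hk⟩ := exists_part hp h1 h2 h3
      obtain ⟨k1, k2⟩ := hk.mem h1
      by_cases hkj : k = j
      · exact Or.inl ⟨hp, hkj ▸ hk⟩
      · exact absurd (T.uniq g j p' k g j hp c k1 hkj hj k2 h0
          (T.cons j p' k g c k1 hkj hj k2 h0).1) hj
    · exact Or.inr ⟨hp, c⟩

lemma good_or {Z : Set ℂ} (hc : IsCompact Z) (hZ : IsPreconnected Z) (hg : Z ⊆ closure (T.A g))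
    {p : ℂ} (hp : p ∈ Z) : T.Good g p ∨ IsPreconnected (Z \ ball p 1) := by
  set I := closure (Z ∩ ball p 1)
  have hIZ : I ⊆ Z := closure_minimal inter_subset_left hc.isClosed
  have hIn : ∀ q ∈ I ∩ (Z \ ball p 1), T.In g p q := by
    rintro q ⟨h1, -, h2⟩
    refine ⟨le_antisymm (closure_minimal (inter_subset_right.trans ball_subset_closedBall)
      isClosed_closedBall h1) (not_lt.1 h2), fun η hη => ?_⟩
    obtain ⟨x, ⟨x1, x2⟩, x3⟩ := Metric.mem_closure_iff.1 h1 η hη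
    obtain ⟨z, ⟨z1, z2⟩, z3⟩ := mem_closure_iff.1 (hg x1) (ball q η ∩ ball p 1)
      (isOpen_ball.inter isOpen_ball) ⟨by rw [mem_ball, dist_comm]; exact x3, x2⟩
    exact ⟨z, z3, z1, z2⟩
  by_cases hs : (I ∩ (Z \ ball p 1)).Subsingleton
  · right
    have hO : IsClosed (Z \ ball p 1) := hc.isClosed.sdiff isOpen_ball
    refine isPreconnected_closed_iff.2 fun t t' ht ht' hsub h1 h2 => ?_
    have key : ∀ t t' : Set ℂ, IsClosed t → IsClosed t' → Z \ ball p 1 ⊆ t ∪ t' →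
        (Z \ ball p 1 ∩ t).Nonempty → (Z \ ball p 1 ∩ t').Nonempty →
        I ∩ (Z \ ball p 1) ⊆ t → (Z \ ball p 1 ∩ (t ∩ t')).Nonempty := by
      intro t t' ht ht' hsub h1 h2 h3
      obtain ⟨x, -, x2, x3⟩ := isPreconnected_closed_iff.1 hZ (I ∪ (Z \ ball p 1 ∩ t))
        (Z \ ball p 1 ∩ t') (isClosed_closure.union (hO.inter ht)) (hO.inter ht') (by
          intro x hx
          by_cases hb : x ∈ ball p 1
          · exact Or.inl (Or.inl (subset_closure ⟨hx, hb⟩))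
          · rcases hsub ⟨hx, hb⟩ with h | h
            · exact Or.inl (Or.inr ⟨⟨hx, hb⟩, h⟩)
            · exact Or.inr ⟨⟨hx, hb⟩, h⟩)
        (h1.imp fun x hx => ⟨hx.1.1, Or.inr hx⟩) (h2.imp fun x hx => ⟨hx.1.1, hx⟩)
      rcases x2 with h | h
      · exact ⟨x, x3.1, h3 ⟨h, x3.1⟩, x3.2⟩
      · exact ⟨x, x3.1, h.2, x3.2⟩
    rcases hs.eq_empty_or_singleton with h | ⟨q, h⟩
    · exact key t t' ht ht' hsub h1 h2 (h ▸ empty_subset _)
    · have hq : q ∈ I ∩ (Z \ ball p 1) := h ▸ rfl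
      rcases hsub hq.2 with h' | h'
      · exact key t t' ht ht' hsub h1 h2 (h ▸ singleton_subset_iff.2 h')
      · rw [inter_comm t]
        exact key t' t ht' ht (union_comm t t' ▸ hsub) h2 h1 (h ▸ singleton_subset_iff.2 h')
  · obtain ⟨q₁, h1, q₂, h2, h3⟩ := not_subsingleton_iff.1 hs
    exact Or.inl ⟨hg hp, q₁, q₂, hIn _ h1, hIn _ h2, h3⟩

lemma final {Z : Set ℂ} (hZ : IsPreconnected Z) {a b : ℂ} (ha : a ∈ Z) (hb : b ∈ Z)
    (hd : 10 ≤ dist a b) (hG : ∀ p ∈ Z, 1 ≤ dist a p → 1 ≤ dist b p → T.Good g p) : False := by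
  obtain ⟨m, hm, hm5⟩ := hZ.intermediate_value (f := fun w => dist a w) ha hb (by fun_prop)
    (show (5 : ℝ) ∈ _ from ⟨by simp, by linarith⟩)
  simp only at hm5
  have hG' : ∀ p ∈ Z, dist p m ≤ 3 → T.Good g p := fun p hp h => hG p hp
    (by linarith [dist_triangle a p m]) (by
      linarith [dist_triangle4 a m p b, dist_comm m p, dist_comm p b])
  obtain ⟨j, hj⟩ := (hG' m hm (by simp)).ex
  obtain ⟨y, hy, hym⟩ := Metric.mem_closure_iff.1 ((hG' m hm (by simp)).free hj).1 (1 / 2)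
    (by norm_num)
  have hG2 : ∀ p ∈ Z, dist p y < 2 → T.Good g p := fun p hp h =>
    hG' p hp (by linarith [dist_triangle p y m, dist_comm y m])
  have := hZ.induction₂' (fun x x' => (dist x y < 1 ∧ T.Q g x j) ↔ (dist x' y < 1 ∧ T.Q g x' j))
    (fun x hx => ?_) (fun _ _ _ _ _ _ h1 h2 => h1.trans h2) hm ha
  · linarith [(this.1 ⟨by linarith, hj⟩).1, dist_triangle a y m, dist_comm y m]
  have c1 : ∀ s : ℝ, dist x y < s → ∀ᶠ x' in 𝓝 x, dist x' y < s := fun s h =>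
    (continuous_id.dist continuous_const).continuousAt.eventually_lt continuousAt_const h
  suffices ∀ᶠ x' in 𝓝[Z] x, (dist x y < 1 ∧ T.Q g x j) ↔ (dist x' y < 1 ∧ T.Q g x' j) from
    this.mono fun x' h => ⟨h, h.symm⟩
  rcases lt_or_ge 1 (dist x y) with h | h
  · have : ∀ᶠ x' in 𝓝 x, 1 < dist x' y :=
      continuousAt_const.eventually_lt (continuous_id.dist continuous_const).continuousAt h
    filter_upwards [mem_nhdsWithin_of_mem_nhds this] with x' h'
    exact iff_of_false (fun k => by linarith [k.1]) fun k => by linarith [k.1]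
  · have gx := hG2 x hx (by linarith)
    obtain ⟨k, hk⟩ := gx.ex
    by_cases hkj : k = j
    · subst hkj
      have h1 : dist x y < 1 := lt_of_le_of_ne h ((gx.free hk).2 y hy)
      filter_upwards [mem_nhdsWithin_of_mem_nhds (c1 1 h1), mem_nhdsWithin_of_mem_nhds hk.ev,
        self_mem_nhdsWithin] with x' a1 a2 a3
      exact iff_of_true ⟨h1, hk⟩ ⟨a1, a2 (hG2 x' a3 (by linarith))⟩
    · filter_upwards [mem_nhdsWithin_of_mem_nhds (c1 2 (by linarith)),
        mem_nhdsWithin_of_mem_nhds hk.ev, self_mem_nhdsWithin] with x' a1 a2 a3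
      exact iff_of_false (fun l => hkj (gx.unique hk l.2))
        fun l => hkj ((hG2 x' a3 a1).unique (a2 (hG2 x' a3 a1)) l.2)

end Top

theorem shortStmt : ShortStmt := by
  intro T g Z₀ hc₀ hZ₀ hg₀ a ha₀ b hb₀
  by_contra hd
  rw [not_lt] at hd
  set cell : ℂ → ℤ × ℤ := fun z => (⌊2 * z.re⌋, ⌊2 * z.im⌋) with hcell
  have hfin : ∀ Z : Set ℂ, IsCompact Z → (cell '' Z).Finite := by
    intro Z hZ
    obtain ⟨R, hR⟩ := hZ.isBounded.exists_norm_le
    refine ((finite_Icc ⌊-(2 * R)⌋ ⌊2 * R⌋).prod (finite_Icc ⌊-(2 * R)⌋ ⌊2 * R⌋)).subset ?_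
    rintro _ ⟨z, hz, rfl⟩
    have h1 := abs_le.1 ((Complex.abs_re_le_norm z).trans (hR z hz))
    have h2 := abs_le.1 ((Complex.abs_im_le_norm z).trans (hR z hz))
    exact ⟨⟨Int.floor_mono (by linarith), Int.floor_mono (by linarith)⟩,
      ⟨Int.floor_mono (by linarith), Int.floor_mono (by linarith)⟩⟩
  have : ∀ n, ∀ Z : Set ℂ, IsCompact Z → IsPreconnected Z → Z ⊆ closure (T.A g) → a ∈ Z → b ∈ Z →
      (cell '' Z).ncard = n → False := by
    intro n
    induction n using Nat.strong_induction_on with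
    | _ n ih =>
    intro Z hc hZ hg ha hb hn
    refine Top.final (T := T) (g := g) hZ ha hb hd fun p hp h1 h2 => ?_
    refine (Top.good_or hc hZ hg hp).resolve_right fun h => ?_
    refine ih _ ?_ _ (hc.diff isOpen_ball) h (sdiff_subset.trans hg) ⟨ha, not_lt.2 h1⟩
      ⟨hb, not_lt.2 h2⟩ rfl
    rw [← hn]
    refine ncard_lt_ncard ⟨image_mono sdiff_subset, fun hs => ?_⟩ (hfin Z hc)
    obtain ⟨z, ⟨-, z2⟩, z3⟩ := hs (mem_image_of_mem cell hp)
    apply z2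
    simp only [hcell, Prod.mk.injEq] at z3
    have e1 := Int.abs_sub_lt_one_of_floor_eq_floor z3.1
    have e2 := Int.abs_sub_lt_one_of_floor_eq_floor z3.2
    rw [abs_lt] at e1 e2
    rw [mem_ball, dist_eq_norm]
    refine (Complex.norm_le_abs_re_add_abs_im _).trans_lt ?_
    simp only [Complex.sub_re, Complex.sub_im]
    have : |z.re - p.re| < 1 / 2 := abs_lt.2 ⟨by linarith, by linarith⟩
    have : |z.im - p.im| < 1 / 2 := abs_lt.2 ⟨by linarith, by linarith⟩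
    linarith
  exact this _ Z₀ hc₀ hZ₀ hg₀ ha₀ hb₀ rfl

end Crest.Agent.H2.Gm
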