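import Crest.Agent.H3.IMFld

set_option autoImplicit false
set_option linter.unusedSectionVars false
set_option linter.unusedVariables false
set_option linter.unusedSimpArgs false

/-! Row 326, fast swap: coordinates of an index. -/

namespace Crest.Agent.H2.Sw
open Crest.Agent.H3.Ptime Crest.Agent.H9.IM Function

def swapF (lx ly L i : ℕ) : ℕ := setf ly L (setf lx L i (fld ly L i)) (fld lx L i)

theorem setf_int (lo L i v : ℕ) : (setf lo L i v : ℤ) = i - fld lo L i * lo + v * lo := by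
  have := setf_add lo L i v
  have h : ((setf lo L i v + fld lo L i * lo : ℕ) : ℤ) = ((i + v * lo : ℕ) : ℤ) := by rw [this]
  push_cast at h
  linarith

section
variable {lx ly L i N : ℕ}

theorem lx_pos (hN : lx * L ∣ N) (h0 : 0 < N) : 0 < lx :=
  Nat.pos_of_mul_pos_right (Nat.pos_of_dvd_of_pos hN h0) |> fun h => by
    rcases Nat.eq_zero_or_pos lx with h1 | h1
    · have := Nat.pos_of_dvd_of_pos hN h0; simp [h1] at this
    · exact h1

theorem swapF_int (h : ly * L ∣ lx) : (swapF lx ly L i : ℤ) =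
    i + ((fld ly L i : ℤ) - fld lx L i) * (lx - ly) := by
  unfold swapF
  rw [setf_int, setf_int, fld_setf_low h]; ring

theorem fld_swapF_y (hy : 0 < ly) (hL : 0 < L) : fld ly L (swapF lx ly L i) = fld lx L i :=
  fld_setf_same hy (fld_lt hL)

theorem fld_swapF_x (hx : 0 < lx) (hy : 0 < ly) (hL : 0 < L) (h : ly * L ∣ lx) :
    fld lx L (swapF lx ly L i) = fld ly L i := by
  unfold swapF
  rw [fld_setf_high hy (fld_lt hL) h, fld_setf_same hx (fld_lt hL)]

theorem swapF_lt (hy : 0 < ly) (hL : 0 < L) (h : ly * L ∣ lx) (hN : lx * L ∣ N) (h0 : 0 < N)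
    (hi : i < N) : swapF lx ly L i < N :=
  setf_lt hy (fld_lt hL) (h.trans ((dvd_mul_right _ _).trans hN))
    (setf_lt (lx_pos hN h0) (fld_lt hL) hN hi)

theorem fld_mul (lo a b i : ℕ) : fld lo (a * b) i = fld lo a i + a * fld (lo * a) b i := by
  unfold fld
  rw [Nat.mod_mul, Nat.div_div_eq_div_mul]

theorem swapF_mul {a b : ℕ} (hx : 0 < lx) (hy : 0 < ly) (ha : 0 < a) (hb : 0 < b)
    (h : ly * (a * b) ∣ lx) :
    swapF lx ly (a * b) i = swapF lx ly a (swapF (lx * a) (ly * a) b i) := by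
  have h1 : ly * a ∣ lx := (Nat.mul_dvd_mul_left _ (dvd_mul_right a b)).trans h
  have h2 : ly * a * b ∣ lx := by rwa [mul_assoc]
  have h3 : ly * a * b ∣ lx * a := h2.trans (dvd_mul_right _ _)
  have e1 : fld lx a (swapF (lx * a) (ly * a) b i) = fld lx a i := by
    unfold swapF
    rw [fld_setf_high (by positivity) (fld_lt hb) h2, fld_setf_low dvd_rfl]
  have e2 : fld ly a (swapF (lx * a) (ly * a) b i) = fld ly a i := by
    unfold swapF
    rw [fld_setf_low dvd_rfl, fld_setf_low (h1.trans (dvd_mul_right _ _))]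
  zify
  rw [swapF_int h, swapF_int h1, swapF_int h3, e1, e2, fld_mul, fld_mul]
  push_cast; ring

theorem fld_sum (lo b i n : ℕ) :
    fld lo (b ^ n) i = ∑ a ∈ Finset.range n, fld (lo * b ^ a) b i * b ^ a := by
  induction n with
  | zero => simp [fld, Nat.mod_one]
  | succ n ih => rw [pow_succ, fld_mul, ih, Finset.sum_range_succ, mul_comm]

theorem fld_sub {lo b a n : ℕ} (i : ℕ) (h : a < n) :
    fld (lo * b ^ a) b i = fld (b ^ a) b (fld lo (b ^ n) i) := by
  obtain ⟨c, rfl⟩ : ∃ c, n = a + 1 + c := ⟨n - (a + 1), by omega⟩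
  rw [fld_eq_mod_div (b ^ a)]
  unfold fld
  rw [Nat.mod_mod_of_dvd _ (by rw [pow_add, pow_succ]; exact dvd_mul_right _ _),
    Nat.mod_mul_right_div_self, Nat.div_div_eq_div_mul]

end

/-! ### slots -/

abbrev Sl (n : ℕ) := Fin n ⊕ Fin n
abbrev QQ := ℕ × ℕ × ℕ

variable {n : ℕ}

def lo (q : QQ) : Sl n → ℕ
  | .inl a => q.1 * q.2.2 ^ (a : ℕ)
  | .inr a => q.2.1 * q.2.2 ^ (a : ℕ)

def rk : Sl n → ℕ
  | .inl a => n + a
  | .inr a => a

theorem rk_inj {s t : Sl n} (h : rk s = rk t) : s = t := by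
  rcases s with a | a <;> rcases t with b | b <;> simp only [rk] at h
  · congr 1; ext; omega
  · omega
  · omega
  · congr 1; ext; omega

def Ok (n : ℕ) (q : QQ) : Prop := 0 < q.1 ∧ 0 < q.2.1 ∧ 0 < q.2.2 ∧ q.2.1 * q.2.2 ^ n ∣ q.1

variable {q : QQ}

theorem lo_pos (h : Ok n q) (s : Sl n) : 0 < lo q s := by
  obtain ⟨h1, h2, h3, -⟩ := h
  rcases s with a | a <;> simp only [lo] <;> positivity

theorem lo_dvd (h : Ok n q) {s t : Sl n} (hst : rk s < rk t) : lo q s * q.2.2 ∣ lo q t := by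
  rcases s with a | a <;> rcases t with b | b <;> simp only [rk, lo] at hst ⊢
  · rw [mul_assoc, ← pow_succ]; exact Nat.mul_dvd_mul_left _ (pow_dvd_pow _ (by omega))
  · omega
  · rw [mul_assoc, ← pow_succ]
    exact ((Nat.mul_dvd_mul_left _ (pow_dvd_pow _ (by omega))).trans h.2.2.2).trans
      (dvd_mul_right _ _)
  · rw [mul_assoc, ← pow_succ]; exact Nat.mul_dvd_mul_left _ (pow_dvd_pow _ (by omega))

theorem lo_dvd_top (h : Ok n q) (s : Sl n) : lo q s * q.2.2 ∣ q.1 * q.2.2 ^ n := by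
  rcases s with a | a <;> simp only [lo]
  · rw [mul_assoc, ← pow_succ]; exact Nat.mul_dvd_mul_left _ (pow_dvd_pow _ (by omega))
  · rw [mul_assoc, ← pow_succ]
    exact ((Nat.mul_dvd_mul_left _ (pow_dvd_pow _ (by omega))).trans h.2.2.2).trans
      (dvd_mul_right _ _)

theorem fld_setf_ne (h : Ok n q) {s t : Sl n} (hst : t ≠ s) {i v : ℕ} (hv : v < q.2.2) :
    fld (lo q t) q.2.2 (setf (lo q s) q.2.2 i v) = fld (lo q t) q.2.2 i := by
  rcases lt_trichotomy (rk s) (rk t) with h1 | h1 | h1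
  · exact fld_setf_high (lo_pos h s) hv (lo_dvd h h1)
  · exact absurd (rk_inj h1).symm hst
  · exact fld_setf_low (lo_dvd h h1)

def crd (q : QQ) (i : ℕ) : Sl n → ZMod q.2.2 := fun s => (fld (lo q s) q.2.2 i : ℕ)

def rest (n : ℕ) (q : QQ) (i : ℕ) : ℤ × ℕ :=
  (i - ∑ s : Sl n, (fld (lo q s) q.2.2 i : ℤ) * lo q s, i / (q.1 * q.2.2 ^ n))

theorem crd_ext (h : Ok n q) {i j : ℕ} (h1 : crd (n := n) q i = crd q j)
    (h2 : rest n q i = rest n q j) : i = j := by
  have e : ∀ s : Sl n, fld (lo q s) q.2.2 i = fld (lo q s) q.2.2 j := fun s => by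
    have := congrFun h1 s
    simp only [crd] at this
    have h3 := (ZMod.natCast_eq_natCast_iff' _ _ _).1 this
    rwa [Nat.mod_eq_of_lt (fld_lt h.2.2.1), Nat.mod_eq_of_lt (fld_lt h.2.2.1)] at h3
  have h3 := congrArg Prod.fst h2
  simp only [rest, e] at h3
  omega

theorem crd_setf (h : Ok n q) (s : Sl n) (i : ℕ) {v : ℕ} (hv : v < q.2.2) :
    crd q (setf (lo q s) q.2.2 i v) = update (crd q i) s (v : ZMod q.2.2) := by
  funext t
  by_cases ht : t = s
  · subst ht; simp [crd, fld_setf_same (lo_pos h t) hv]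
  · simp [crd, ht, fld_setf_ne h ht hv]

theorem rest_setf (h : Ok n q) (s : Sl n) (i : ℕ) {v : ℕ} (hv : v < q.2.2) :
    rest n q (setf (lo q s) q.2.2 i v) = rest n q i := by
  unfold rest
  rw [setf_div_of_dvd (lo_pos h s) hv (lo_dvd_top h s)]
  congr 1
  rw [← Finset.add_sum_erase _ _ (Finset.mem_univ s), ← Finset.add_sum_erase _ _ (Finset.mem_univ s),
    fld_setf_same (lo_pos h s) hv, setf_int]
  rw [Finset.sum_congr rfl (fun t ht => by rw [fld_setf_ne h (Finset.ne_of_mem_erase ht) hv])]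
  ring

theorem exists_crd (h : Ok n q) (i : ℕ) (G : Sl n → ZMod q.2.2) :
    ∃ j, crd q j = G ∧ rest n q j = rest n q i := by
  have : NeZero q.2.2 := ⟨h.2.2.1.ne'⟩
  have key : ∀ S : Finset (Sl n), ∃ j, (∀ s ∈ S, crd q j s = G s) ∧ rest n q j = rest n q i := by
    intro S
    induction S using Finset.induction_on with
    | empty => exact ⟨i, by simp, rfl⟩
    | insert s S hs ih =>
      obtain ⟨j, h1, h2⟩ := ih
      refine ⟨setf (lo q s) q.2.2 j (G s).val, fun t ht => ?_,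
        (rest_setf h s j (ZMod.val_lt _)).trans h2⟩
      rw [crd_setf h s j (ZMod.val_lt _)]
      by_cases hts : t = s
      · subst hts; simp
      · rw [update_of_ne hts]; exact h1 t (by simpa [hts] using ht)
  obtain ⟨j, h1, h2⟩ := key Finset.univ
  exact ⟨j, funext fun s => h1 s (Finset.mem_univ _), h2⟩

open Classical in
/-- the index map induced by a map on the coordinates -/
noncomputable def lift (q : QQ) (f : (Sl n → ZMod q.2.2) → Sl n → ZMod q.2.2) (i : ℕ) : ℕ :=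
  if h : Ok n q then (exists_crd h i (f (crd q i))).choose else i

section
variable {f g : (Sl n → ZMod q.2.2) → Sl n → ZMod q.2.2}

theorem crd_lift (h : Ok n q) (i : ℕ) : crd q (lift q f i) = f (crd q i) := by
  rw [lift, dif_pos h]; exact (exists_crd h i (f (crd q i))).choose_spec.1

theorem rest_lift (h : Ok n q) (i : ℕ) : rest n q (lift q f i) = rest n q i := by
  rw [lift, dif_pos h]; exact (exists_crd h i (f (crd q i))).choose_spec.2

theorem lift_eq (h : Ok n q) {i j : ℕ} (h1 : crd q j = f (crd q i)) (h2 : rest n q j = rest n q i) :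
    lift q f i = j := crd_ext h (by rw [crd_lift h, h1]) (by rw [rest_lift h, h2])

theorem lift_comp (h : Ok n q) (i : ℕ) : lift q f (lift q g i) = lift q (fun G => f (g G)) i :=
  (lift_eq h (by rw [crd_lift h, crd_lift h]) (by rw [rest_lift h, rest_lift h])).symm

theorem lift_id (h : Ok n q) (i : ℕ) : lift q (fun G : Sl n → ZMod q.2.2 => G) i = i :=
  lift_eq h rfl rfl

theorem lift_lt (h : Ok n q) {N : ℕ} (hN : q.1 * q.2.2 ^ n ∣ N) (i : ℕ) : lift q f i < N ↔ i < N := by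
  obtain ⟨c, rfl⟩ := hN
  have hp : 0 < q.1 * q.2.2 ^ n := by obtain ⟨h1, h2, h3, -⟩ := h; positivity
  have := congrArg Prod.snd (rest_lift (f := f) h i)
  simp only [rest] at this
  rw [mul_comm, ← Nat.div_lt_iff_lt_mul hp, ← Nat.div_lt_iff_lt_mul hp, this]

theorem lift_upd (h : Ok n q) (s : Sl n) (i : ℕ) {v : ℕ} (hv : v < q.2.2)
    (hf : f (crd q i) = update (crd q i) s (v : ZMod q.2.2)) :
    lift q f i = setf (lo q s) q.2.2 i v :=
  lift_eq h (by rw [crd_setf h s i hv, hf]) (rest_setf h s i hv)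

end

theorem lift_swap1 (h : Ok n q) (a b : Fin n) (i : ℕ) :
    lift q (fun G : Sl n → ZMod q.2.2 =>
      update (update G (.inl a) (G (.inr b))) (.inr b) (G (.inl a))) i =
      swapF (lo q (.inl a : Sl n)) (lo q (.inr b : Sl n)) q.2.2 i := by
  unfold swapF
  refine lift_eq h ?_ ?_
  · rw [crd_setf h _ _ (fld_lt h.2.2.1), crd_setf h _ _ (fld_lt h.2.2.1)]; rfl
  · rw [rest_setf h _ _ (fld_lt h.2.2.1), rest_setf h _ _ (fld_lt h.2.2.1)]

theorem rest_eq (i : ℕ) : (rest n q i).1 =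
    i - fld q.1 (q.2.2 ^ n) i * q.1 - fld q.2.1 (q.2.2 ^ n) i * q.2.1 := by
  simp only [rest, Fintype.sum_sum_type, lo, fld_sum]
  rw [Fin.sum_univ_eq_sum_range (fun a => (fld (q.1 * q.2.2 ^ a) q.2.2 i : ℤ) * (q.1 * q.2.2 ^ a : ℕ)),
    Fin.sum_univ_eq_sum_range (fun a => (fld (q.2.1 * q.2.2 ^ a) q.2.2 i : ℤ) * (q.2.1 * q.2.2 ^ a : ℕ))]
  push_cast
  rw [Finset.sum_mul, Finset.sum_mul, sub_sub]
  congr 2 <;> exact Finset.sum_congr rfl fun a _ => by ring

theorem lift_swapAll (h : Ok n q) (i : ℕ) :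
    lift q (fun G : Sl n → ZMod q.2.2 => fun s => G s.swap) i = swapF q.1 q.2.1 (q.2.2 ^ n) i := by
  obtain ⟨h1, h2, h3, h4⟩ := h
  have hb : 0 < q.2.2 ^ n := by positivity
  refine lift_eq ⟨h1, h2, h3, h4⟩ ?_ ?_
  · funext s
    rcases s with a | a <;> simp only [crd, Sum.swap_inl, Sum.swap_inr, lo]
    · rw [fld_sub _ a.2, fld_swapF_x h1 h2 hb h4, ← fld_sub _ a.2]
    · rw [fld_sub _ a.2, fld_swapF_y h2 hb, ← fld_sub _ a.2]
  · refine Prod.ext ?_ ?_
    · rw [rest_eq, rest_eq, fld_swapF_x h1 h2 hb h4, fld_swapF_y h2 hb, swapF_int h4]; ring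
    · simp only [rest, swapF]
      rw [setf_div_of_dvd h2 (fld_lt hb) (h4.trans (dvd_mul_right _ _)),
        setf_div_of_dvd h1 (fld_lt hb) dvd_rfl]

end Crest.Agent.H2.Sw
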