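import Crest.Agent.H2.IMSwA

set_option autoImplicit false
set_option linter.unusedSectionVars false
set_option linter.unusedVariables false
set_option linter.unusedSimpArgs false

/-! Row 326, fast swap: the cheap index maps. -/

namespace Crest.Agent.H2.Sw
open Crest.Agent.H3.Ptime Crest.Agent.H9.IM Function

theorem mod_lt_mod {u u' b : ℕ} (h : u < u') (e : u / b = u' / b) : u % b < u' % b := by
  have h1 := Nat.div_add_mod u b
  have h2 := Nat.div_add_mod u' b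
  rw [e] at h1; omega

theorem pc_upd (hA : ArrStmt) {Q : Type} [Enc Q] (l b : Q → ℕ) (G κ : Q → ℕ → ℕ → ℕ) (c : ℕ)
    (hl : PT l) (hb : PT b) (hG : PT (fun x : Q × ℕ × ℕ => G x.1 x.2.1 x.2.2))
    (hκ : PT (fun x : Q × ℕ × ℕ => κ x.1 x.2.1 x.2.2)) :
    PC (fun q i => setf (l q) (b q) i (G q (i / (l q * b q)) (fld (l q) (b q) i)))
      (fun q N => 0 < l q ∧ 0 < b q ∧ l q * b q ∣ N ∧
        (∀ h y, y < b q → G q h y < b q ∧ κ q h y < c) ∧
        ∀ h y y', y < y' → y' < b q → κ q h y = κ q h y' → G q h y < G q h y') (fun _ => 0) := by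
  have hx : PT (fun x : Q × ℕ => (x.1, x.2 / (l x.1 * b x.1), fld (l x.1) (b x.1) x.2)) := by
    fun_prop
  have h1 := hA.ppull (fun q i => setf (l q) (b q) i (G q (i / (l q * b q)) (fld (l q) (b q) i)))
    (fun q i => κ q (i / (l q * b q)) (fld (l q) (b q) i)) c
    (PT_setf (by fun_prop) (by fun_prop) (by fun_prop) (hG.comp hx)) (hκ.comp hx)
  refine hA.pmono h1 id _ _ _ 0 PT.id' (fun q N ⟨h1, h2, h3, h4, h5⟩ => ⟨⟨fun i hi => ⟨?_, ?_⟩, ?_⟩,
    fun _ _ => rfl, le_rfl, by simp⟩)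
  · exact (h4 _ _ (fld_lt h2)).2
  · exact setf_lt h1 (h4 _ _ (fld_lt h2)).1 h3 hi
  · intro i j hij hj hk
    simp only [id] at hk ⊢
    rw [setf_eq, setf_eq]
    have gi := (h4 (i / (l q * b q)) _ (fld_lt (lo := l q) (i := i) h2)).1
    have mi := Nat.mod_lt i h1
    have mj := Nat.mod_lt j h1
    rcases (Nat.div_le_div_right (c := l q * b q) hij).eq_or_lt with e | e
    · have di := fld_decomp (l q) (b q) i
      have dj := fld_decomp (l q) (b q) j
      rw [e] at di hk gi ⊢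
      rcases lt_trichotomy (fld (l q) (b q) i) (fld (l q) (b q) j) with h6 | h6 | h6
      · have := h5 _ _ _ h6 (fld_lt h2) hk
        have := Nat.mul_le_mul_left (l q) (Nat.succ_le_of_lt this)
        rw [Nat.mul_succ] at this
        omega
      · rw [h6] at di ⊢; omega
      · have := Nat.mul_le_mul_left (l q) (Nat.succ_le_of_lt h6)
        rw [Nat.mul_succ] at this
        omega
    · have a1 := Nat.mul_le_mul_left (l q * b q) (Nat.succ_le_of_lt e)
      have a2 := Nat.mul_le_mul_left (l q) (Nat.succ_le_of_lt gi)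
      rw [Nat.mul_succ] at a1 a2
      omega

theorem PT_sum {α ι : Type} [Enc α] (S : Finset ι) (F : ι → α → ℕ) (h : ∀ t, PT (F t)) :
    PT (fun a => ∑ t ∈ S, F t a) := by
  classical
  induction S using Finset.induction_on with
  | empty => exact (PT.const 0).of_eq (fun a => by simp)
  | insert s S hs ih => exact ((h s).add ih).of_eq (fun a => by rw [Finset.sum_insert hs])

variable {n M : ℕ}

@[fun_prop] theorem PT_lo {α : Type} [Enc α] {f : α → QQ} (hf : PT f) (s : Sl n) :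
    PT (fun a => lo (f a) s) := by
  rcases s with a | a <;> simp only [lo] <;> fun_prop

def Gb (M b : ℕ) : Prop := 0 < b ∧ ∀ c, 0 < c → c ≤ M → b % c = 1 % c

def P0 (M n : ℕ) (q : QQ) (N : ℕ) : Prop := Ok n q ∧ Gb M q.2.2 ∧ q.1 * q.2.2 ^ n ∣ N ∧ 0 < N

abbrev Fm (n : ℕ) := ∀ b : ℕ, (Sl n → ZMod b) → Sl n → ZMod b

/-- cheap maps of the coordinates -/
def Ch (M : ℕ) (f : Fm n) : Prop := PC (fun (q : QQ) i => lift q (f q.2.2) i) (P0 M n) (fun _ => 0)

theorem Ch.congr (hA : ArrStmt) {f g : Fm n} (h : Ch M f)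
    (e : ∀ b, Gb M b → ∀ H, f b H = g b H) : Ch M g :=
  hA.pmono h id _ _ _ 0 PT.id' (fun q N hP => ⟨hP, fun i _ => by
    simp only [id]; rw [show f q.2.2 = g q.2.2 from funext (e _ hP.2.1)], le_rfl, by simp⟩)

theorem Ch.comp (hA : ArrStmt) {f g : Fm n} (hf : Ch M f) (hg : Ch M g) :
    Ch M (fun b H => f b (g b H)) :=
  hA.pmono (hA.pcomp hf hg) id _ _ _ 0 PT.id' (fun q N hP => ⟨hP, fun i _ => lift_comp hP.1 i,
    le_rfl, by simp⟩)

theorem ch_upd (hA : ArrStmt) (s : Sl n) (φ : ∀ b : ℕ, (Sl n → ZMod b) → ZMod b)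
    (G κ : QQ → ℕ → ℕ → ℕ) (c : ℕ)
    (hG : PT (fun x : QQ × ℕ × ℕ => G x.1 x.2.1 x.2.2))
    (hκ : PT (fun x : QQ × ℕ × ℕ => κ x.1 x.2.1 x.2.2))
    (h1 : ∀ q, Gb M q.2.2 → ∀ h y, y < q.2.2 → G q h y < q.2.2 ∧ κ q h y < c)
    (h2 : ∀ q, Gb M q.2.2 → ∀ h y y', y < y' → y' < q.2.2 → κ q h y = κ q h y' → G q h y < G q h y')
    (h3 : ∀ q, Ok n q → Gb M q.2.2 → ∀ i,
      (G q (i / (lo q s * q.2.2)) (fld (lo q s) q.2.2 i) : ZMod q.2.2) = φ _ (crd q i)) :
    Ch M (fun b H => update H s (φ b H)) := by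
  refine hA.pmono (pc_upd hA (fun q => lo q s) (fun q => q.2.2) G κ c (by fun_prop) (by fun_prop)
    hG hκ) id _ _ _ 0 PT.id' (fun q N hP => ⟨⟨lo_pos hP.1 s, hP.2.1.1,
      (lo_dvd_top hP.1 s).trans hP.2.2.1, h1 q hP.2.1, h2 q hP.2.1⟩, fun i _ => ?_, le_rfl, by simp⟩)
  exact (lift_upd hP.1 s i (h1 q hP.2.1 _ _ (fld_lt hP.2.1.1)).1 (by simp only [id]; rw [h3 q hP.1 hP.2.1])).symm

def nr (c : ℤ) (b : ℕ) : ℕ := c.toNat + (-c).toNat * (b - 1)

theorem nr_cast (c : ℤ) {b : ℕ} (hb : 0 < b) : ((nr c b : ℕ) : ZMod b) = (c : ZMod b) := by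
  have h : ((b - 1 : ℕ) : ZMod b) = -1 := by rw [Nat.cast_sub hb]; simp
  have h2 : ((c.toNat : ℤ) : ZMod b) - (((-c).toNat : ℤ) : ZMod b) = c := by
    rw [← Int.cast_sub, Int.toNat_sub_toNat_neg]
  unfold nr
  rw [Nat.cast_add, Nat.cast_mul, h, ← h2]
  simp only [Int.cast_natCast]; ring

theorem ch_aff (hA : ArrStmt) (s : Sl n) (co : Sl n → ℤ) (k : ℤ)
    (hco : ∀ t, co t ≠ 0 → rk s < rk t) :
    Ch M (fun b H => update H s (H s + (∑ t, (co t : ZMod b) * H t + k))) := by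
  let f : QQ → ℕ → ℕ := fun q h =>
    (∑ t, nr (co t) q.2.2 * fld (lo q t) q.2.2 (h * (lo q s * q.2.2)) + nr k q.2.2) % q.2.2
  have hf : PT (fun x : QQ × ℕ × ℕ => f x.1 x.2.1) := by
    refine PT.mod (PT.add (PT_sum _ _ (fun t => ?_)) ?_) (by fun_prop) <;> unfold nr <;> fun_prop
  refine ch_upd hA s (fun b H => H s + (∑ t, (co t : ZMod b) * H t + k))
    (fun q h y => (y + f q h) % q.2.2) (fun q h y => (y + f q h) / q.2.2) 2
    (PT.mod (PT.add (by fun_prop) hf) (by fun_prop))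
    (PT.div (PT.add (by fun_prop) hf) (by fun_prop)) (fun q hb h y hy => ⟨Nat.mod_lt _ hb.1, ?_⟩)
    (fun q hb h y y' hy _ e => mod_lt_mod (by omega) e) (fun q hq hb i => ?_)
  · have : f q h < q.2.2 := Nat.mod_lt _ hb.1
    rw [Nat.div_lt_iff_lt_mul hb.1]; omega
  · simp only [f, ZMod.natCast_mod, Nat.cast_add, Nat.cast_sum, Nat.cast_mul, nr_cast _ hb.1, crd]
    congr 2
    refine Finset.sum_congr rfl (fun t _ => ?_)
    by_cases h0 : co t = 0
    · simp [h0]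
    · obtain ⟨c, hc⟩ := lo_dvd hq (hco t h0)
      congr 2
      unfold fld
      rw [hc, ← Nat.div_div_eq_div_mul, ← Nat.div_div_eq_div_mul i (lo q s * q.2.2),
        Nat.mul_div_cancel _ (Nat.mul_pos (lo_pos hq s) hb.1)]

theorem ch_mul (hA : ArrStmt) (s : Sl n) (c : ℕ) (hc : 0 < c) :
    Ch M (fun b H => update H s ((c : ZMod b) * H s)) := by
  refine ch_upd hA s (fun b H => (c : ZMod b) * H s)
    (fun q h y => (c * y) % q.2.2) (fun q h y => (c * y) / q.2.2) c (by fun_prop)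
    (by fun_prop) (fun q hb h y hy => ⟨Nat.mod_lt _ hb.1, ?_⟩)
    (fun q hb h y y' hy _ e => mod_lt_mod (Nat.mul_lt_mul_of_pos_left hy hc) e) (fun q hq hb i => ?_)
  · rw [Nat.div_lt_iff_lt_mul hb.1]; exact Nat.mul_lt_mul_of_pos_left hy hc
  · simp [crd]

def cinv (c b : ℕ) : ℕ := (1 + (c - 1) * b) / c

theorem mul_cinv {c b : ℕ} (hb : Gb M b) (hc : 0 < c) (hM : c ≤ M) :
    c * cinv c b = 1 + (c - 1) * b := by
  refine Nat.mul_div_cancel' ((Nat.dvd_iff_mod_eq_zero ..).2 ?_)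
  have h1 : b ≡ 1 [MOD c] := hb.2 c hc hM
  have h2 : 1 + (c - 1) * b ≡ 1 + (c - 1) * 1 [MOD c] := (h1.mul_left _).add_left _
  rw [h2, show 1 + (c - 1) * 1 = c by omega, Nat.mod_self]

theorem cinv_cast {c b : ℕ} (hb : Gb M b) (hc : 0 < c) (hM : c ≤ M) :
    (c : ZMod b) * (cinv c b : ℕ) = 1 := by
  rw [← Nat.cast_mul, mul_cinv hb hc hM]; simp

theorem ch_div (hA : ArrStmt) (s : Sl n) (c : ℕ) (hc : 0 < c) (hM : c ≤ M) :
    Ch M (fun b H => update H s (((cinv c b : ℕ) : ZMod b) * H s)) := by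
  refine ch_upd hA s (fun b H => ((cinv c b : ℕ) : ZMod b) * H s)
    (fun q h y => (cinv c q.2.2 * y) % q.2.2)
    (fun q h y => (c * ((cinv c q.2.2 * y) % q.2.2)) / q.2.2) c (by unfold cinv; fun_prop)
    (by unfold cinv; fun_prop) (fun q hb h y hy => ⟨Nat.mod_lt _ hb.1, ?_⟩)
    (fun q hb h y y' hy hy' e => ?_) (fun q hq hb i => ?_)
  · rw [Nat.div_lt_iff_lt_mul hb.1]; exact Nat.mul_lt_mul_of_pos_left (Nat.mod_lt _ hb.1) hc
  · have key : ∀ z < q.2.2, (c * ((cinv c q.2.2 * z) % q.2.2)) % q.2.2 = z := fun z hz => by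
      rw [Nat.mul_mod, Nat.mod_mod, ← Nat.mul_mod, ← mul_assoc, mul_cinv hb hc hM, add_mul, one_mul,
        mul_comm (c - 1), mul_assoc, Nat.add_mul_mod_self_left, Nat.mod_eq_of_lt hz]
    have a1 := Nat.div_add_mod (c * ((cinv c q.2.2 * y) % q.2.2)) q.2.2
    have a2 := Nat.div_add_mod (c * ((cinv c q.2.2 * y') % q.2.2)) q.2.2
    rw [key y (by omega)] at a1
    rw [key y' hy'] at a2
    rw [e] at a1
    exact Nat.lt_of_mul_lt_mul_left (a := c) (by omega)
  · simp [crd]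

theorem rev_rev {l b : ℕ} (hl : 0 < l) (hb : 0 < b) (i : ℕ) :
    (i / l * l + (l - 1 - i % l)) / (l * b) * (l * b) +
      (l * b - 1 - (i / l * l + (l - 1 - i % l)) % (l * b)) = setf l b i (b - 1 - fld l b i) := by
  have h1 := Nat.mod_lt i hl
  have h2 : fld l b i < b := fld_lt hb
  have h3 : i / l = fld l b i + b * (i / (l * b)) := by
    rw [← Nat.div_div_eq_div_mul]; exact (Nat.mod_add_div _ _).symm
  obtain ⟨z, hz⟩ : ∃ z, b = fld l b i + 1 + z := ⟨b - (fld l b i + 1), by omega⟩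
  rw [setf_eq, h3]
  generalize fld l b i = y at *
  generalize i / (l * b) = h at *
  generalize i % l = r at *
  have e : (y + b * h) * l + (l - 1 - r) = (l - 1 - r + l * y) + l * b * h := by ring
  have e2 : l * b = l * y + l + l * z := by rw [hz]; ring
  have hlt : l - 1 - r + l * y < l * b := by omega
  rw [e, Nat.add_mul_div_left _ _ (by positivity), Nat.add_mul_mod_self_left, Nat.div_eq_of_lt hlt,
    Nat.mod_eq_of_lt hlt, show b - 1 - y = z by omega, zero_add, mul_comm h]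
  omega

theorem ch_flip (hA : ArrStmt) (s : Sl n) : Ch M (fun b H => update H s (-1 - H s)) := by
  have h1 := hA.pmono hA.rev (fun q : QQ => lo q s * q.2.2) _ (P0 M n) (fun _ => 0) 0 (by fun_prop)
    (fun q N hP => ⟨⟨Nat.mul_pos (lo_pos hP.1 s) hP.2.1.1, (lo_dvd_top hP.1 s).trans hP.2.2.1⟩,
      fun _ _ => rfl, le_rfl, by simp⟩)
  have h2 := hA.pmono hA.rev (fun q : QQ => lo q s) _ (P0 M n) (fun _ => 0) 0 (by fun_prop)
    (fun q N hP => ⟨⟨lo_pos hP.1 s, (dvd_mul_right _ _).trans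
      ((lo_dvd_top hP.1 s).trans hP.2.2.1)⟩, fun _ _ => rfl, le_rfl, by simp⟩)
  refine hA.pmono (hA.pcomp h1 h2) id _ _ _ 0 PT.id' (fun q N hP => ⟨hP, fun i _ => ?_,
    le_rfl, by simp⟩)
  have hb := hP.2.1.1
  have h3 : fld (lo q s) q.2.2 i < q.2.2 := fld_lt hb
  simp only [id]
  rw [rev_rev (lo_pos hP.1 s) hb]
  refine (lift_upd hP.1 s i (by omega) ?_).symm
  rw [Nat.cast_sub (by omega), Nat.cast_sub (by omega)]
  simp [crd]

theorem ch_neg (hA : ArrStmt) (s : Sl n) : Ch M (fun b H => update H s (-H s)) :=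
  ((ch_aff hA s 0 1 (by simp)).comp hA (ch_flip hA s)).congr hA (fun b _ H => by
    simp only [update_idem, update_self]; congr 1; simp; ring)

theorem unit_of {a : ℤ} {b : ℕ} (hb : Gb M b) (ha : a ≠ 0) (hM : a.natAbs ≤ M) :
    (a : ZMod b) * (a : ZMod b)⁻¹ = 1 := by
  have h := cinv_cast hb (Int.natAbs_pos.2 ha) hM
  refine ZMod.mul_inv_of_unit _ ?_
  have hu : IsUnit ((a.natAbs : ℕ) : ZMod b) := IsUnit.of_mul_eq_one _ h
  rcases Int.natAbs_eq a with e | e
  · rw [e]; simpa using hu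
  · rw [e]; simpa using hu.neg

theorem ch_scl (hA : ArrStmt) (s : Sl n) (a : ℤ) (ha : a ≠ 0) :
    Ch M (fun b H => update H s ((a : ZMod b) * H s)) := by
  have h := ch_mul (M := M) hA s a.natAbs (Int.natAbs_pos.2 ha)
  rcases Int.natAbs_eq a with e | e
  · exact h.congr hA (fun b _ H => by rw [e]; simp)
  · exact ((ch_neg hA s).comp hA h).congr hA (fun b _ H => by rw [e]; simp)

theorem ch_sci (hA : ArrStmt) (s : Sl n) (a : ℤ) (ha : a ≠ 0) (hM : a.natAbs ≤ M) :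
    Ch M (fun b H => update H s ((a : ZMod b)⁻¹ * H s)) := by
  have h := ch_div (M := M) hA s a.natAbs (Int.natAbs_pos.2 ha) hM
  rcases Int.natAbs_eq a with e | e
  · refine h.congr hA (fun b hb H => ?_)
    have := cinv_cast hb (Int.natAbs_pos.2 ha) hM
    rw [ZMod.inv_eq_of_mul_eq_one b (a : ZMod b) (cinv a.natAbs b : ℕ)
      (by rw [show (a : ZMod b) = (a.natAbs : ℕ) by conv_lhs => rw [e, Int.cast_natCast]]; exact this)]
  · refine ((ch_neg hA s).comp hA h).congr hA (fun b hb H => ?_)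
    have := cinv_cast hb (Int.natAbs_pos.2 ha) hM
    rw [ZMod.inv_eq_of_mul_eq_one b (a : ZMod b) (-(cinv a.natAbs b : ℕ))
      (by rw [show (a : ZMod b) = -(a.natAbs : ℕ) by
        conv_lhs => rw [e, Int.cast_neg, Int.cast_natCast]]; rw [neg_mul_neg]; exact this)]
    simp

theorem ch_add (hA : ArrStmt) (s t : Sl n) (c : ℤ) (h : c ≠ 0 → rk s < rk t) :
    Ch M (fun b H => update H s (H s + (c : ZMod b) * H t)) := by
  refine (ch_aff hA s (Pi.single t c) 0 (fun t' ht' => ?_)).congr hA (fun b _ H => ?_)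
  · by_cases e : t' = t
    · subst e; exact h (by simpa using ht')
    · simp [e] at ht'
  · rw [Finset.sum_eq_single t (fun t' _ e => by simp [e]) (by simp)]; simp

theorem ch_id (hA : ArrStmt) (s : Sl n) : Ch M (fun b (H : Sl n → ZMod b) => H) :=
  (ch_add hA s s 0 (by simp)).congr hA (fun b _ H => by simp)

theorem ch_par (hA : ArrStmt) (s0 : Sl n) (φ : Sl n → ∀ b : ℕ, (Sl n → ZMod b) → ZMod b)
    (S : Finset (Sl n)) (h1 : ∀ s ∈ S, Ch M (fun b H => update H s (φ s b H)))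
    (h2 : ∀ s ∈ S, ∀ t ∈ S, t ≠ s → ∀ b H v, φ s b (update H t v) = φ s b H) :
    Ch M (fun b H t => if t ∈ S then φ t b H else H t) := by
  induction S using Finset.induction_on with
  | empty => exact (ch_id hA s0).congr hA (fun b _ H => by simp)
  | insert s S hs ih =>
    refine ((ih (fun t ht => h1 t (by simp [ht])) (fun t ht t' ht' =>
      h2 t (by simp [ht]) t' (by simp [ht']))).comp hA (h1 s (by simp))).congr hA (fun b _ H => ?_)
    funext t
    by_cases ht : t ∈ S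
    · simp only [ht, if_true, Finset.mem_insert, or_true]
      exact h2 t (by simp [ht]) s (by simp) (fun e => hs (e ▸ ht)) _ _ _
    · by_cases e : t = s
      · subst e; simp [ht]
      · simp [ht, e]

end Crest.Agent.H2.Sw
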