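import Crest.Agent.H2.IMSwB

set_option autoImplicit false
set_option linter.unusedSectionVars false
set_option linter.unusedVariables false
set_option linter.unusedSimpArgs false

/-! Row 326, fast swap: a rank one move is a swap of two blocks up to cheap maps. -/

namespace Crest.Agent.H2.Sw
open Crest.Agent.H3.Ptime Crest.Agent.H9.IM Function

variable {n M : ℕ}

def hP (P : Matrix (Fin n) (Fin n) ℤ) : Fm n := fun b H s =>
  match s with
  | .inl a => H (.inl a) + ∑ c, (P a c : ZMod b) * H (.inr c)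
  | .inr a => H (.inr a)

def sw (i j : Fin n) : Fm n := fun b G =>
  update (update G (.inl i) (G (.inr j))) (.inr j) (G (.inl i))

theorem hP_zero (b : ℕ) (H : Sl n → ZMod b) : hP 0 b H = H := by
  funext s; rcases s with a | a <;> simp [hP]

theorem hP_add (P Q : Matrix (Fin n) (Fin n) ℤ) (b : ℕ) (H : Sl n → ZMod b) :
    hP (P + Q) b H = hP Q b (hP P b H) := by
  funext s; rcases s with a | a <;> simp [hP, add_mul, Finset.sum_add_distrib, add_assoc]

/-- `X_k += c * u_k * X_i` for all `k ≠ i` -/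
theorem ch_col (hA : ArrStmt) (u : Fin n → ℤ) (i : Fin n) (hi : ∀ k, u k ≠ 0 → k ≤ i) :
    Ch M (fun b H => Sum.elim
      (fun k => if k = i then H (.inl k) else H (.inl k) + (u k : ZMod b) * H (.inl i))
      (fun k => H (.inr k)) : Fm n) := by
  refine (ch_par hA (.inl i) (fun s b H => H s + (Sum.elim u 0 s : ℤ) * H (.inl i))
    ((Finset.univ.erase i).map ⟨Sum.inl, Sum.inl_injective⟩) (fun s hs => ?_)
    (fun s hs t ht hts b H v => ?_)).congr hA (fun b _ H => ?_)
  · obtain ⟨k, hk, rfl⟩ := Finset.mem_map.1 hs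
    refine ch_add hA _ _ _ (fun h => ?_)
    have h1 := hi k h
    have h2 := Finset.ne_of_mem_erase hk
    have : k < i := lt_of_le_of_ne h1 h2
    simp only [rk, Function.Embedding.coeFn_mk]; omega
  · obtain ⟨k, hk, rfl⟩ := Finset.mem_map.1 ht
    have h2 := Finset.ne_of_mem_erase hk
    simp only [Function.Embedding.coeFn_mk] at hts ⊢
    rw [update_of_ne hts.symm, update_of_ne (by simpa using h2.symm)]
  · funext s
    rcases s with a | a
    · by_cases e : a = i <;> simp [e]
    · simp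

def RS (w : Fin n → ℤ) (j : Fin n) {b : ℕ} (H : Sl n → ZMod b) : ZMod b :=
  ∑ k ∈ Finset.univ.erase j, (w k : ZMod b) * H (.inr k)

theorem RS_upr (w : Fin n → ℤ) (j : Fin n) {b : ℕ} (H : Sl n → ZMod b) (v : ZMod b) :
    RS w j (update H (.inr j) v) = RS w j H :=
  Finset.sum_congr rfl (fun k hk => by
    rw [update_of_ne (by simpa using Finset.ne_of_mem_erase hk)])

theorem RS_upl (w : Fin n → ℤ) (j i : Fin n) {b : ℕ} (H : Sl n → ZMod b) (v : ZMod b) :
    RS w j (update H (.inl i) v) = RS w j H :=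
  Finset.sum_congr rfl (fun k hk => by rw [update_of_ne (by simp)])

theorem RS_elim (w : Fin n → ℤ) (j : Fin n) {b : ℕ} (H : Sl n → ZMod b) (f : Fin n → ZMod b) :
    RS w j (Sum.elim f (fun k => H (.inr k))) = RS w j H := rfl

theorem RS_neg (w : Fin n → ℤ) (j : Fin n) {b : ℕ} (H : Sl n → ZMod b) :
    RS (-w) j H = -RS w j H := by
  unfold RS; rw [← Finset.sum_neg_distrib]; exact Finset.sum_congr rfl (fun k _ => by simp)

/-- `Y_j += c * X_i + ∑_{k ≠ j} w_k Y_k` -/
theorem ch_row (hA : ArrStmt) (w : Fin n → ℤ) (i j : Fin n) (hj : ∀ k, w k ≠ 0 → j ≤ k) :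
    Ch M (fun b H => update H (.inr j) (H (.inr j) + (H (.inl i) + RS w j H)) : Fm n) := by
  refine (ch_aff hA (.inr j) (Sum.elim (Pi.single i 1) (fun k => if k = j then 0 else w k)) 0
    (fun t ht => ?_)).congr hA (fun b _ H => ?_)
  · rcases t with a | a
    · simp only [rk]; omega
    · by_cases e : a = j
      · simp [e] at ht
      · have := hj a (by simpa [e] using ht)
        have : j < a := lt_of_le_of_ne this (Ne.symm e)
        simp only [rk]; omega
  · congr 2
    rw [RS, Fintype.sum_sum_type, Finset.sum_eq_single i (fun t _ e => by simp [e]) (by simp),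
      ← Finset.add_sum_erase _ _ (Finset.mem_univ j)]
    simp only [Sum.elim_inl, Pi.single_eq_same, Int.cast_one, one_mul, Sum.elim_inr, if_true,
      Int.cast_zero, zero_mul, zero_add, add_zero]
    congr 1
    exact Finset.sum_congr rfl (fun k hk => by rw [if_neg (Finset.ne_of_mem_erase hk)])

theorem move (hA : ArrStmt) (u w : Fin n → ℤ) (hu : u ≠ 0) (hw : w ≠ 0)
    (hM : ∀ a, (u a).natAbs ≤ M ∧ (w a).natAbs ≤ M) :
    ∃ (i j : Fin n) (pre post : Fm n), Ch M pre ∧ Ch M post ∧
      ∀ b, Gb M b → ∀ H, post b (sw i j b (pre b H)) = hP (Matrix.vecMulVec u w) b H := by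
  obtain ⟨i, hi, hi'⟩ := (Finset.univ.filter (fun a => u a ≠ 0)).exists_max_image id
    (by obtain ⟨a, ha⟩ := Function.ne_iff.1 hu; exact ⟨a, by simpa using ha⟩)
  obtain ⟨j, hj, hj'⟩ := (Finset.univ.filter (fun a => w a ≠ 0)).exists_min_image id
    (by obtain ⟨a, ha⟩ := Function.ne_iff.1 hw; exact ⟨a, by simpa using ha⟩)
  simp only [Finset.mem_filter, Finset.mem_univ, true_and, id] at hi hi' hj hj'
  have p1 := ch_sci (M := M) hA (.inl i : Sl n) (u i) hi (hM i).1
  have p2 := ch_col (M := M) hA (-u) i (fun k hk => hi' k (by simpa using hk))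
  have p3 := ch_scl (M := M) hA (.inr j : Sl n) (w j) hj
  have p4 := ch_row (M := M) hA w i j hj'
  have q1 := ch_neg (M := M) hA (.inr j : Sl n)
  have q2 := ch_row (M := M) hA (-w) i j (fun k hk => hj' k (by simpa using hk))
  have q3 := ch_sci (M := M) hA (.inr j : Sl n) (w j) hj (hM j).2
  have q4 := ch_col (M := M) hA u i hi'
  have q5 := ch_scl (M := M) hA (.inl i : Sl n) (u i) hi
  refine ⟨i, j, _, _, p4.comp hA (p3.comp hA (p2.comp hA p1)),
    q5.comp hA (q4.comp hA (q3.comp hA (q2.comp hA q1))), fun b hb H => ?_⟩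
  have ua := unit_of hb hi (hM i).1
  have uc := unit_of hb hj (hM j).2
  have hs' : ∑ c, (w c : ZMod b) * H (.inr c) = (w j : ZMod b) * H (.inr j) + RS w j H :=
    (Finset.add_sum_erase _ _ (Finset.mem_univ j)).symm
  funext s
  rcases s with a | a
  · have e0 : hP (Matrix.vecMulVec u w) b H (.inl a) =
        H (.inl a) + (u a : ZMod b) * ∑ c, (w c : ZMod b) * H (.inr c) := by
      simp [hP, Matrix.vecMulVec_apply, Finset.mul_sum, mul_assoc]
    rw [e0, hs']
    by_cases e : a = i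
    · subst e
      simp only [sw, RS_upr, RS_upl, RS_elim, RS_neg, update_self, ne_eq, reduceCtorEq,
        not_false_eq_true, update_of_ne, Sum.elim_inl, Sum.elim_inr, if_true]
      linear_combination (H (.inl a)) * ua
    · have e' : (Sum.inl a : Sl n) ≠ .inl i := by simpa using e
      simp only [sw, RS_upr, RS_upl, RS_elim, RS_neg, update_self, ne_eq, reduceCtorEq,
        not_false_eq_true, update_of_ne, Sum.elim_inl, Sum.elim_inr, if_true, e, if_false, e',
        Pi.neg_apply, Int.cast_neg]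
      ring
  · by_cases e : a = j
    · subst e
      simp only [sw, RS_upr, RS_upl, RS_elim, RS_neg, update_self, ne_eq, reduceCtorEq,
        not_false_eq_true, update_of_ne, Sum.elim_inl, Sum.elim_inr, if_true, hP]
      linear_combination (H (.inr a)) * uc
    · have e' : (Sum.inr a : Sl n) ≠ .inr j := by simpa using e
      simp only [sw, RS_upr, RS_upl, RS_elim, RS_neg, update_self, ne_eq, reduceCtorEq,
        not_false_eq_true, update_of_ne, Sum.elim_inl, Sum.elim_inr, if_true, hP, e']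

theorem ends (hA : ArrStmt) (Δ : ℤ) (hΔ : Δ ≠ 0) (hM : Δ.natAbs ≤ M) (i0 : Fin n) :
    ∃ h1 h3 : Fm n, Ch M h1 ∧ Ch M h3 ∧ ∀ b, Gb M b → ∀ H,
      h1 b (hP (Δ • (1 : Matrix (Fin n) (Fin n) ℤ)) b (h3 b H)) = fun s => H s.swap := by
  have hne : ∀ s ∈ (Finset.univ.map ⟨Sum.inr, Sum.inr_injective⟩ : Finset (Sl n)),
      ∀ t ∈ (Finset.univ.map ⟨Sum.inr, Sum.inr_injective⟩ : Finset (Sl n)), t ≠ s →
      s ≠ t ∧ s.swap ≠ t := fun s hs t ht h => by
    obtain ⟨a, -, rfl⟩ := Finset.mem_map.1 hs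
    obtain ⟨c, -, rfl⟩ := Finset.mem_map.1 ht
    exact ⟨h.symm, by simp⟩
  have hrk : ∀ s ∈ (Finset.univ.map ⟨Sum.inr, Sum.inr_injective⟩ : Finset (Sl n)),
      rk s < rk s.swap := fun s hs => by
    obtain ⟨a, -, rfl⟩ := Finset.mem_map.1 hs
    simp only [Function.Embedding.coeFn_mk, Sum.swap_inr, rk]; omega
  refine ⟨_, _, ch_par hA (.inl i0) (fun s b H => ((-Δ : ℤ) : ZMod b) * H s + H s.swap)
    (Finset.univ.map ⟨Sum.inr, Sum.inr_injective⟩) (fun s hs => ?_) (fun s hs t ht hts b H v => ?_),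
    ch_par hA (.inl i0) (fun s b H => (Δ : ZMod b)⁻¹ * (H s - H s.swap))
    (Finset.univ.map ⟨Sum.inr, Sum.inr_injective⟩) (fun s hs => ?_) (fun s hs t ht hts b H v => ?_),
    fun b hb H => ?_⟩
  · refine ((ch_add hA s s.swap 1 (fun _ => hrk s hs)).comp hA
      (ch_scl hA s (-Δ) (by simpa using hΔ))).congr hA (fun b _ H => ?_)
    have : s.swap ≠ s := fun e => by have := hrk s hs; rw [e] at this; omega
    simp [this]
  · rw [update_of_ne (hne s hs t ht hts).1, update_of_ne (hne s hs t ht hts).2]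
  · refine ((ch_sci hA s Δ hΔ hM).comp hA
      (ch_add hA s s.swap (-1) (fun _ => hrk s hs))).congr hA (fun b _ H => ?_)
    simp [sub_eq_add_neg]
  · rw [update_of_ne (hne s hs t ht hts).1, update_of_ne (hne s hs t ht hts).2]
  · have ua := unit_of hb hΔ hM
    have hs : ∀ (a : Fin n) (G : Fin n → ZMod b), ∑ c, (((Δ • (1 : Matrix (Fin n) (Fin n) ℤ)) a c : ℤ) :
        ZMod b) * G c = Δ * G a := fun a G => by
      rw [Finset.sum_eq_single a (fun t _ e => by simp [Matrix.one_apply_ne (Ne.symm e)]) (by simp)]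
      simp
    funext s
    rcases s with a | a
    · simp only [hP, hs]
      simp
      linear_combination (H (.inr a) - H (.inl a)) * ua
    · simp only [hP, Finset.mem_map, Finset.mem_univ, true_and, Function.Embedding.coeFn_mk,
        exists_apply_eq_apply, if_true, Sum.swap_inr, hs]
      simp

/-- swaps of short fields -/
theorem pc_small (hA : ArrStmt) (R : ℕ) : PC (fun (q : QQ) i => swapF q.1 q.2.1 q.2.2 i)
    (fun q N => 0 < q.2.1 ∧ 0 < q.2.2 ∧ q.2.1 * q.2.2 ∣ q.1 ∧ q.1 * q.2.2 ∣ N ∧ 0 < N ∧ q.2.2 ≤ R)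
    (fun _ => 0) := by
  have h1 := hA.ppull (fun (q : QQ) i => swapF q.1 q.2.1 q.2.2 i)
    (fun q i => fld q.1 q.2.2 i * R + fld q.2.1 q.2.2 i) (R * R) (by unfold swapF; fun_prop)
    (by fun_prop)
  refine hA.pmono h1 id _ _ _ 0 PT.id' (fun q N ⟨h1, h2, h3, h4, h5, h6⟩ => ⟨⟨fun i hi => ⟨?_, ?_⟩, ?_⟩,
    fun _ _ => rfl, le_rfl, by simp⟩)
  · have a1 : fld q.1 q.2.2 i < q.2.2 := fld_lt h2
    have a2 : fld q.2.1 q.2.2 i < q.2.2 := fld_lt h2
    simp only [id]
    nlinarith
  · exact swapF_lt h1 h2 h3 h4 h5 hi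
  · intro i j hij hj e
    simp only [id] at e ⊢
    have a1 : fld q.2.1 q.2.2 i < R := (fld_lt h2).trans_le h6
    have a2 : fld q.2.1 q.2.2 j < R := (fld_lt h2).trans_le h6
    have e1 : fld q.2.1 q.2.2 i = fld q.2.1 q.2.2 j := by
      have := congrArg (· % R) e
      simpa [Nat.mod_eq_of_lt a1, Nat.mod_eq_of_lt a2] using this
    have e2 : fld q.1 q.2.2 i = fld q.1 q.2.2 j := by
      rw [e1] at e
      exact Nat.eq_of_mul_eq_mul_right (by omega) (Nat.add_right_cancel e)
    zify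
    rw [swapF_int h3, swapF_int h3, e1, e2]
    omega

end Crest.Agent.H2.Sw
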