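import Crest.Agent.H2.IMSwC
import Crest.Agent.H6.IMCore

set_option autoImplicit false
set_option linter.unusedSectionVars false
set_option linter.unusedVariables false
set_option linter.unusedSimpArgs false

/-! Row 326, fast swap: registers of arrays. -/

namespace Crest.Agent.H2.Sw
open Crest.Agent.H3.Ptime Crest.Agent.H9.IM Function

def Sh (N V w : ℕ) (A : Arr) : Prop := A.length = N ∧ Bd V w A

theorem getD_mem {α : Type} {l : List α} {i : ℕ} (h : i < l.length) (d : α) : l.getD i d ∈ l := by
  rw [List.getD_eq_getElem _ _ h]; exact List.getElem_mem h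

theorem getD_zipmap {α β γ : Type} {l : List α} {m : List β} (f : α × β → γ) {i : ℕ}
    (hl : i < l.length) (hm : i < m.length) (d : γ) (da : α) (db : β) :
    ((l.zip m).map f).getD i d = f (l.getD i da, m.getD i db) := by
  rw [List.getD_eq_getElem _ _ hl, List.getD_eq_getElem _ _ hm,
    List.getD_eq_getElem _ _ (by simp; omega)]
  simp

theorem getD_map' {α γ : Type} {l : List α} (f : α → γ) {i : ℕ}
    (hl : i < l.length) (d : γ) (da : α) : (l.map f).getD i d = f (l.getD i da) := by
  rw [List.getD_eq_getElem _ _ hl, List.getD_eq_getElem _ _ (by simpa)]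
  simp

theorem ext_getD {α : Type} {l m : List α} (d : α) (h : l.length = m.length)
    (h2 : ∀ i < l.length, l.getD i d = m.getD i d) : l = m :=
  List.ext_getElem h (fun i h1 h3 => by
    have := h2 i h1
    rwa [List.getD_eq_getElem _ _ h1, List.getD_eq_getElem _ _ h3] at this)

variable {N V w : ℕ} {A B : Arr}

theorem Sh.cell (h : Sh N V w A) {i : ℕ} (hi : i < N) :
    (A.getD i []).length = V ∧ ∀ x ∈ A.getD i [], x < 2 ^ w :=
  h.2 _ (getD_mem (by rw [h.1]; exact hi) _)

theorem Sh.of_cell (h1 : A.length = N)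
    (h2 : ∀ i < N, (A.getD i []).length = V ∧ ∀ x ∈ A.getD i [], x < 2 ^ w) : Sh N V w A := by
  refine ⟨h1, fun c hc => ?_⟩
  obtain ⟨i, hi, rfl⟩ := List.getElem_of_mem hc
  have := h2 i (by omega)
  rwa [List.getD_eq_getElem _ _ hi] at this

theorem pull_length (π : ℕ → ℕ) : (pullN N π A).length = N := by simp [pullN]

theorem pull_cell {π : ℕ → ℕ} {i : ℕ} (hi : i < N) (h : π i < A.length) :
    (pullN N π A).getD i [] = A.getD (π i) [] := by
  rw [pullN, getD_map' _ (by simpa) _ 0, List.getD_eq_getElem (List.range N) _ (by simpa),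
    List.getElem_range, List.getD_eq_getElem _ _ h, List.getD_eq_getElem _ _ h]

theorem Sh.pull {N' : ℕ} (h : Sh N V w A) {π : ℕ → ℕ} (hπ : ∀ i < N', π i < N) :
    Sh N' V w (pullN N' π A) :=
  Sh.of_cell (pull_length _) (fun i hi => by
    rw [pull_cell hi (by rw [h.1]; exact hπ i hi)]; exact h.cell (hπ i hi))

theorem pull_pull {N' : ℕ} {π ρ : ℕ → ℕ} (hρ : ∀ i < N', ρ i < N)
    (hπ : ∀ i < N', π (ρ i) < A.length) :
    pullN N' ρ (pullN N π A) = pullN N' (fun i => π (ρ i)) A :=
  ext_getD [] (by simp [pull_length]) (fun i hi => by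
    rw [pull_length] at hi
    rw [pull_cell hi (by rw [pull_length]; exact hρ i hi), pull_cell (hρ i hi) (hπ i hi),
      pull_cell hi (hπ i hi)])

theorem pull_congr {π ρ : ℕ → ℕ} (h : ∀ i < N, π i = ρ i) : pullN N π A = pullN N ρ A :=
  List.map_congr_left (fun i hi => by rw [h i (List.mem_range.1 hi)])

def xorA (A B : Arr) : Arr := (A.zip B).map (fun x => (x.1.zip x.2).map (fun y => y.1 ^^^ y.2))
def zeroA (A : Arr) : Arr := A.map (fun c => c.map (fun _ => 0))
def cat (A B : Arr) : Arr := (A.zip B).map (fun x => x.1 ++ x.2)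
def trunc (A B : Arr) : Arr := (A.zip B).map (fun x => x.1.take x.2.length)
def chk (T r : ℕ) (c : List ℕ) : List ℕ :=
  ((c ++ List.replicate T 0).drop (r * (c.length / T + 1))).take (c.length / T + 1)

abbrev VV := ℕ → ℕ × ℕ → ZMod 2

def val (A : Arr) : VV := fun i x => if ((A.getD i []).getD x.1 0).testBit x.2 then 1 else 0

theorem val_out {i : ℕ} (h : A.length ≤ i) : val A i = 0 := by
  funext x; rw [val, List.getD_eq_default A _ h]; simp

theorem Sh.xor (hA : Sh N V w A) (hB : Sh N V w B) : Sh N V w (xorA A B) := by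
  refine Sh.of_cell (by simp [xorA, hA.1, hB.1]) (fun i hi => ?_)
  rw [xorA, getD_zipmap _ (by rw [hA.1]; exact hi) (by rw [hB.1]; exact hi) _ [] []]
  refine ⟨by rw [List.length_map, List.length_zip, (hA.cell hi).1, (hB.cell hi).1, min_self],
    fun x hx => ?_⟩
  obtain ⟨y, hy, rfl⟩ := List.mem_map.1 hx
  exact Nat.xor_lt_two_pow ((hA.cell hi).2 _ (List.of_mem_zip hy).1)
    ((hB.cell hi).2 _ (List.of_mem_zip hy).2)

theorem val_xor (hA : Sh N V w A) (hB : Sh N V w B) : val (xorA A B) = val A + val B := by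
  funext i
  by_cases hi : i < N
  · funext x
    simp only [val, Pi.add_apply]
    rw [xorA, getD_zipmap _ (by rw [hA.1]; exact hi) (by rw [hB.1]; exact hi) _ [] []]
    have h1 := (hA.cell hi).1
    have h2 := (hB.cell hi).1
    by_cases he : x.1 < V
    · rw [getD_zipmap _ (by rw [h1]; exact he) (by rw [h2]; exact he) _ 0 0, Nat.testBit_xor]
      cases ((A.getD i []).getD x.1 0).testBit x.2 <;>
        cases ((B.getD i []).getD x.1 0).testBit x.2 <;> simp <;> rfl
    · rw [List.getD_eq_default _ _ (by rw [List.length_map, List.length_zip, h1, h2]; omega),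
        List.getD_eq_default (A.getD i []) _ (by omega),
        List.getD_eq_default (B.getD i []) _ (by omega)]
      simp
  · rw [Pi.add_apply, val_out (by rw [(hA.xor hB).1]; omega), val_out (by rw [hA.1]; omega),
      val_out (by rw [hB.1]; omega), add_zero]

theorem Sh.zero (hA : Sh N V w A) : Sh N V w (zeroA A) := by
  refine Sh.of_cell (by simp [zeroA, hA.1]) (fun i hi => ?_)
  rw [zeroA, getD_map' _ (by rw [hA.1]; exact hi) _ []]
  refine ⟨by rw [List.length_map, (hA.cell hi).1], fun x hx => ?_⟩
  obtain ⟨y, hy, rfl⟩ := List.mem_map.1 hx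
  positivity

theorem val_zero (A : Arr) : val (zeroA A) = 0 := by
  funext i x
  have : ((zeroA A).getD i []).getD x.1 0 = 0 := by
    by_cases hi : i < A.length
    · rw [zeroA, getD_map' _ hi _ []]
      by_cases he : x.1 < (A.getD i []).length
      · rw [getD_map' _ he _ 0]
      · rw [List.getD_eq_default _ _ (by simpa using he)]
    · rw [List.getD_eq_default (zeroA A) _ (by simpa [zeroA] using hi)]; simp
  simp only [val, this]; simp

theorem val_pull (hA : A.length = N) {π : ℕ → ℕ} (hπ : ∀ i, π i < N ↔ i < N) :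
    val (pullN N π A) = fun i => val A (π i) := by
  funext i
  by_cases hi : i < N
  · funext x
    simp only [val]
    rw [pull_cell hi (by rw [hA]; exact (hπ i).2 hi)]
  · rw [val_out (by rw [pull_length]; omega), val_out (by have := (hπ i).not.2 hi; omega)]

theorem val_ext (hA : Sh N V w A) (hB : Sh N V w B) (h : val A = val B) : A = B := by
  refine ext_getD [] (by rw [hA.1, hB.1]) (fun i hi => ?_)
  rw [hA.1] at hi
  refine ext_getD 0 (by rw [(hA.cell hi).1, (hB.cell hi).1]) (fun e he => ?_)
  refine Nat.eq_of_testBit_eq (fun t => ?_)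
  have := congrFun (congrFun h i) (e, t)
  simp only [val] at this
  revert this
  cases ((A.getD i []).getD e 0).testBit t <;> cases ((B.getD i []).getD e 0).testBit t <;> simp

theorem Sh.chk (hA : Sh N V w A) {T r : ℕ} (hr : r < T) : Sh N (V / T + 1) w (A.map (chk T r)) := by
  refine ⟨by simp [hA.1], fun c hc => ?_⟩
  obtain ⟨c, hc', rfl⟩ := List.mem_map.1 hc
  obtain ⟨h1, h2⟩ := hA.2 c hc'
  refine ⟨?_, fun x hx => ?_⟩
  · have a1 := Nat.mul_le_mul_right (V / T + 1) (Nat.succ_le_of_lt hr)
    have a2 := Nat.mul_div_le V T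
    rw [Nat.succ_mul, Nat.mul_add T] at a1
    simp only [Sw.chk, List.length_take, List.length_drop, List.length_append,
      List.length_replicate, h1]
    omega
  · rcases List.mem_append.1 (List.mem_of_mem_drop (List.mem_of_mem_take hx)) with h | h
    · exact h2 x h
    · rw [List.eq_of_mem_replicate h]; positivity

def glue (G : ℕ → Arr) (l : List ℕ) (A : Arr) : Arr :=
  l.foldr (fun a B => cat (G a) B) (A.map (fun _ => []))

theorem glue_spec (G : ℕ → Arr) (l : List ℕ) (hA : A.length = N) (hG : ∀ a ∈ l, (G a).length = N) :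
    (glue G l A).length = N ∧
      ∀ i < N, (glue G l A).getD i [] = l.flatMap (fun a => (G a).getD i []) := by
  induction l with
  | nil => exact ⟨by simp [glue, hA], fun i hi => by
      rw [glue, List.foldr_nil, getD_map' _ (by rw [hA]; exact hi) _ []]; simp⟩
  | cons a l ih =>
    obtain ⟨h1, h2⟩ := ih (fun b hb => hG b (by simp [hb]))
    have h3 := hG a (by simp)
    have e : glue G (a :: l) A = cat (G a) (glue G l A) := rfl
    refine ⟨by rw [e]; simp [cat, h1, h3], fun i hi => ?_⟩
    rw [e, cat, getD_zipmap _ (by rw [h3]; exact hi) (by rw [h1]; exact hi) _ [] [], h2 i hi]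
    simp

theorem flat_chk (T : ℕ) (c : List ℕ) (t : ℕ) : (List.range t).flatMap (fun a => chk T a c) =
    (c ++ List.replicate T 0).take (t * (c.length / T + 1)) := by
  induction t with
  | zero => simp
  | succ t ih => rw [List.range_succ, List.flatMap_append, ih, Nat.succ_mul, List.take_add]; simp [chk]

theorem glue_pull {T : ℕ} (hT : 0 < T) (hA : Sh N V w A) {π : ℕ → ℕ} (hπ : ∀ i < N, π i < N)
    (G : ℕ → Arr) (hG : ∀ a < T, G a = pullN N π (A.map (chk T a))) :
    trunc (glue G (List.range T) A) A = pullN N π A := by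
  obtain ⟨h1, h2⟩ := glue_spec (A := A) G (List.range T) hA.1 (fun a ha => by
    rw [hG a (List.mem_range.1 ha), pull_length])
  refine ext_getD [] (by simp [trunc, h1, hA.1, pull_length]) (fun i hi => ?_)
  have hi' : i < N := by simpa [trunc, h1, hA.1] using hi
  have h3 : π i < A.length := by rw [hA.1]; exact hπ i hi'
  rw [trunc, getD_zipmap _ (by rw [h1]; exact hi') (by rw [hA.1]; exact hi') _ [] [], h2 i hi',
    pull_cell hi' h3]
  have h4 : (List.range T).flatMap (fun a => (G a).getD i []) =
      (List.range T).flatMap (fun a => chk T a (A.getD (π i) [])) :=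
    List.flatMap_congr (fun a ha => by
      rw [hG a (List.mem_range.1 ha), pull_cell hi' (by simpa using h3), getD_map' _ h3 _ []])
  have h5 := (hA.cell (hπ i hi')).1
  have a2 := Nat.lt_mul_div_succ V hT
  simp only
  rw [h4, flat_chk, (hA.cell hi').1, List.take_take, h5, min_eq_left a2.le,
    List.take_append_of_le_length h5.ge, List.take_of_length_le h5.le]

/-! ### straight line programs on registers of arrays -/

variable {μ : Type}

def stepA (op : μ → Arr → Arr) (R : List Arr) : Ins μ → Arr
  | .zero => zeroA (R.getD 0 [])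
  | .add r s => xorA (R.getD r []) (R.getD s [])
  | .neg r => R.getD r []
  | .half r => R.getD r []
  | .mv m r => op m (R.getD r [])

def runA (op : μ → Arr → Arr) (P : List (Ins μ)) (R : List Arr) : List Arr :=
  P.foldl (fun R I => R ++ [stepA op R I]) R

theorem getD_val (R : List Arr) (r : ℕ) : (R.map val).getD r 0 = val (R.getD r []) := by
  by_cases h : r < R.length
  · exact getD_map' _ h _ _
  · rw [List.getD_eq_default _ _ (by simpa using h), List.getD_eq_default _ _ (by simpa using h)]
    funext i; exact (val_out (by simp)).symm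

theorem stepA_spec {op : μ → Arr → Arr} {opV : μ → VV → VV} {R : List Arr} {I : Ins μ}
    (hop : ∀ m r, I = .mv m r → ∀ A, Sh N V w A → Sh N V w (op m A) ∧ val (op m A) = opV m (val A))
    (h0 : 0 < R.length) (hR : ∀ A ∈ R, Sh N V w A) (hI : I.ok R.length) :
    Sh N V w (stepA op R I) ∧ val (stepA op R I) = I.val (1 : ZMod 2) opV (R.map val) := by
  rcases I with _ | ⟨r, s⟩ | r | r | ⟨m, r⟩ <;> simp only [stepA, Ins.val, Ins.ok, getD_val] at hI ⊢
  · exact ⟨(hR _ (getD_mem h0 _)).zero, val_zero _⟩
  · exact ⟨(hR _ (getD_mem hI.1 _)).xor (hR _ (getD_mem hI.2 _)),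
      val_xor (hR _ (getD_mem hI.1 _)) (hR _ (getD_mem hI.2 _))⟩
  · exact ⟨hR _ (getD_mem hI _), by funext i x; simp [ZMod.neg_eq_self_mod_two]⟩
  · exact ⟨hR _ (getD_mem hI _), by simp⟩
  · exact hop m r rfl _ (hR _ (getD_mem hI _))

theorem runA_succ (op : μ → Arr → Arr) (P : List (Ins μ)) (R : List Arr) {i : ℕ} (hi : i < P.length) :
    runA op (P.take (i + 1)) R =
      runA op (P.take i) R ++ [stepA op (runA op (P.take i) R) (P.getD i .zero)] := by
  rw [List.take_add_one, List.getElem?_eq_getElem hi, List.getD_eq_getElem _ _ hi]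
  simp only [runA, Option.toList_some, List.foldl_append, List.foldl_cons, List.foldl_nil]

theorem runA_spec {op : μ → Arr → Arr} {opV : μ → VV → VV} {P : List (Ins μ)} {R : List Arr}
    (hop : ∀ m r, .mv m r ∈ P → ∀ A, Sh N V w A → Sh N V w (op m A) ∧ val (op m A) = opV m (val A))
    (h0 : 0 < R.length) (hR : ∀ A ∈ R, Sh N V w A)
    (hP : ∀ i (h : i < P.length), P[i].ok (R.length + i)) (i : ℕ) (hi : i ≤ P.length) :
    (runA op (P.take i) R).length = R.length + i ∧ (∀ A ∈ runA op (P.take i) R, Sh N V w A) ∧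
      (runA op (P.take i) R).map val = slp (1 : ZMod 2) opV (P.take i) (R.map val) := by
  induction i with
  | zero => exact ⟨by simp [runA], by simpa [runA] using hR, by simp [runA, slp]⟩
  | succ i ih =>
    obtain ⟨h1, h2, h3⟩ := ih (by omega)
    have hi' : i < P.length := hi
    obtain ⟨h4, h5⟩ := stepA_spec (op := op) (opV := opV) (I := P.getD i .zero)
      (fun m r e => hop m r (e ▸ getD_mem hi' _)) (by omega) h2
      (by rw [h1, List.getD_eq_getElem _ _ hi']; exact hP i hi')
    rw [runA_succ _ _ _ hi']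
    refine ⟨by simp [h1]; omega, fun A hA => ?_, ?_⟩
    · rcases List.mem_append.1 hA with h | h
      · exact h2 A h
      · rw [List.mem_singleton.1 h]; exact h4
    · rw [List.map_append, h3, List.map_singleton, h5, h3, List.take_add_one,
        List.getElem?_eq_getElem hi', List.getD_eq_getElem _ _ hi']
      simp only [slp, Option.toList_some, List.foldl_append, List.foldl_cons, List.foldl_nil]

/-! ### linear time -/

section
variable {α β : Type} [Enc α] [Enc β] {S : α → ℕ → Prop}

theorem cc_getD (r : ℕ) (d : β) {l : α → List β} (hl : CC l S) : CC (fun a => (l a).getD r d) S := by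
  induction r generalizing l with
  | zero => exact (hl.headD (CC.const d)).of_eq (fun a => by cases l a <;> simp)
  | succ r ih => exact (ih hl.tail).of_eq (fun a => by cases l a <;> simp)

theorem cc_xorA (hN : NumStmt) {f g : α → Arr} (hf : CC f S) (hg : CC g S) :
    CC (fun a => xorA (f a) (g a)) S :=
  (hf.zip hg).mapL (CC.mapL (by fun_prop) hN.xor)

theorem cc_zeroA {f : α → Arr} (hf : CC f S) : CC (fun a => zeroA (f a)) S :=
  hf.mapL (CC.mapL CC.id' (CC.const 0))

theorem cc_cat {f g : α → Arr} (hf : CC f S) (hg : CC g S) : CC (fun a => cat (f a) (g a)) S :=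
  (hf.zip hg).mapL (by fun_prop)

theorem cc_trunc {f g : α → Arr} (hf : CC f S) (hg : CC g S) : CC (fun a => trunc (f a) (g a)) S :=
  (hf.zip hg).mapL coreStmt.take

theorem lin_drop (r : ℕ) : Lin (fun x : List α × List β => x.1.drop (r * x.2.length)) := by
  induction r with
  | zero => exact (CC.fst CC.id').of_eq (fun x => by simp)
  | succ r ih => exact (CC.comp coreStmt.drop (ih.pair (CC.snd CC.id'))).of_eq (fun x => by
      simp [Nat.succ_mul])

theorem lin_chk {T : ℕ} (hT : 0 < T) (r : ℕ) : Lin (chk T r) := by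
  have h1 : Lin (fun c : List ℕ => c ++ List.replicate T 0) := by fun_prop
  have h2 : Lin (fun c : List ℕ => chunks T (c ++ List.replicate T 0)) :=
    (CC.comp coreStmt.chunks' ((CC.const (List.replicate T ())).pair h1)).of_eq (fun c => by simp)
  refine (CC.comp coreStmt.take ((CC.comp (lin_drop r) (h1.pair h2)).pair h2)).of_eq (fun c => ?_)
  simp [chk, chunks, Nat.add_div_right _ hT]

theorem cc_list {ι : Type} (l : List ι) (F : ι → α → β) (h : ∀ t ∈ l, CC (F t) S) :
    CC (fun a => l.map (fun t => F t a)) S := by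
  induction l with
  | nil => exact CC.const []
  | cons t l ih => exact (h t (by simp)).cons (ih (fun t ht => h t (by simp [ht])))

theorem cc_glue (l : List ℕ) {G : α → ℕ → Arr} {f : α → Arr} (hG : ∀ t, CC (fun a => G a t) S)
    (hf : CC f S) : CC (fun a => glue (G a) l (f a)) S := by
  induction l with
  | nil => exact hf.mapL (CC.const [])
  | cons t l ih => exact cc_cat (hG t) ih

end

theorem sz_arr (h : Sh N V w A) : sz A ≤ 5 * (N + 1) * (V * (w + 1) + 1) := by
  have h1 : ∀ c ∈ A, sz c ≤ V * (4 * w + 5) + 1 := fun c hc => by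
    have := sz_le_mul c (4 * w + 4) (fun x hx => (sz_nat_le x).trans (by
      have := Nat.size_le.2 ((h.2 c hc).2 x hx); omega))
    rwa [(h.2 c hc).1] at this
  have := sz_le_mul A _ h1
  rw [h.1] at this
  nlinarith [Nat.zero_le (N * V), Nat.zero_le (N * V * w), Nat.zero_le (V * w)]

end Crest.Agent.H2.Sw
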