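import Crest.Agent.H2.IMSwD

set_option autoImplicit false
set_option linter.unusedSectionVars false
set_option linter.unusedVariables false
set_option linter.unusedSimpArgs false

/-! Row 326, fast swap: one stage of the recursion. -/

namespace Crest.Agent.H2.Sw
open Crest.Agent.H3.Ptime Crest.Agent.H9.IM Function Filter

abbrev RQ := ℕ × ℕ × List Unit

def qq (p n : ℕ) (x : RQ) : QQ := (x.1, x.2.1, p ^ (x.2.2.length / n))

def Vd (p : ℕ) (x : RQ) (N : ℕ) : Prop :=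
  0 < x.2.1 ∧ x.2.1 * p ^ x.2.2.length ∣ x.1 ∧ x.1 * p ^ x.2.2.length ∣ N ∧ 0 < N

def Gp (M p : ℕ) : Prop := 2 ≤ p ∧ ∀ c, 0 < c → c ≤ M → p % c = 1 % c

variable {M n p : ℕ}

theorem Gp.gb (h : Gp M p) (J : ℕ) : Gb M (p ^ J) := by
  refine ⟨by have := h.1; positivity, fun c h1 h2 => ?_⟩
  have : p ≡ 1 [MOD c] := h.2 c h1 h2
  have h3 := this.pow J
  rw [one_pow] at h3
  exact h3

theorem pow_dvd_e (p n e : ℕ) : (p ^ (e / n)) ^ n ∣ p ^ e := by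
  rw [← pow_mul]; exact pow_dvd_pow _ (Nat.div_mul_le_self _ _)

theorem Vd.p0 {x : RQ} {N : ℕ} (hp : Gp M p) (h : Vd p x N) : P0 M n (qq p n x) N :=
  ⟨⟨lx_pos h.2.2.1 h.2.2.2, h.1, (hp.gb _).1,
    (Nat.mul_dvd_mul_left _ (pow_dvd_e p n _)).trans h.2.1⟩, hp.gb _,
    (Nat.mul_dvd_mul_left _ (pow_dvd_e p n _)).trans h.2.2.1, h.2.2.2⟩

theorem PT_qq (p n : ℕ) : PT (qq p n) := by unfold qq; fun_prop

theorem Ch.toR (hA : ArrStmt) (hp : Gp M p) {f : Fm n} (h : Ch M f) :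
    PC (fun (x : RQ) i => lift (qq p n x) (f _) i) (Vd p) (fun _ => 0) :=
  hA.pmono h (qq p n) _ _ _ 0 (PT_qq p n) (fun x N hx => ⟨hx.p0 hp, fun _ _ => rfl, le_rfl, by simp⟩)

def Bg (k s N V w Λ T : ℕ) : Prop :=
  s ≤ Λ ∧ w ≤ Λ ∧ N ≤ 2 ^ Λ ∧ 2 ≤ Λ ∧ (N + 1 : ℝ) * (V * (w + 1 : ℝ) ^ (1 + gam) + (Λ : ℝ) ^ k) ≤ T

theorem pc_cc {Q : Type} [Enc Q] {π : Q → ℕ → ℕ} {P : Q → ℕ → Prop} (h : PC π P (fun _ => 0)) :
    ∀ᶠ k in atTop, CC (fun y : Q × Arr => pullN y.2.length (π y.1) y.2)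
      (fun y T => P y.1 y.2.length ∧ ∃ V w Λ, Bg k (sz y.1) y.2.length V w Λ T ∧ Bd V w y.2) := by
  obtain ⟨⟨k, h1, -⟩, -⟩ := h
  filter_upwards [eventually_ge_atTop k] with k' hk
  refine h1.mono (fun y T ⟨a1, V, w, Λ, ⟨a2, a3, a4, a5, a6⟩, a7⟩ =>
    ⟨V, w, Λ, a1, a7, a2, a3, a4, a5, le_rfl, le_trans ?_ a6⟩)
  have : (Λ : ℝ) ^ k ≤ (Λ : ℝ) ^ k' := pow_le_pow_right₀ (by exact_mod_cast (by omega : 1 ≤ Λ)) hk
  simp only [zero_add, mul_one]
  gcongr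

theorem pt_cc {Q β : Type} [Enc Q] [Enc β] {f : Q → β} (h : PT f) :
    ∀ᶠ k in atTop, CC f (fun x T => ∃ N V w Λ, Bg k (sz x) N V w Λ T) := by
  obtain ⟨k, h1⟩ := CC.ofPT h
  filter_upwards [eventually_ge_atTop k] with k' hk
  refine h1.mono (fun x T ⟨N, V, w, Λ, a2, a3, a4, a5, a6⟩ => ?_)
  have b1 : sz x ^ k ≤ Λ ^ k' := (Nat.pow_le_pow_left a2 k).trans (Nat.pow_le_pow_right (by omega) hk)
  have b2 : ((Λ ^ k' : ℕ) : ℝ) ≤ T := by
    refine le_trans ?_ a6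
    push_cast
    have : (0 : ℝ) ≤ V * (w + 1 : ℝ) ^ (1 + gam) := by positivity
    have : (0 : ℝ) ≤ (Λ : ℝ) ^ k' := by positivity
    nlinarith [(Nat.cast_nonneg N : (0 : ℝ) ≤ N)]
  exact b1.trans (by exact_mod_cast b2)

def FF (p : ℕ) (a : RQ × Arr) : Arr :=
  pullN a.2.length (swapF a.1.1 a.1.2.1 (p ^ a.1.2.2.length)) a.2

abbrev Mv (n : ℕ) := (Fin n → ℤ) × (Fin n → ℤ)

noncomputable def opA (p : ℕ) (x : RQ) (m : Mv n) (A : Arr) : Arr :=
  pullN A.length (lift (qq p n x) (hP (Matrix.vecMulVec m.1 m.2) _)) A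

abbrev St := RQ × Arr × List Arr

theorem Vd.swap_lt {x : RQ} {N : ℕ} (hp : 2 ≤ p) (h : Vd p x N) {i : ℕ} (hi : i < N) :
    swapF x.1 x.2.1 (p ^ x.2.2.length) i < N :=
  swapF_lt h.1 (by positivity) h.2.1 h.2.2.1 h.2.2.2 hi

theorem pull_id {A : Arr} : pullN A.length (fun i => i) A = A :=
  ext_getD [] (pull_length _) (fun i hi => by rw [pull_length] at hi; exact pull_cell hi hi)

def Stage (n p : ℕ) (I : Ins (Mv n)) : Prop :=
  ∃ (arg : St → RQ × Arr) (post : St × Arr → Arr) (Sa : ℕ → St → ℕ → Prop)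
    (Sp : ℕ → St × Arr → ℕ → Prop), (∀ᶠ k in atTop, CC arg (Sa k) ∧ CC post (Sp k)) ∧
    ∀ (k : ℕ) (s : St) (N V w Λ T : ℕ), Vd p s.1 N → Bg k (sz s.1) N V w Λ T →
      (∀ A ∈ s.2.2, Sh N V w A) → I.ok s.2.2.length →
      Sa k s T ∧ Sp k (s, FF p (arg s)) T ∧ post (s, FF p (arg s)) = stepA (opA p s.1) s.2.2 I ∧
      ∃ N' V', Vd p (arg s).1 N' ∧ Sh N' V' w (arg s).2 ∧ N' ≤ N ∧
        V' ≤ I.cost (fun _ => true) * V ∧ (arg s).1.2.2.length ≤ s.1.2.2.length / n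

theorem stage_triv (I : Ins (Mv n)) (post : St → Arr) (h : Lin post)
    (h2 : ∀ (s : St) N V w, Vd p s.1 N → (∀ A ∈ s.2.2, Sh N V w A) → I.ok s.2.2.length →
      post s = stepA (opA p s.1) s.2.2 I) : Stage n p I :=
  ⟨fun _ => ((1, 1, []), [[]]), fun y => post y.1, fun _ _ _ => True, fun _ _ _ => True,
    Eventually.of_forall (fun k => ⟨CC.const _, CC.comp h (by fun_prop)⟩),
    fun k s N V w Λ T h3 h4 h5 h6 => ⟨trivial, trivial, h2 s N V w h3 h5 h6, 1, 0, by simp [Vd],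
      ⟨rfl, by simp [Bd]⟩, h3.2.2.2, by simp, by simp⟩⟩

def nq (p n : ℕ) (i j : ℕ) (x : RQ) : RQ :=
  (x.1 * (p ^ (x.2.2.length / n)) ^ i, x.2.1 * (p ^ (x.2.2.length / n)) ^ j,
    x.2.2.take (x.2.2.length / n))

theorem nq_len (p n i j : ℕ) (x : RQ) : (nq p n i j x).2.2.length = x.2.2.length / n := by
  simp [nq, Nat.div_le_self]

theorem stage (hA : ArrStmt) (hN : NumStmt) (hp : Gp M p) (I : Ins (Mv n))
    (hM : ∀ m r, I = .mv m r → ∀ a, (m.1 a).natAbs ≤ M ∧ (m.2 a).natAbs ≤ M) : Stage n p I := by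
  have hr : ∀ r, Lin (fun s : St => s.2.2.getD r []) := fun r => cc_getD r [] (by fun_prop)
  rcases I with _ | ⟨r, t⟩ | r | r | ⟨m, r⟩
  · exact stage_triv _ _ (cc_zeroA (hr 0)) (fun _ _ _ _ _ _ _ => rfl)
  · exact stage_triv _ _ (cc_xorA hN (hr r) (hr t)) (fun _ _ _ _ _ _ _ => rfl)
  · exact stage_triv _ _ (hr r) (fun _ _ _ _ _ _ _ => rfl)
  · exact stage_triv _ _ (hr r) (fun _ _ _ _ _ _ _ => rfl)
  by_cases h0 : m.1 = 0 ∨ m.2 = 0
  · refine stage_triv _ _ (hr r) (fun s N V w h1 h2 h3 => ?_)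
    have e : Matrix.vecMulVec m.1 m.2 = 0 := by
      rcases h0 with h | h <;> simp [h]
    simp only [stepA, opA, e]
    rw [pull_congr (ρ := fun i => i) (fun i _ => ?_), pull_id]
    rw [show hP (0 : Matrix (Fin n) (Fin n) ℤ) (qq p n s.1).2.2 = fun G => G from
      funext (hP_zero _), lift_id (h1.p0 hp).1]
  obtain ⟨i, j, pre, post, c1, c2, hmv⟩ := move (M := M) hA m.1 m.2 (fun h => h0 (.inl h))
    (fun h => h0 (.inr h)) (hM m r rfl)
  have d1 := pc_cc (c1.toR hA hp)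
  have d2 := pc_cc (c2.toR hA hp)
  have d3 := pt_cc (show PT (nq p n i j) by unfold nq; fun_prop)
  refine ⟨fun s => (nq p n i j s.1, pullN (s.2.2.getD r []).length (lift (qq p n s.1) (post _))
      (s.2.2.getD r [])), fun y => pullN y.2.length (lift (qq p n y.1.1) (pre _)) y.2,
    fun k s T => Vd p s.1 (s.2.2.getD r []).length ∧
      ∃ V w Λ, Bg k (sz s.1) (s.2.2.getD r []).length V w Λ T ∧ Bd V w (s.2.2.getD r []),
    fun k y T => Vd p y.1.1 y.2.length ∧ ∃ V w Λ, Bg k (sz y.1.1) y.2.length V w Λ T ∧ Bd V w y.2,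
    ?_, fun k s N V w Λ T h1 h2 h3 h4 => ?_⟩
  · filter_upwards [d1, d2, d3] with k e1 e2 e3
    refine ⟨CC.pair (e3.comp2 (by fun_prop) (fun s T ⟨_, V, w, Λ, h, _⟩ => ⟨_, V, w, Λ, h⟩))
      (e2.comp2 (f := fun s : St => (s.1, s.2.2.getD r []))
        (CC.pair (by fun_prop) ((hr r).cc _)) (fun s T h => h)),
      e1.comp2 (f := fun y : St × Arr => (y.1.1, y.2)) (by fun_prop) (fun s T h => h)⟩
  · have hs : Sh N V w (s.2.2.getD r []) := h3 _ (getD_mem h4 _)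
    have hP0 : P0 M n (qq p n s.1) N := h1.p0 hp
    have hl : ∀ (f : Fm n) (t : ℕ), lift (qq p n s.1) (f _) t < N ↔ t < N :=
      fun f t => lift_lt hP0.1 hP0.2.2.1 t
    have hv : Vd p (nq p n i j s.1) N := by
      refine ⟨lo_pos hP0.1 (.inr j), ?_, ?_, h1.2.2.2⟩ <;> rw [nq_len]
      · exact lo_dvd hP0.1 (s := .inr j) (t := .inl i) (by simp only [rk]; omega)
      · exact (lo_dvd_top hP0.1 (.inl i)).trans hP0.2.2.1
    have s1 : Sh N V w (pullN N (lift (qq p n s.1) (post _)) (s.2.2.getD r [])) :=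
      hs.pull (fun t ht => (hl _ t).2 ht)
    have s2 := s1.pull (N' := N) (fun t ht => hv.swap_lt hp.1 ht)
    simp only [FF, hs.1, pull_length]
    refine ⟨⟨h1, V, w, Λ, h2, hs.2⟩, ⟨h1, V, w, Λ, h2, s2.2⟩, ?_, N, V, hv, s1, le_rfl,
      by simp [Ins.cost], (nq_len ..).le⟩
    have e : ∀ t, swapF (nq p n i j s.1).1 (nq p n i j s.1).2.1 (p ^ (nq p n i j s.1).2.2.length) t =
        lift (qq p n s.1) (sw i j _) t := fun t => by
      rw [nq_len]; exact (lift_swap1 hP0.1 i j t).symm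
    simp only [stepA, opA, hs.1]
    rw [pull_congr (fun t _ => e t), pull_pull (fun t ht => (hl _ t).2 ht)
      (fun t ht => by rw [pull_length]; exact (hl _ _).2 ((hl _ t).2 ht)),
      pull_pull (fun t ht => (hl _ _).2 ((hl _ t).2 ht))
      (fun t ht => by rw [hs.1]; exact (hl _ _).2 ((hl _ _).2 ((hl _ t).2 ht)))]
    refine pull_congr (fun t _ => ?_)
    rw [lift_comp hP0.1, lift_comp hP0.1]
    congr 1
    exact funext (hmv _ hP0.2.1)

noncomputable def rho (x : RQ) (h : Ok n (qq p n x)) :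
    Multiplicative (Matrix (Fin n) (Fin n) ℤ) →* Module.End (ZMod 2) VV where
  toFun P := LinearMap.funLeft (ZMod 2) (ℕ × ℕ → ZMod 2) (lift (qq p n x) (hP P.toAdd _))
  map_one' := by
    ext v i y
    simp only [LinearMap.funLeft_apply, toAdd_one, Module.End.one_apply]
    rw [show hP (0 : Matrix (Fin n) (Fin n) ℤ) (qq p n x).2.2 = fun G => G from
      funext (hP_zero _), lift_id h]
  map_mul' P Q := by
    ext v i y
    simp only [LinearMap.funLeft_apply, toAdd_mul, Module.End.mul_apply]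
    rw [lift_comp h, show hP (P.toAdd + Q.toAdd) (qq p n x).2.2 = _ from funext (hP_add _ _ _)]

theorem rho_apply (x : RQ) (h : Ok n (qq p n x)) (P : Matrix (Fin n) (Fin n) ℤ) (v : VV) :
    rho x h (Multiplicative.ofAdd P) v = fun i => v (lift (qq p n x) (hP P _) i) := rfl

theorem sz_rq {x : RQ} {N Λ : ℕ} (hp : 2 ≤ p) (h : Vd p x N) (hN : N ≤ 2 ^ Λ) (hΛ : 2 ≤ Λ) :
    sz x ≤ 25 * Λ ∧ x.2.2.length ≤ Λ := by
  have h1 : x.1 * p ^ x.2.2.length ≤ N := Nat.le_of_dvd h.2.2.2 h.2.2.1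
  have h2 : 0 < x.1 := lx_pos h.2.2.1 h.2.2.2
  have h3 : x.2.1 * p ^ x.2.2.length ≤ x.1 := Nat.le_of_dvd h2 h.2.1
  have h4 : 0 < p ^ x.2.2.length := by positivity
  have h5 : x.1 ≤ N := (Nat.le_mul_of_pos_right _ h4).trans h1
  have h6 : x.2.1 ≤ N := ((Nat.le_mul_of_pos_right _ h4).trans h3).trans h5
  have h7 : x.2.2.length ≤ Λ := by
    have := (Nat.pow_le_pow_left hp x.2.2.length).trans
      (((Nat.le_mul_of_pos_left _ h2).trans h1).trans hN)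
    exact (Nat.pow_le_pow_iff_right (by omega)).1 this
  have h8 : ∀ y ≤ N, sz y ≤ 4 * Λ + 8 := fun y hy => by
    have : y.size ≤ Λ + 1 := Nat.size_le.2 (by rw [pow_succ]; have := Nat.two_pow_pos Λ; omega)
    have := sz_nat_le y; omega
  refine ⟨?_, h7⟩
  have e : sz x = sz x.1 + (sz x.2.1 + sz x.2.2 + 1) + 1 := by rw [← sz_pair, ← sz_pair]
  have := h8 _ h5
  have := h8 _ h6
  have := sz_units x.2.2
  omega

theorem sum_getD {α : Type} (l : List α) (d : α) (f : α → ℕ) :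
    ∑ i ∈ Finset.range l.length, f (l.getD i d) = (l.map f).sum := by
  induction l with
  | nil => simp
  | cons a l ih => rw [List.length_cons, Finset.sum_range_succ']; simp [← ih, add_comm]

theorem final_ineq {C V W Z a Kd c1 c2 lam ρ0 m K rV D : ℝ} (hC : 0 ≤ C) (hV : 0 ≤ V) (hW : 0 ≤ W)
    (hWZ : W ≤ Z) (ha : 1 ≤ a) (hK : a ≤ Kd) (hc1 : 0 ≤ c1) (h1 : C ≤ c1 * (lam - ρ0))
    (h2 : C + D * c1 ≤ c2) (hD : 0 ≤ D) (hm : m + 2 ≤ K) (hr : rV ≤ ρ0 * V + D) :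
    C * (V * W + Z) + (c1 * rV * W * a + m * (c2 * Kd * Z)) ≤
      c1 * V * W * (a * lam) + c2 * (Kd * K) * Z := by
  have hZ : 0 ≤ Z := hW.trans hWZ
  have hc2 : 0 ≤ c2 := le_trans (by positivity) h2
  have hKd : 1 ≤ Kd := ha.trans hK
  have b1 : c1 * rV * W * a ≤ c1 * (ρ0 * V + D) * W * a := by gcongr
  have b2 : C * (V * W) ≤ c1 * (lam - ρ0) * (V * W * a) := by
    have : V * W ≤ V * W * a := le_mul_of_one_le_right (by positivity) ha
    have h3 : 0 ≤ c1 * (lam - ρ0) := hC.trans h1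
    gcongr
  have b3 : c1 * D * W * a ≤ c1 * D * Z * Kd := by gcongr
  have b4 : C * Z ≤ C * Z * Kd := le_mul_of_one_le_right (by positivity) hKd
  have b5 : (C + D * c1) * (Z * Kd) ≤ c2 * (Z * Kd) := by gcongr
  have b6 : (m + 2) * (c2 * Kd * Z) ≤ K * (c2 * Kd * Z) := by gcongr
  have b7 : 0 ≤ c2 * Kd * Z := by positivity
  nlinarith

theorem lam_facts (hn : 2 ≤ n) (hn' : n ≤ 2 ^ 20) :
    (n : ℝ) * (1 - 1 / 2 ^ 30) < (n : ℝ) ^ th ∧ (n : ℝ) ^ th ≤ n ∧ 1 ≤ (n : ℝ) ^ th := by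
  have h1 : (1 : ℝ) ≤ n := by exact_mod_cast (by omega : 1 ≤ n)
  have h0 : (0 : ℝ) < n := by linarith
  refine ⟨?_, ?_, Real.one_le_rpow h1 (by unfold th; norm_num)⟩
  · have e : (n : ℝ) ^ th = n * Real.exp (-(Real.log n / 2 ^ 40)) := by
      rw [th, Real.rpow_sub h0, Real.rpow_one, Real.rpow_def_of_pos h0, Real.exp_neg]
      rw [div_eq_mul_inv]; congr 3; ring
    have h2 : Real.log n ≤ 20 := by
      have : (n : ℝ) ≤ 2 ^ 20 := by exact_mod_cast hn'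
      refine (Real.log_le_log h0 this).trans ?_
      rw [Real.log_pow]
      have := Real.log_two_lt_d9
      push_cast; linarith
    have h3 := Real.add_one_le_exp (-(Real.log n / 2 ^ 40))
    rw [e]
    refine mul_lt_mul_of_pos_left (lt_of_lt_of_le ?_ h3) h0
    have : Real.log n / 2 ^ 40 ≤ 20 / 2 ^ 40 := by gcongr
    norm_num at this ⊢
    linarith
  · calc (n : ℝ) ^ th ≤ (n : ℝ) ^ (1 : ℝ) :=
        Real.rpow_le_rpow_of_exponent_le h1 (by unfold th; norm_num)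
      _ = n := Real.rpow_one _

end Crest.Agent.H2.Sw
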