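import Crest.Agent.H2.IMSwE

set_option autoImplicit false
set_option linter.unusedSectionVars false
set_option linter.unusedVariables false
set_option linter.unusedSimpArgs false

/-! Row 326, fast swap: the recursion. -/

namespace Crest.Agent.H2.Sw
open Crest.Agent.H3.Ptime Crest.Agent.H9.IM Function Filter

variable {M n p : ℕ}

def R0 (T : ℕ) (A : Arr) : List Arr := (List.range T).map (fun r => A.map (chk T r))

theorem net_spec (hp : Gp M p) {T : ℕ} {D : Matrix (Fin n) (Fin n) ℤ} {P : List (Ins (Mv n))}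
    {out : ℕ → ℕ} (hT : 0 < T) (hok : ∀ i (h : i < P.length), P[i].ok (T + i))
    (hout : ∀ a < T, out a < T + P.length)
    (hnet : ∀ (ρ : Multiplicative (Matrix (Fin n) (Fin n) ℤ) →* Module.End (ZMod 2) VV)
      (x : List VV), x.length = T → ∀ a < T, (slp (1 : ZMod 2)
        (fun m v => ρ (Multiplicative.ofAdd (Matrix.vecMulVec m.1 m.2)) v) P x).getD (out a) 0 =
        ρ (Multiplicative.ofAdd D) (x.getD a 0))
    {x : RQ} {N V w : ℕ} {A : Arr} (hx : Vd p x N) (hA : Sh N V w A) :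
    (∀ i ≤ P.length, (runA (opA p x) (P.take i) (R0 T A)).length = T + i ∧
      ∀ B ∈ runA (opA p x) (P.take i) (R0 T A), Sh N (V / T + 1) w B) ∧
    trunc (glue (fun a => (runA (opA p x) P (R0 T A)).getD (out a) []) (List.range T) A) A =
      pullN N (lift (qq p n x) (hP D _)) A := by
  have hP0 : P0 M n (qq p n x) N := hx.p0 hp
  have hl : ∀ (f : Fm n) (t : ℕ), lift (qq p n x) (f _) t < N ↔ t < N :=
    fun f t => lift_lt hP0.1 hP0.2.2.1 t
  have hlen : (R0 T A).length = T := by simp [R0]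
  have hR : ∀ B ∈ R0 T A, Sh N (V / T + 1) w B := fun B hB => by
    obtain ⟨r, hr, rfl⟩ := List.mem_map.1 hB
    exact hA.chk (List.mem_range.1 hr)
  have key := runA_spec (op := opA p x) (P := P) (R := R0 T A)
    (opV := fun m v => rho x hP0.1 (Multiplicative.ofAdd (Matrix.vecMulVec m.1 m.2)) v)
    (fun m r _ B hB => by
      simp only [opA, hB.1]
      exact ⟨hB.pull (fun t ht => (hl _ t).2 ht), val_pull hB.1 (hl _)⟩)
    (by omega) hR (by rw [hlen]; exact hok)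
  rw [hlen] at key
  refine ⟨fun i hi => ⟨(key i hi).1, (key i hi).2.1⟩,
    glue_pull hT hA (fun t ht => (hl _ t).2 ht) _ (fun a ha => ?_)⟩
  obtain ⟨k1, k2, k3⟩ := key P.length le_rfl
  rw [List.take_length] at k1 k2 k3
  refine val_ext (k2 _ (getD_mem (by rw [k1]; exact hout a ha) _))
    ((hA.chk ha).pull (fun t ht => (hl _ t).2 ht)) ?_
  rw [← getD_val, k3, hnet _ _ (by simp [hlen]) a ha, getD_val, rho_apply,
    val_pull (hA.chk ha).1 (hl _), R0, getD_map' _ (by simpa) _ 0,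
    List.getD_eq_getElem (List.range T) _ (by simpa), List.getElem_range]

def NetG (n : ℕ) : Prop :=
  ∃ (T : ℕ) (Δ : ℤ) (P : List (Ins (Mv n))) (out : ℕ → ℕ),
    0 < T ∧ 0 < Δ ∧ (∀ i (h : i < P.length), P[i].ok (T + i)) ∧ (∀ a < T, out a < T + P.length) ∧
    ((P.map (Ins.cost (fun _ => true))).sum : ℝ) ≤ T * n * (1 - 1 / 2 ^ 30) ∧
    ∀ (V : Type) [AddCommGroup V] [Module (ZMod 2) V]
      (ρ : Multiplicative (Matrix (Fin n) (Fin n) ℤ) →* Module.End (ZMod 2) V) (x : List V),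
      x.length = T → ∀ a < T,
      (slp (1 : ZMod 2) (fun m v => ρ (Multiplicative.ofAdd (Matrix.vecMulVec m.1 m.2)) v) P x).getD
        (out a) 0 = ρ (Multiplicative.ofAdd (Δ • (1 : Matrix (Fin n) (Fin n) ℤ))) (x.getD a 0)

theorem exists_bound (P : List (Ins (Mv n))) (c : ℕ) : ∃ M, c ≤ M ∧
    ∀ I ∈ P, ∀ m r, I = .mv m r → ∀ a, (m.1 a).natAbs ≤ M ∧ (m.2 a).natAbs ≤ M := by
  induction P with
  | nil => exact ⟨c, le_rfl, by simp⟩
  | cons I P ih =>
    obtain ⟨M, h1, h2⟩ := ih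
    have : ∃ M', ∀ m r, I = .mv m r → ∀ a, (m.1 a).natAbs ≤ M' ∧ (m.2 a).natAbs ≤ M' := by
      rcases I with _ | ⟨r, t⟩ | r | r | ⟨m, r⟩
      · exact ⟨0, by simp⟩
      · exact ⟨0, by simp⟩
      · exact ⟨0, by simp⟩
      · exact ⟨0, by simp⟩
      · refine ⟨∑ a, ((m.1 a).natAbs + (m.2 a).natAbs), fun m' r' e a => ?_⟩
        cases e
        have := Finset.single_le_sum (f := fun a => (m.1 a).natAbs + (m.2 a).natAbs)
          (fun _ _ => Nat.zero_le _) (Finset.mem_univ a)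
        omega
    obtain ⟨M', h3⟩ := this
    refine ⟨max M M', by omega, fun J hJ m r e a => ?_⟩
    rcases List.mem_cons.1 hJ with h | h
    · have := h3 m r (h ▸ e) a; omega
    · have := h2 J h m r e a; omega

theorem gp_fact (M : ℕ) : Gp M (M.factorial + 1) :=
  ⟨by have := M.factorial_pos; omega, fun c h1 h2 => by
    obtain ⟨t, ht⟩ := Nat.dvd_factorial h1 h2
    rw [ht, Nat.mul_add_mod]⟩

theorem W_facts {w Λ k : ℕ} (hw : w ≤ Λ) (hΛ : 2 ≤ Λ) (hk : 2 ≤ k) :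
    (w + 1 : ℝ) ≤ (w + 1 : ℝ) ^ (1 + gam) ∧ (w + 1 : ℝ) ^ (1 + gam) ≤ ((25 * Λ : ℕ) : ℝ) ^ k ∧
      ((25 * Λ : ℕ) : ℝ) ≤ ((25 * Λ : ℕ) : ℝ) ^ k := by
  have h1 : (1 : ℝ) ≤ w + 1 := by have : (0 : ℝ) ≤ w := Nat.cast_nonneg w; linarith
  have h2 : (1 : ℝ) ≤ ((25 * Λ : ℕ) : ℝ) := by exact_mod_cast (by omega : 1 ≤ 25 * Λ)
  have g0 : 0 ≤ gam := by unfold gam; positivity
  have g1 : gam ≤ 1 := by unfold gam; norm_num
  refine ⟨Real.self_le_rpow_of_one_le h1 (by linarith), ?_, le_self_pow₀ h2 (by omega)⟩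
  calc (w + 1 : ℝ) ^ (1 + gam) ≤ (w + 1 : ℝ) ^ ((2 : ℕ) : ℝ) :=
        Real.rpow_le_rpow_of_exponent_le h1 (by push_cast; linarith)
    _ = (w + 1 : ℝ) ^ 2 := Real.rpow_natCast _ _
    _ ≤ ((25 * Λ : ℕ) : ℝ) ^ 2 := by
        gcongr; exact_mod_cast (by omega : w + 1 ≤ 25 * Λ)
    _ ≤ _ := pow_le_pow_right₀ h2 hk

/-- the cost predicate of the recursion -/
def SS (p n k : ℕ) (c1 c2 lam K : ℝ) (a : RQ × Arr) (T : ℕ) : Prop :=
  ∃ V w Λ : ℕ, Vd p a.1 a.2.length ∧ Bd V w a.2 ∧ w ≤ Λ ∧ a.2.length ≤ 2 ^ Λ ∧ 2 ≤ Λ ∧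
    (a.2.length + 1 : ℝ) * (c1 * V * (w + 1 : ℝ) ^ (1 + gam) * lam ^ Nat.log n a.1.2.2.length +
      c2 * K ^ Nat.log n a.1.2.2.length * ((25 * Λ : ℕ) : ℝ) ^ k) ≤ T

theorem cc_rec (hA : ArrStmt) (hR : RecStmt) (hN : NumStmt) (hn : 2 ≤ n) (hn' : n ≤ 2 ^ 20)
    (net : NetG n) : ∃ (p k K : ℕ) (c1 c2 : ℝ), 2 ≤ p ∧ 0 ≤ c1 ∧ 0 ≤ c2 ∧
      CC (FF p) (SS p n k c1 c2 ((n : ℝ) ^ th) K) := by
  obtain ⟨T, Δ, P, out, hT, hΔ, hok, hout, hcost, hnet⟩ := net
  obtain ⟨M, hM1, hM2⟩ := exists_bound P Δ.natAbs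
  obtain ⟨p, hp⟩ : ∃ p, Gp M p := ⟨_, gp_fact M⟩
  have hp2 := hp.1
  obtain ⟨h1, h3, c1, c3, hend⟩ := ends (M := M) hA Δ hΔ.ne' hM1 (⟨0, by omega⟩ : Fin n)
  have hst : ∀ i : ℕ, Stage n p (P.getD i .zero) := fun i => stage hA hN hp _ (fun m r e => by
    by_cases hi : i < P.length
    · exact hM2 _ (getD_mem hi _) m r e
    · rw [List.getD_eq_default _ _ (by omega)] at e; cases e)
  choose arg post Sa Sp hcc hsp using hst
  -- the small swaps
  let b : RQ → ℕ := fun x => (p ^ (x.2.2.length / n)) ^ n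
  have hb : ∀ x : RQ, p ^ x.2.2.length = b x * p ^ (x.2.2.length % n) := fun x => by
    simp only [b]; rw [← pow_mul, ← pow_add, Nat.div_add_mod']
  have g0 : PC (fun (x : RQ) i => swapF x.1 x.2.1 (p ^ x.2.2.length) i)
      (fun x N => Vd p x N ∧ x.2.2.length < n) (fun _ => 0) :=
    hA.pmono (pc_small hA (p ^ n)) (fun x : RQ => (x.1, x.2.1, p ^ x.2.2.length)) _ _ _ 0
      (by fun_prop) (fun x N ⟨hx, hx'⟩ => ⟨⟨hx.1, by positivity, hx.2.1, hx.2.2.1, hx.2.2.2,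
        Nat.pow_le_pow_right (by omega) hx'.le⟩, fun _ _ => rfl, le_rfl, by simp⟩)
  have g1 : PC (fun (x : RQ) i => swapF (x.1 * b x) (x.2.1 * b x) (p ^ (x.2.2.length % n)) i)
      (Vd p) (fun _ => 0) :=
    hA.pmono (pc_small hA (p ^ n))
      (fun x : RQ => (x.1 * b x, x.2.1 * b x, p ^ (x.2.2.length % n))) _ _ _ 0
      (by
        refine PT.pair (by simp only [b]; fun_prop) (PT.pair (by simp only [b]; fun_prop)
          (PT.pow (by fun_prop) (by fun_prop) ((PB.const n).of_le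
            (fun x => (Nat.mod_lt _ (by omega)).le)))))
      (fun x N hx => ⟨⟨Nat.mul_pos hx.1 (by simp only [b]; positivity), by positivity,
        by simp only; rw [mul_assoc, ← hb]; exact hx.2.1.trans (dvd_mul_right _ _),
        by simp only; rw [mul_assoc, ← hb]; exact hx.2.2.1, hx.2.2.2,
        Nat.pow_le_pow_right (by omega) (Nat.mod_lt _ (by omega)).le⟩, fun _ _ => rfl, le_rfl,
        by simp⟩)
  have g3 := hA.pcomp (c3.toR hA hp) g1
  have g2 := c1.toR hA hp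
  obtain ⟨k, ⟨e0, e2, e3, eb, es⟩, hk⟩ := (((pc_cc g0).and ((pc_cc g2).and ((pc_cc g3).and
    ((pt_cc (show PT (fun x : RQ => decide (x.2.2.length < n)) by fun_prop)).and
    ((eventually_all_finset (Finset.range P.length)).2 (fun i _ => hcc i)))))).and
    (eventually_ge_atTop 2)).exists
  obtain ⟨l1, l2, l3⟩ := lam_facts hn hn'
  set lam : ℝ := (n : ℝ) ^ th with hlam
  set ρ0 : ℝ := (n : ℝ) * (1 - 1 / 2 ^ 30) with hρ0
  set C0 : ℕ := 14 + 11 * (T + P.length) with hC0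
  set C : ℝ := 2 * (C0 + 14 * P.length) with hC
  have hCp : 0 ≤ C := by positivity
  set a1 : ℝ := C / (lam - ρ0) + 1 with ha1
  have hd : 0 < lam - ρ0 := by linarith
  have ha1' : 1 ≤ a1 := by have : 0 ≤ C / (lam - ρ0) := by positivity
                           linarith
  have ha1'' : C ≤ a1 * (lam - ρ0) := by rw [ha1, add_mul, div_mul_cancel₀ _ hd.ne']; linarith
  set a2 : ℝ := C + (T * n) * a1 + 1 with ha2
  have ha2' : 1 ≤ a2 := by have : (0 : ℝ) ≤ (T * n) * a1 := by positivity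
                           linarith
  set K : ℕ := P.length + n with hK
  refine ⟨p, k, K, a1, a2, hp2, by linarith, by linarith, ?_⟩
  let π1 : RQ × Arr → Arr := fun a => pullN a.2.length (lift (qq p n a.1) (h1 _)) a.2
  let gl : St → Arr := fun s => trunc (glue (fun a => s.2.2.getD (out a) []) (List.range T) s.2.1) s.2.1
  have cinit : CC (fun a : RQ × Arr => ((a.1, π1 a, R0 T (π1 a)) : St)) _ :=
    CC.pair (by fun_prop) (CC.pair e2 (cc_list _ _ (fun r _ => e2.mapL (lin_chk hT r))))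
  have cgl : Lin gl := cc_trunc (cc_glue _ (fun t => cc_getD _ _ (by fun_prop)) (by fun_prop))
    (by fun_prop)
  have cfin := e3.comp2 (f := fun s : St => (s.1, gl s)) (CC.pair (by fun_prop) (cgl.cc _))
    (fun s T h => h)
  refine hR P.length (fun a => decide (a.1.2.2.length < n)) (FF p) _ _ arg
    (fun i y => (y.1.1, y.1.2.1, y.1.2.2 ++ [post i y])) (FF p) _ _ _ _ (fun i => Sa i k)
    (fun i => Sp i k) (eb.comp2 (f := fun a : RQ × Arr => a.1) (by fun_prop) (fun s T h => h))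
    e0 cinit cfin (fun i hi => (es i (by simpa using hi)).1)
    (fun i hi => CC.pair (by fun_prop) (CC.pair (by fun_prop) (CC.append (by fun_prop)
      ((es i (by simpa using hi)).2.cons (CC.const [])))))
    _ (fun a => a.1.2.2.length) ?_
  rintro ⟨x, A⟩ T' ⟨V, w, Λ, hx, hB, hw, hN, hΛ, hT'⟩
  simp only at hx hB hN hT' ⊢
  generalize hNN : A.length = N at *
  have hsA : Sh N V w A := ⟨hNN, hB⟩
  obtain ⟨w1, w2, w3⟩ := W_facts hw hΛ hk
  set W : ℝ := (w + 1 : ℝ) ^ (1 + gam) with hW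
  set Z : ℝ := ((25 * Λ : ℕ) : ℝ) ^ k with hZ
  have hW1 : 1 ≤ W := le_trans (by have : (0 : ℝ) ≤ w := Nat.cast_nonneg w; linarith) w1
  have hK1 : (1 : ℝ) ≤ K := by exact_mod_cast (by omega : 1 ≤ K)
  have hKl : lam ≤ K := l2.trans (by exact_mod_cast (by omega : n ≤ K))
  have hszx := sz_rq hp2 hx hN hΛ
  have hN25 : N ≤ 2 ^ (25 * Λ) := hN.trans (Nat.pow_le_pow_right (by omega) (by omega))
  have hBg : Bg k (sz x) N V w (25 * Λ) T' := by
    refine ⟨hszx.1, by omega, hN25, by omega, le_trans ?_ hT'⟩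
    have p1 : 1 ≤ lam ^ Nat.log n x.2.2.length := one_le_pow₀ l3
    have p2 : (1 : ℝ) ≤ (K : ℝ) ^ Nat.log n x.2.2.length := one_le_pow₀ hK1
    have p3 : (V : ℝ) * W = 1 * V * W * 1 := by ring
    have p4 : Z = 1 * 1 * Z := by ring
    rw [← hW, ← hZ, p3]
    conv_lhs => rw [p4]
    gcongr
  refine ⟨⟨N, V, w, _, hBg⟩, fun hbase => ⟨⟨⟨hx, by simpa using hbase⟩, V, w, _, hBg, hB⟩, trivial⟩,
    fun hbase => ?_⟩
  have hbase' : n ≤ x.2.2.length := by simpa using hbase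
  have hP0 : P0 M n (qq p n x) N := hx.p0 hp
  have hl : ∀ (f : Fm n) (t : ℕ), lift (qq p n x) (f _) t < N ↔ t < N :=
    fun f t => lift_lt hP0.1 hP0.2.2.1 t
  set A1 : Arr := pullN N (lift (qq p n x) (h1 _)) A with hA1
  have hsA1 : Sh N V w A1 := hsA.pull (fun t ht => (hl _ t).2 ht)
  obtain ⟨n1, n2⟩ := net_spec hp hT hok hout (hnet VV) hx hsA1
  set U : ℝ := (N + 1 : ℝ) * (V * W + Z) with hU
  set u : ℕ := ⌈U⌉₊ with hu
  have hZU : Z ≤ U := by
    have : (0 : ℝ) ≤ V * W := by positivity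
    have : (0 : ℝ) ≤ Z := by positivity
    nlinarith [(Nat.cast_nonneg N : (0 : ℝ) ≤ N)]
  have hU1 : 1 ≤ U := hW1.trans (w2.trans hZU)
  have huU : U ≤ u := Nat.le_ceil U
  have huU' : (u : ℝ) ≤ 2 * U := by have := Nat.ceil_lt_add_one (by linarith : 0 ≤ U); linarith
  have hu1 : 1 ≤ u := by exact_mod_cast hU1.trans huU
  have huΛ : 25 * Λ ≤ u := by exact_mod_cast w3.trans (hZU.trans huU)
  have hV1 : V / T + 1 ≤ V + 1 := by have := Nat.div_le_self V T; omega
  have hsz : ∀ N' V' B, Sh N' V' w B → N' ≤ N → V' ≤ V + 1 → sz B ≤ 10 * u := fun N' V' B h h' h'' => by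
    have q1 : (sz B : ℝ) ≤ 5 * (N' + 1) * (V' * (w + 1) + 1) := by exact_mod_cast sz_arr h
    have q2 : (N' : ℝ) ≤ N := by exact_mod_cast h'
    have q3 : (V' : ℝ) ≤ V + 1 := by exact_mod_cast h''
    have q4 : (5 : ℝ) * (N' + 1) * (V' * (w + 1) + 1) ≤ 5 * (N + 1) * ((V + 1) * W + Z) := by
      have := hW1.trans w2
      gcongr
    have q5 : (5 : ℝ) * (N + 1) * ((V + 1) * W + Z) ≤ 5 * (N + 1) * (2 * (V * W + Z)) := by
      have : (0 : ℝ) ≤ V * W := by positivity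
      gcongr; linarith
    have : (sz B : ℝ) ≤ 10 * u := by nlinarith
    exact_mod_cast this
  have hBg0 : ∀ V' ≤ V + 1, Bg k (sz x) N V' w (25 * Λ) (C0 * u) := fun V' h => by
    refine ⟨hszx.1, by omega, hN25, by omega, ?_⟩
    have q3 : (V' : ℝ) ≤ V + 1 := by exact_mod_cast h
    have q4 : (N + 1 : ℝ) * (V' * W + Z) ≤ (N + 1) * (2 * (V * W + Z)) := by
      have : (0 : ℝ) ≤ V * W := by positivity
      have : (V' : ℝ) * W ≤ (V + 1) * W := by gcongr
      gcongr; linarith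
    have q5 : (2 : ℝ) * u ≤ ((C0 * u : ℕ) : ℝ) := by exact_mod_cast Nat.mul_le_mul_right u (by omega)
    rw [← hW, ← hZ]; linarith
  have hsp' := fun i (hi : i < P.length) => hsp i k (x, A1, runA (opA p x) (P.take i) (R0 T A1)) N
    (V / T + 1) w (25 * Λ) (C0 * u) hx (hBg0 _ hV1) (n1 i hi.le).2
    (by rw [(n1 i hi.le).1, List.getD_eq_getElem _ _ hi]; exact hok i hi)
  have hrst : ∀ i ≤ P.length, rst (fun a : RQ × Arr => ((a.1, π1 a, R0 T (π1 a)) : St)) arg
      (fun i y => (y.1.1, y.1.2.1, y.1.2.2 ++ [post i y])) (FF p) (x, A) i =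
      (x, A1, runA (opA p x) (P.take i) (R0 T A1)) := by
    intro i hi
    induction i with
    | zero => simp only [rst, π1, hNN]; rfl
    | succ i ih => simp only [rst]; rw [ih (by omega), (hsp' i hi).2.2.1, runA_succ _ _ _ hi]
  have hgl : gl (x, A1, runA (opA p x) P (R0 T A1)) = pullN N (lift (qq p n x) (hP (Δ • 1) _)) A1 := n2
  have hs2 : Sh N V w (pullN N (lift (qq p n x) (hP (Δ • (1 : Matrix (Fin n) (Fin n) ℤ)) _)) A1) :=
    hsA1.pull (fun t ht => (hl _ t).2 ht)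
  obtain ⟨d, hd⟩ : ∃ d, Nat.log n x.2.2.length = d + 1 :=
    ⟨_, Nat.log_of_one_lt_of_le (by omega) hbase'⟩
  have hd' : Nat.log n (x.2.2.length / n) = d := by rw [Nat.log_div_base, hd]; rfl
  refine ⟨?_, C0 * u, fun i => ⌈(N + 1 : ℝ) * (a1 * ((P.getD i .zero).cost (fun _ => true) *
    (V / T + 1) : ℕ) * W * lam ^ d + a2 * K ^ d * Z)⌉₊, ⟨N, V, w, _, hBg0 V (by omega)⟩,
    ⟨hx, V, w, _, hBg0 V (by omega), hB⟩, ?_, fun i hi => ?_, fun i hi => ?_, ?_⟩
  · rw [hrst _ le_rfl, List.take_length]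
    simp only [hgl, pull_length, FF, hNN]
    have hs := g1.2 x N hx
    rw [pull_pull (fun t ht => (hl _ _).2 (hs t ht))
      (fun t ht => by rw [hsA1.1]; exact (hl _ _).2 ((hl _ _).2 (hs t ht))), hA1,
      pull_pull (fun t ht => (hl _ _).2 ((hl _ _).2 (hs t ht)))
      (fun t ht => by rw [hNN]; exact (hl _ _).2 ((hl _ _).2 ((hl _ _).2 (hs t ht))))]
    refine pull_congr (fun t _ => ?_)
    rw [lift_comp hP0.1, lift_comp hP0.1, hb x, swapF_mul (a := b x) (b := p ^ (x.2.2.length % n))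
      (lx_pos hx.2.2.1 hx.2.2.2) hx.1
      (by simp only [b]; positivity) (by positivity) (by rw [← hb]; exact hx.2.1)]
    rw [show (fun G => h1 (qq p n x).2.2 (hP (Δ • 1) (qq p n x).2.2 (h3 (qq p n x).2.2 G))) = _ from
      funext (hend _ hP0.2.1)]
    exact (lift_swapAll hP0.1 _).symm
  · rw [hrst _ le_rfl, List.take_length]
    simp only [hgl, pull_length]
    exact ⟨hx, V, w, _, hBg0 V (by omega), hs2.2⟩
  · rw [hrst i hi, sz_pair x, sz_pair A1]
    have q1 := hsz _ _ _ hsA1 le_rfl (by omega)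
    have q2 := sz_le_mul _ (10 * u) (fun B hB => hsz _ _ _ ((n1 i hi).2 B hB) le_rfl hV1)
    rw [(n1 i hi).1] at q2
    have q3 : (T + i) * (10 * u + 1) ≤ (T + P.length) * (11 * u) := Nat.mul_le_mul (by omega) (by omega)
    have q4 : C0 * u = 14 * u + (T + P.length) * (11 * u) := by rw [hC0]; ring
    omega
  · rw [hrst i hi.le]
    obtain ⟨r1, r2, -, N', V', r3, r4, r5, r6, r7⟩ := hsp' i hi
    have hc1 : (P.getD i .zero).cost (fun _ => true) ≤ 1 := by
      cases P.getD i .zero <;> simp [Ins.cost]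
    have r8 : V' ≤ V + 1 := by
      have := Nat.mul_le_mul_right (V / T + 1) hc1
      omega
    refine ⟨r1, r2, ?_, ⟨V', w, Λ, by rw [r4.1]; exact r3, r4.2, hw, by rw [r4.1]; omega, hΛ,
      le_trans ?_ (Nat.le_ceil _)⟩, ?_⟩
    · have := hsz _ _ _ (r4.pull (N' := N') (fun t ht => r3.swap_lt hp2 ht)) r5 r8
      simp only [FF, r4.1]
      exact this.trans (Nat.mul_le_mul_right u (by rw [hC0]; exact le_trans (by norm_num) (Nat.le_add_right _ _)))
    · have q1 := (Nat.log_mono_right (b := n) r7).trans hd'.le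
      have q2 : (N' : ℝ) ≤ N := by exact_mod_cast r5
      have q3 : (V' : ℝ) ≤ ((P.getD i .zero).cost (fun _ => true) * (V / T + 1) : ℕ) := by
        exact_mod_cast r6
      rw [r4.1, ← hW, ← hZ]
      gcongr
    · exact r7.trans_lt (Nat.div_lt_self (show 0 < x.2.2.length by omega) (by omega))
  · have q1 : ∀ i ∈ Finset.range P.length, ((⌈(N + 1 : ℝ) * (a1 * ((P.getD i .zero).cost
        (fun _ => true) * (V / T + 1) : ℕ) * W * lam ^ d + a2 * K ^ d * Z)⌉₊ +
        sz (arg i (rst (fun a : RQ × Arr => ((a.1, π1 a, R0 T (π1 a)) : St)) arg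
          (fun i y => (y.1.1, y.1.2.1, y.1.2.2 ++ [post i y])) (FF p) (x, A) i)) + 1 : ℕ) : ℝ) ≤
        (N + 1 : ℝ) * (a1 * ((V / T + 1 : ℕ) : ℝ) * W * lam ^ d) *
          ((P.getD i .zero).cost (fun _ => true) : ℕ) + ((N + 1 : ℝ) * (a2 * K ^ d * Z) + 14 * u) := by
      intro i hi
      have hi' : i < P.length := by simpa using hi
      rw [hrst i hi'.le]
      obtain ⟨-, -, -, N', V', r3, r4, r5, r6, -⟩ := hsp' i hi'
      have hc1 : (P.getD i .zero).cost (fun _ => true) ≤ 1 := by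
        cases P.getD i .zero <;> simp [Ins.cost]
      have r8 : V' ≤ V + 1 := by
        have := Nat.mul_le_mul_right (V / T + 1) hc1
        omega
      have r9 := hsz _ _ _ r4 r5 r8
      have r10 := (sz_rq hp2 r3 (r5.trans hN) hΛ).1
      have r11 : sz (arg i (x, A1, runA (opA p x) (P.take i) (R0 T A1))) + 2 ≤ 14 * u := by
        rw [← Prod.mk.eta (p := arg i _), sz_pair]; omega
      have r12 : (sz (arg i (x, A1, runA (opA p x) (P.take i) (R0 T A1))) : ℝ) + 2 ≤ 14 * u := by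
        exact_mod_cast r11
      have r13 := Nat.ceil_lt_add_one (show (0 : ℝ) ≤ (N + 1 : ℝ) * (a1 * ((P.getD i .zero).cost
        (fun _ => true) * (V / T + 1) : ℕ) * W * lam ^ d + a2 * K ^ d * Z) by positivity)
      rw [Nat.cast_add, Nat.cast_add, Nat.cast_one]
      rw [Nat.cast_mul ((P.getD i .zero).cost (fun _ => true))] at r13 ⊢
      linarith
    have q2 := Finset.sum_le_sum q1
    conv_rhs at q2 => rw [Finset.sum_add_distrib, ← Finset.mul_sum, ← Nat.cast_sum,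
      sum_getD P .zero (Ins.cost (fun _ => true)), Finset.sum_const, Finset.card_range,
      nsmul_eq_mul]
    rw [← Nat.cast_sum] at q2
    generalize (((P.map (Ins.cost (fun _ => true))).sum : ℕ) : ℝ) = r at q2 hcost
    have hT0 : (0 : ℝ) < T := by exact_mod_cast hT
    have q3 : r * ((V / T + 1 : ℕ) : ℝ) ≤ ρ0 * V + T * n := by
      have t1 : ((V / T + 1 : ℕ) : ℝ) ≤ V / T + 1 := by
        push_cast; have := Nat.cast_div_le (α := ℝ) (m := V) (n := T); linarith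
      have t2 : r ≤ T * ρ0 := by rw [hρ0]; linarith
      have t3 : ρ0 ≤ n := by linarith
      have t4 : 0 ≤ ρ0 := by rw [hρ0]; positivity
      calc r * ((V / T + 1 : ℕ) : ℝ) ≤ (T * ρ0) * (V / T + 1) := by gcongr
        _ = ρ0 * V + T * ρ0 := by field_simp
        _ ≤ _ := by gcongr
    have q4 := final_ineq (V := V) (m := P.length) (K := K) (a := lam ^ d) (Kd := (K : ℝ) ^ d)
      hCp (by positivity) (by linarith) w2 (one_le_pow₀ l3)
      (pow_le_pow_left₀ (by linarith) hKl d) (by linarith) ha1'' (by linarith : C + (T * n) * a1 ≤ a2)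
      (by positivity) (by exact_mod_cast (by omega : P.length + 2 ≤ K)) q3
    rw [hd, pow_succ, pow_succ] at hT'
    have q5 := mul_le_mul_of_nonneg_left q4 (show (0 : ℝ) ≤ N + 1 by positivity)
    have q6 : ((C0 : ℝ) + 14 * P.length) * u ≤ C * U := by
      rw [hC, mul_comm 2, mul_assoc]; gcongr
    rw [← Nat.cast_le (α := ℝ), Nat.cast_add, Nat.cast_mul]
    rw [hU] at q6
    nlinarith

end Crest.Agent.H2.Sw
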