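import Crest.Agent.H2.IMSwF

set_option autoImplicit false
set_option linter.unusedSectionVars false
set_option linter.unusedVariables false
set_option linter.unusedSimpArgs false

/-! Row 326, fast swap: padding and the final statement. -/

namespace Crest.Agent.H2.Sw
open Crest.Agent.H3.Ptime Crest.Agent.H9.IM Function Filter

theorem th_pos : 0 ≤ th ∧ th ≤ 1 := by unfold th; norm_num

theorem ac_rec {n : ℕ} (hA : ArrStmt) (hR : RecStmt) (hN : NumStmt) (hn : 2 ≤ n) (hn' : n ≤ 2 ^ 20)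
    (net : NetG n) : ∃ p : ℕ, 2 ≤ p ∧ AC (fun (x : RQ) A => FF p (x, A))
      (fun x _ A => Vd p x A.length) (fun x => (x.2.2.length + 1 : ℝ) ^ th) := by
  obtain ⟨p, k, K, c1, c2, hp, h1, h2, h⟩ := cc_rec hA hR hN hn hn' net
  obtain ⟨K0, hK0⟩ := exists_nat_ge (c1 + c2 * 25 ^ (K + k + 1))
  refine ⟨p, hp, K + k + 1, h.mono' K0 (fun a T ⟨V, w, Λ, b1, b2, b3, b4, b5, b6, b7, b8⟩ =>
    ⟨K0 * T, ⟨V, w, Λ, b1, b2, b4, b5, b6, ?_⟩, Nat.mul_le_mul_left _ (by omega)⟩),
    fun x V w A hx hB => ⟨(Sh.pull (N' := A.length) ⟨rfl, hB⟩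
      (fun t ht => Vd.swap_lt hp hx ht)).2, ?_⟩⟩
  · have he := (sz_rq hp b1 b5 b6).2
    simp only at b8
    generalize a.1.2.2.length = e at *
    have a1 : n ^ Nat.log n e ≤ e + 1 := Nat.pow_log_le_add_one n e
    have a2 : ((n : ℝ) ^ th) ^ Nat.log n e ≤ (e + 1 : ℝ) ^ th + 1 := by
      rw [← Real.rpow_natCast, ← Real.rpow_mul (by positivity), mul_comm,
        Real.rpow_mul (by positivity), Real.rpow_natCast]
      have : ((n : ℝ) ^ Nat.log n e) ^ th ≤ (e + 1 : ℝ) ^ th :=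
        Real.rpow_le_rpow (by positivity) (by exact_mod_cast a1) th_pos.1
      linarith
    have a3 : K ^ Nat.log n e * (25 * Λ) ^ k ≤ 25 ^ (K + k + 1) * Λ ^ (K + k + 1) := by
      rw [← mul_pow]
      calc K ^ Nat.log n e * (25 * Λ) ^ k ≤ (n ^ K) ^ Nat.log n e * (25 * Λ) ^ k :=
            Nat.mul_le_mul_right _ (Nat.pow_le_pow_left (Nat.lt_pow_self (by omega)).le _)
        _ = (n ^ Nat.log n e) ^ K * (25 * Λ) ^ k := by rw [← pow_mul, mul_comm K, pow_mul]
        _ ≤ (25 * Λ) ^ K * (25 * Λ) ^ k :=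
            Nat.mul_le_mul_right _ (Nat.pow_le_pow_left (by omega) _)
        _ ≤ _ := by rw [← pow_add]; exact Nat.pow_le_pow_right (by omega) (by omega)
    have a4 : (K : ℝ) ^ Nat.log n e * ((25 * Λ : ℕ) : ℝ) ^ k ≤
        25 ^ (K + k + 1) * (Λ : ℝ) ^ (K + k + 1) := by exact_mod_cast a3
    have a5 : c1 ≤ K0 := le_trans (le_add_of_nonneg_right (by positivity)) hK0
    have a6 : c2 * 25 ^ (K + k + 1) ≤ K0 := le_trans (le_add_of_nonneg_left h1) hK0
    have a7 : c1 * V * (w + 1 : ℝ) ^ (1 + gam) * ((n : ℝ) ^ th) ^ Nat.log n e ≤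
        K0 * V * (w + 1 : ℝ) ^ (1 + gam) * ((e + 1 : ℝ) ^ th + 1) := by gcongr
    have a8 : c2 * (K : ℝ) ^ Nat.log n e * ((25 * Λ : ℕ) : ℝ) ^ k ≤ K0 * (Λ : ℝ) ^ (K + k + 1) := by
      rw [mul_assoc]
      refine (mul_le_mul_of_nonneg_left a4 h2).trans ?_
      rw [← mul_assoc]; gcongr
    rw [Nat.cast_mul K0]
    refine le_trans ?_ (mul_le_mul_of_nonneg_left b8 (Nat.cast_nonneg K0))
    rw [mul_left_comm]
    refine mul_le_mul_of_nonneg_left ?_ (by positivity)
    linarith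
  · simp only [FF, pull_length]; exact Nat.le_mul_of_pos_left _ (by omega)

def Ex (m m' i : ℕ) : ℕ := i / m * m' + i % m
def Dx (m m' i : ℕ) : ℕ := if i % m' < m then i / m' * m + i % m' else 0

theorem Ex_mk {m m' h r : ℕ} (hr : r < m) : Ex m m' (h * m + r) = h * m' + r := by
  unfold Ex
  rw [add_comm (h * m), Nat.add_mul_div_right _ _ (by omega), Nat.add_mul_mod_self_right,
    Nat.div_eq_of_lt hr, Nat.mod_eq_of_lt hr, zero_add]

theorem Dx_Ex {m m' : ℕ} (h0 : 0 < m) (h : m ≤ m') (j : ℕ) : Dx m m' (Ex m m' j) = j := by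
  have h1 := Nat.mod_lt j h0
  unfold Dx Ex
  rw [add_comm (j / m * m'), Nat.add_mul_div_right _ _ (by omega), Nat.add_mul_mod_self_right,
    Nat.div_eq_of_lt (show j % m < m' by omega), Nat.mod_eq_of_lt (show j % m < m' by omega),
    if_pos h1, zero_add, Nat.div_add_mod']

theorem Ex_lt {m m' c i : ℕ} (h0 : 0 < m) (h : m ≤ m') (hi : i < c * m) : Ex m m' i < c * m' := by
  have h1 := Nat.mod_lt i h0
  have h2 := Nat.mul_le_mul_right m' (Nat.succ_le_of_lt ((Nat.div_lt_iff_lt_mul h0).2 hi))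
  rw [Nat.succ_mul] at h2
  unfold Ex; omega

theorem blk_mono {m m' i j : ℕ} (hij : i ≤ j) (h : i % m < m') :
    i / m * m' + i % m ≤ j / m * m' + j % m := by
  rcases (Nat.div_le_div_right (c := m) hij).eq_or_lt with e | e
  · have h1 := Nat.div_add_mod i m
    have h2 := Nat.div_add_mod j m
    rw [e] at h1 ⊢; omega
  · have := Nat.mul_le_mul_right m' (Nat.succ_le_of_lt e)
    rw [Nat.succ_mul] at this; omega

theorem ac_pad (hA : ArrStmt) (p : ℕ) :
    AC (fun (q : ℕ × ℕ) A => pullN (A.length / q.1 * q.2) (Dx q.1 q.2) A)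
      (fun q _ A => A ≠ [] ∧ q.2 ≤ p * q.1) (fun _ => 0) := by
  refine hA.mono (hA.pull (fun (q : ℕ × ℕ) N => N / q.1 * q.2) (fun q => Dx q.1 q.2)
    (fun q i => if i % q.2 < q.1 then 0 else 1) (p + 2) (by fun_prop) (by unfold Dx; fun_prop)
    (by fun_prop)) id _ _ _ 0 PT.id' (fun q w A ⟨h1, h2⟩ => ⟨⟨h1, ?_, fun i _ => ?_,
      fun i j hij _ e => ?_⟩, rfl, le_rfl, by simp⟩)
  · have a1 := Nat.mul_le_mul_left (A.length / q.1) h2
    have a2 := Nat.mul_le_mul_left p (Nat.div_mul_le_self A.length q.1)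
    simp only [id]; nlinarith
  · simp only [id]; split_ifs <;> omega
  · simp only [id, Dx] at e ⊢
    split_ifs at e ⊢ with a b
    · exact blk_mono hij a
    · exact le_rfl

theorem ac_unpad (hA : ArrStmt) :
    AC (fun (q : ℕ × ℕ) A => pullN (A.length / q.2 * q.1) (Ex q.1 q.2) A)
      (fun q _ A => A ≠ [] ∧ 0 < q.1 ∧ q.1 ≤ q.2) (fun _ => 0) := by
  refine hA.mono (hA.pull (fun (q : ℕ × ℕ) N => N / q.2 * q.1) (fun q => Ex q.1 q.2)
    (fun q i => 0) 1 (by fun_prop) (by unfold Ex; fun_prop)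
    (by fun_prop)) id _ _ _ 0 PT.id' (fun q w A ⟨h1, h2, h3⟩ => ⟨⟨h1, ?_, fun i _ => one_pos,
      fun i j hij _ e => blk_mono hij ((Nat.mod_lt _ h2).trans_le h3)⟩, rfl, le_rfl, by simp⟩)
  have a1 := Nat.mul_le_mul_left (A.length / q.2) h3
  have a2 := Nat.div_mul_le_self A.length q.2
  simp only [id]; omega

def bld (lx ly LX LY h x mid y r : ℕ) : ℕ := h * (lx * LX) + (x * lx + (mid * (ly * LY) + (y * ly + r)))

theorem tail_lt {ly L y r : ℕ} (hy : y < L) (hr : r < ly) : y * ly + r < ly * L := by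
  have := Nat.mul_le_mul_right ly (Nat.succ_le_of_lt hy)
  rw [Nat.succ_mul, mul_comm L] at this; omega

theorem swap_bld {m ly L h x mid y r : ℕ} (hx : x < L) (hy : y < L) (hm : mid < m) (hr : r < ly) :
    swapF (m * (ly * L)) ly L (bld (m * (ly * L)) ly L L h x mid y r) =
      bld (m * (ly * L)) ly L L h y mid x r := by
  have e1 : fld (m * (ly * L)) L (bld (m * (ly * L)) ly L L h x mid y r) = x := by
    rw [← fld_mk (lo := m * (ly * L)) (L := L) (v := x) (x := mid * (ly * L) + (y * ly + r)) (y := h)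
      (by rw [mul_comm m]; exact tail_lt hm (tail_lt hy hr)) hx]
    congr 1; rw [fld_mk (by rw [mul_comm m]; exact tail_lt hm (tail_lt hy hr)) hx, bld]; ring
  have e2 : fld ly L (bld (m * (ly * L)) ly L L h x mid y r) = y := by
    rw [show bld (m * (ly * L)) ly L L h x mid y r =
      r + ly * y + ly * L * (mid + m * (x + L * h)) by unfold bld; ring, fld_mk hr hy]
  zify
  rw [swapF_int (dvd_mul_left _ _), e1, e2]
  unfold bld; push_cast; ring

theorem exists_bld {m ly L : ℕ} (hm : 0 < m) (hy : 0 < ly) (hL : 0 < L) (i : ℕ) :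
    ∃ h x mid y r, x < L ∧ y < L ∧ mid < m ∧ r < ly ∧ i = bld (m * (ly * L)) ly L L h x mid y r := by
  refine ⟨i / (m * (ly * L) * L), fld (m * (ly * L)) L i, i % (m * (ly * L)) / (ly * L),
    fld ly L (i % (m * (ly * L))), i % (m * (ly * L)) % ly, fld_lt hL, fld_lt hL,
    (Nat.div_lt_iff_lt_mul (by positivity)).2 (Nat.mod_lt _ (by positivity)), Nat.mod_lt _ hy, ?_⟩
  have h1 := fld_decomp (m * (ly * L)) L i
  have h2 := fld_decomp ly L (i % (m * (ly * L)))
  unfold bld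
  rw [mul_comm (i / _), mul_comm (fld _ _ _), mul_comm (_ / _), mul_comm (fld _ _ _)]
  omega

theorem swap_pad {m ly L L' : ℕ} (hm : 0 < m) (hy : 0 < ly) (hL : 0 < L) (hL' : L ≤ L') (i : ℕ) :
    swapF (m * (ly * L')) ly L' (Ex (m * (ly * L') * L) (m * (ly * L') * L') (Ex (ly * L) (ly * L') i)) =
      Ex (m * (ly * L') * L) (m * (ly * L') * L') (Ex (ly * L) (ly * L')
        (swapF (m * (ly * L)) ly L i)) := by
  obtain ⟨h, x, mid, y, r, h1, h2, h3, h4, rfl⟩ := exists_bld hm hy hL i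
  have key : ∀ x y, x < L → y < L → Ex (m * (ly * L') * L) (m * (ly * L') * L') (Ex (ly * L) (ly * L')
      (bld (m * (ly * L)) ly L L h x mid y r)) = bld (m * (ly * L')) ly L' L' h x mid y r := by
    intro x y h1 h2
    rw [show bld (m * (ly * L)) ly L L h x mid y r =
      ((h * L + x) * m + mid) * (ly * L) + (y * ly + r) by unfold bld; ring, Ex_mk (tail_lt h2 h4),
      show ((h * L + x) * m + mid) * (ly * L') + (y * ly + r) = h * (m * (ly * L') * L) +
        (x * (m * (ly * L')) + (mid * (ly * L') + (y * ly + r))) by ring,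
      Ex_mk (tail_lt h1 (by rw [mul_comm m]; exact tail_lt h3 (tail_lt (by omega) h4)))]
    rfl
  rw [swap_bld h1 h2 h3 h4, key x y h1 h2, key y x h2 h1, swap_bld (by omega) (by omega) h3 h4]

def ulog (p L : ℕ) : List Unit :=
  ((List.range L.size).filter (fun k => decide (p ^ min k L.size < L))).map (fun _ => ())

theorem clog_le {p : ℕ} (hp : 2 ≤ p) (L : ℕ) : Nat.clog p L ≤ L.size :=
  Nat.clog_le_of_le_pow ((Nat.lt_size_self L).le.trans (Nat.pow_le_pow_left hp _))

theorem ulog_len {p : ℕ} (hp : 2 ≤ p) (L : ℕ) : (ulog p L).length = Nat.clog p L := by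
  obtain ⟨c, hc⟩ := Nat.exists_eq_add_of_le (clog_le hp L)
  have h1 : (List.range L.size).filter (fun k => decide (p ^ min k L.size < L)) =
      (List.range L.size).filter (fun k => decide (k < Nat.clog p L)) :=
    List.filter_congr (fun k hk => by
      rw [min_eq_left (List.mem_range.1 hk).le, decide_eq_decide]
      exact (Nat.lt_clog_iff_pow_lt (by omega)).symm)
  rw [ulog, List.length_map, h1, hc, List.range_add, List.filter_append,
    List.filter_eq_self.2 (fun a ha => by simpa using ha),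
    List.filter_eq_nil_iff.2 (fun a ha => by
      obtain ⟨b, -, rfl⟩ := List.mem_map.1 ha; simp)]
  simp

theorem PT_ulog (p : ℕ) : PT (ulog p) := by unfold ulog; fun_prop

theorem AC.tr (hA : ArrStmt) {Q Q' : Type} [Enc Q] [Enc Q'] {f : Q → Arr → Arr}
    {P : Q → ℕ → Arr → Prop} {X : Q → ℝ} (hf : AC f P X) {h : Q' → Q} (hh : PT h) {X' : Q' → ℝ}
    (hX : ∀ q, 0 ≤ X (h q) ∧ X (h q) ≤ 2 * (X' q + 1)) :
    AC (fun q A => f (h q) A) (fun q w A => P (h q) w A) X' :=
  hA.mono hf h _ _ _ 2 hh (fun q w A hP => ⟨hP, rfl, hX q⟩)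

theorem swap_of {n : ℕ} (hA : ArrStmt) (hR : RecStmt) (hN : NumStmt) (hn : 2 ≤ n) (hn' : n ≤ 2 ^ 20)
    (net : NetG n) : SwapStmt := by
  obtain ⟨p, hp, h3⟩ := ac_rec hA hR hN hn hn' net
  refine ⟨?_, fun q N ⟨a1, a2, a3, a4, a5⟩ i hi => swapF_lt a1 a2 a3 a4 a5 hi⟩
  let L' : QQ → ℕ := fun q => p ^ (ulog p q.2.2).length
  let l1 : QQ → ℕ := fun q => q.1 / (q.2.1 * q.2.2) * (q.2.1 * L' q)
  have pu : PT (fun q : QQ => ulog p q.2.2) := (PT_ulog p).comp (by fun_prop)
  have pL : PT L' := PT.pow (PT.const p) pu.length (PB.length pu)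
  have py : PT (fun q : QQ => q.2.1) := by fun_prop
  have pz : PT (fun q : QQ => q.2.2) := by fun_prop
  have pl : PT l1 := PT.mul (PT.div (PT.fst PT.id') (py.mul pz)) (py.mul pL)
  have pA := (py.mul pz).pair (py.mul pL)
  have pB := (pl.mul pz).pair (pl.mul pL)
  let X : QQ → ℝ := fun q => (Nat.log 2 q.2.2 + 1 : ℝ) ^ th
  have hX0 : ∀ q : QQ, (0 : ℝ) ≤ 0 ∧ (0 : ℝ) ≤ 2 * (X q + 1) := fun q =>
    ⟨le_rfl, by simp only [X]; positivity⟩
  have s1 := AC.tr hA (ac_pad hA p) (h := fun q : QQ => (q.2.1 * q.2.2, q.2.1 * L' q))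
    pA hX0
  have s2 := AC.tr hA (ac_pad hA p) (h := fun q : QQ => (l1 q * q.2.2, l1 q * L' q))
    pB hX0
  have s3 := AC.tr hA h3 (h := fun q : QQ => (l1 q, q.2.1, ulog p q.2.2)) (X' := X)
    (pl.pair (py.pair pu)) (fun q => ⟨by positivity, by
      have a1 : (ulog p q.2.2).length ≤ Nat.log 2 q.2.2 + 1 := by
        rw [ulog_len hp]
        exact Nat.clog_le_of_le_pow ((Nat.lt_pow_succ_log_self (by omega) _).le.trans
          (Nat.pow_le_pow_left hp _))
      have a2 : ((ulog p q.2.2).length + 1 : ℝ) ≤ 2 * (Nat.log 2 q.2.2 + 1 : ℝ) := by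
        exact_mod_cast (by omega : (ulog p q.2.2).length + 1 ≤ 2 * (Nat.log 2 q.2.2 + 1))
      have a3 := Real.rpow_le_rpow (by positivity) a2 th_pos.1
      rw [Real.mul_rpow (by positivity) (by positivity)] at a3
      have a4 : (2 : ℝ) ^ th ≤ 2 := Real.rpow_le_self_of_one_le (by norm_num) th_pos.2
      have a5 : 0 ≤ X q := by simp only [X]; positivity
      have a6 := mul_le_mul_of_nonneg_right a4 a5
      simp only [X] at a6 ⊢
      linarith⟩)
  have s4 := AC.tr hA (ac_unpad hA) (h := fun q : QQ => (l1 q * q.2.2, l1 q * L' q))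
    pB hX0
  have s5 := AC.tr hA (ac_unpad hA) (h := fun q : QQ => (q.2.1 * q.2.2, q.2.1 * L' q))
    pA hX0
  refine hA.mono (hA.comp s5 (hA.comp s4 (hA.comp s3 (hA.comp s2 s1)))) id _ _ _ 1 PT.id'
    (fun ⟨lx, ly, L⟩ w A ⟨a1, a2, ⟨m, a3⟩, ⟨H, a4⟩, a5⟩ => ?_)
  simp only [id, l1, L', X] at a1 a2 a3 a4 ⊢
  have b1 : L ≤ p ^ (ulog p L).length := by rw [ulog_len hp]; exact Nat.le_pow_clog (by omega) _
  have b2 : p ^ (ulog p L).length ≤ p * L := by
    rw [ulog_len hp]
    rcases Nat.lt_or_ge 1 L with h | h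
    · have h1 := Nat.pow_pred_clog_lt_self (show 1 < p by omega) h
      have h2 := Nat.clog_pos (show 1 < p by omega) h
      rw [← Nat.succ_pred_eq_of_pos h2, pow_succ, mul_comm]
      exact Nat.mul_le_mul_left _ h1.le
    · rw [Nat.clog_of_right_le_one h]; exact Nat.mul_pos (by omega) a2
  have b3 : FF p = fun a => pullN a.2.length (swapF a.1.1 a.1.2.1 (p ^ a.1.2.2.length)) a.2 := rfl
  simp only [b3, Vd, pull_length]
  generalize p ^ (ulog p L).length = L' at *
  rw [mul_comm] at a3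
  subst a3
  have hm : 0 < m := Nat.pos_of_ne_zero (fun h => by simp [h] at a4; simp [a4] at a5)
  have hH : 0 < H := Nat.pos_of_ne_zero (fun h => by simp [h] at a4; simp [a4] at a5)
  have hL' : 0 < L' := by omega
  have c0 : 0 < ly * L := by positivity
  have c0' : 0 < ly * L' := by positivity
  have c1 : m * (ly * L) / (ly * L) = m := Nat.mul_div_cancel _ c0
  have c2 : A.length / (ly * L) = m * L * H := by
    rw [a4, show m * (ly * L) * L * H = m * L * H * (ly * L) by ring, Nat.mul_div_cancel _ c0]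
  have c3 : m * L * H * (ly * L') / (m * (ly * L') * L) = H := by
    rw [show m * L * H * (ly * L') = H * (m * (ly * L') * L) by ring,
      Nat.mul_div_cancel _ (by positivity)]
  have c4 : H * (m * (ly * L') * L') / (m * (ly * L') * L') = H :=
    Nat.mul_div_cancel _ (by positivity)
  have c5 : H * (m * (ly * L') * L) / (ly * L') = m * L * H := by
    rw [show H * (m * (ly * L') * L) = m * L * H * (ly * L') by ring, Nat.mul_div_cancel _ c0']
  have c6 : m * L * H * (ly * L) = A.length := by rw [a4]; ring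
  have c7 : m * L * H * (ly * L') = H * (m * (ly * L') * L) := by ring
  have hne : ∀ {N : ℕ} {π : ℕ → ℕ} {B : Arr}, 0 < N → pullN N π B ≠ [] := fun h e => by
    have := congrArg List.length e; rw [pull_length] at this; simp at this; omega
  have d1 : ly * L ≤ ly * L' := Nat.mul_le_mul_left _ b1
  have d2 : m * (ly * L') * L ≤ m * (ly * L') * L' := Nat.mul_le_mul_left _ b1
  have d3 : 0 < m * (ly * L') * L := by positivity
  simp only [c1, c2, c3, c4, c5, c6]
  refine ⟨⟨⟨⟨⟨⟨List.ne_nil_of_length_pos a5, by nlinarith⟩, hne (by positivity), ?_⟩,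
    a1, dvd_mul_left _ _, dvd_mul_left _ _, by positivity⟩, hne (by positivity), d3, d2⟩,
    hne (by positivity), c0, d1⟩, ?_, by positivity, by linarith⟩
  · rw [mul_left_comm p]; exact Nat.mul_le_mul_left _ b2
  refine ext_getD [] (by simp [pull_length]) (fun i hi => ?_)
  rw [pull_length] at hi
  have f0 : swapF (m * (ly * L)) ly L i < A.length :=
    swapF_lt a1 a2 (dvd_mul_left _ _) ⟨H, a4⟩ a5 hi
  have f1 : ∀ j < A.length, Ex (ly * L) (ly * L') j < H * (m * (ly * L') * L) := fun j hj => by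
    rw [← c7]; exact Ex_lt c0 d1 (by rw [c6]; exact hj)
  have f2 : ∀ j < A.length, Ex (m * (ly * L') * L) (m * (ly * L') * L') (Ex (ly * L) (ly * L') j) <
      H * (m * (ly * L') * L') := fun j hj => Ex_lt d3 d2 (f1 j hj)
  rw [pull_cell hi (by rw [pull_length]; exact f1 i hi),
    pull_cell (f1 i hi) (by rw [pull_length]; exact f2 i hi),
    pull_cell (f2 i hi) (by rw [pull_length, swap_pad hm a1 a2 b1]; exact f2 _ f0),
    swap_pad hm a1 a2 b1,
    pull_cell (f2 _ f0) (by rw [pull_length, Dx_Ex d3 d2, c7]; exact f1 _ f0), Dx_Ex d3 d2,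
    pull_cell (by rw [c7]; exact f1 _ f0) (by rw [Dx_Ex c0 d1]; exact f0), Dx_Ex c0 d1]
  exact (pull_cell hi f0).symm

theorem swapStmt (hA : ArrStmt) (hR : RecStmt) (hN : NumStmt) (net : NetA) : SwapStmt := by
  obtain ⟨T, Δ, P, out, h1, h2, h3, h4, h5, h6⟩ := net
  exact swap_of (n := 13824) hA hR hN (by norm_num) (by norm_num)
    ⟨T, Δ, P, out, h1, h2, h3, h4, by rw [Nat.cast_ofNat]; exact h5, h6⟩

end Crest.Agent.H2.Sw
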