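import Mathlib

set_option autoImplicit false
set_option linter.unusedSectionVars false

namespace Crest.Agent.H2.PRS

open Finset

/-- `A` is nonempty and connected through edges inside `A`. -/
def Conn {V : Type} (adj : V → V → Prop) (A : Finset V) : Prop :=
  A.Nonempty ∧ ∀ x ∈ A, ∀ y ∈ A, Relation.ReflTransGen (fun a b => adj a b ∧ a ∈ A ∧ b ∈ A) x y

section basic
variable {V : Type} [DecidableEq V] {adj : V → V → Prop}

lemma rtg_mono {A B : Finset V} (hAB : A ⊆ B) {x y : V}
    (h : Relation.ReflTransGen (fun a b => adj a b ∧ a ∈ A ∧ b ∈ A) x y) :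
    Relation.ReflTransGen (fun a b => adj a b ∧ a ∈ B ∧ b ∈ B) x y :=
  by
  induction h with
  | refl => exact Relation.ReflTransGen.refl
  | tail _ hab ih => exact ih.tail ⟨hab.1, hAB hab.2.1, hAB hab.2.2⟩

lemma conn_of_root (hs : ∀ ⦃a b : V⦄, adj a b → adj b a) {A : Finset V} {x : V} (hx : x ∈ A)
    (h : ∀ y ∈ A, Relation.ReflTransGen (fun a b => adj a b ∧ a ∈ A ∧ b ∈ A) x y) :
    Conn adj A := by
  refine ⟨⟨x, hx⟩, fun a ha b hb => ?_⟩
  have hsym : ∀ u, Relation.ReflTransGen (fun a b => adj a b ∧ a ∈ A ∧ b ∈ A) x u →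
      Relation.ReflTransGen (fun a b => adj a b ∧ a ∈ A ∧ b ∈ A) u x := by
    intro u hu
    induction hu with
    | refl => exact Relation.ReflTransGen.refl
    | tail _ hab ih => exact Relation.ReflTransGen.head ⟨hs hab.1, hab.2.2, hab.2.1⟩ ih
  exact (hsym a (h a ha)).trans (h b hb)

lemma conn_union (hs : ∀ ⦃a b : V⦄, adj a b → adj b a) {A B : Finset V} {z : V} (hA : Conn adj A)
    (hB : Conn adj B) (hzA : z ∈ A) (hzB : z ∈ B) : Conn adj (A ∪ B) := by
  refine conn_of_root hs (mem_union_left _ hzA) fun y hy => ?_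
  rcases mem_union.1 hy with hy | hy
  · exact rtg_mono subset_union_left (hA.2 z hzA y hy)
  · exact rtg_mono subset_union_right (hB.2 z hzB y hy)

lemma conn_singleton (x : V) : Conn adj {x} := by
  refine ⟨⟨x, mem_singleton_self x⟩, fun a ha b hb => ?_⟩
  rw [mem_singleton.1 ha, mem_singleton.1 hb]

lemma conn_insert (hs : ∀ ⦃a b : V⦄, adj a b → adj b a) {A : Finset V} {z y : V} (hA : Conn adj A) (hz : z ∈ A)
    (hzy : adj z y) : Conn adj (insert y A) := by
  refine conn_of_root hs (mem_insert_of_mem hz) fun w hw => ?_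
  rcases mem_insert.1 hw with hw | hw
  · subst hw
    exact Relation.ReflTransGen.single ⟨hzy, mem_insert_of_mem hz, mem_insert_self _ _⟩
  · exact rtg_mono (subset_insert _ _) (hA.2 z hz w hw)

open Classical in
/-- number of ordered adjacent pairs from `X` to `Y` -/
noncomputable def ec (adj : V → V → Prop) (X Y : Finset V) : ℕ :=
  ((X ×ˢ Y).filter fun p => adj p.1 p.2).card

lemma ec_mono {X X' Y Y' : Finset V} (hX : X ⊆ X') (hY : Y ⊆ Y') : ec adj X Y ≤ ec adj X' Y' := by
  classical
  unfold ec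
  apply card_le_card
  intro p hp
  simp only [mem_filter, mem_product] at hp ⊢
  exact ⟨⟨hX hp.1.1, hY hp.1.2⟩, hp.2⟩

lemma ec_union_left (X X' Y : Finset V) : ec adj (X ∪ X') Y ≤ ec adj X Y + ec adj X' Y := by
  classical
  unfold ec
  refine le_trans (card_le_card ?_) (card_union_le _ _)
  intro p hp
  simp only [mem_filter, mem_product, mem_union] at hp ⊢
  tauto

lemma ec_union_right (X Y Y' : Finset V) : ec adj X (Y ∪ Y') ≤ ec adj X Y + ec adj X Y' := by
  classical
  unfold ec
  refine le_trans (card_le_card ?_) (card_union_le _ _)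
  intro p hp
  simp only [mem_filter, mem_product, mem_union] at hp ⊢
  tauto

lemma ec_comm (hs : ∀ ⦃a b : V⦄, adj a b → adj b a) (X Y : Finset V) : ec adj X Y = ec adj Y X := by
  classical
  unfold ec
  apply card_bij (fun p _ => p.swap)
  · intro p hp
    simp only [mem_filter, mem_product, Prod.fst_swap, Prod.snd_swap] at hp ⊢
    exact ⟨⟨hp.1.2, hp.1.1⟩, hs hp.2⟩
  · intro p _ p' _ h
    exact Prod.swap_injective h
  · intro p hp
    refine ⟨p.swap, ?_, by simp⟩
    simp only [mem_filter, mem_product, Prod.fst_swap, Prod.snd_swap] at hp ⊢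
    exact ⟨⟨hp.1.2, hp.1.1⟩, hs hp.2⟩

lemma ec_le_deg [Fintype V] {d : ℕ} (hd : ∀ x, {y | adj x y}.ncard ≤ d) (X Y : Finset V) :
    ec adj X Y ≤ d * X.card := by
  classical
  unfold ec
  have h1 : ((X ×ˢ Y).filter fun p => adj p.1 p.2) ⊆
      X.biUnion fun x => (univ.filter fun y => adj x y).image fun y => (x, y) := by
    intro p hp
    simp only [mem_filter, mem_product, mem_biUnion, mem_image, mem_univ, true_and] at hp ⊢
    exact ⟨p.1, hp.1.1, p.2, hp.2, rfl⟩
  refine (card_le_card h1).trans (card_biUnion_le.trans ?_)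
  have h2 : ∀ x ∈ X, ((univ.filter fun y => adj x y).image fun y => (x, y)).card ≤ d := by
    intro x _
    refine card_image_le.trans ?_
    have := hd x
    rwa [show {y | adj x y} = ((univ.filter fun y => adj x y : Finset V) : Set V) by
      ext y; simp, Set.ncard_coe_finset] at this
  calc _ ≤ ∑ _x ∈ X, d := sum_le_sum h2
    _ = d * X.card := by simp [mul_comm]

lemma ec_eq_zero {X Y : Finset V} (h : ∀ x ∈ X, ∀ y ∈ Y, ¬ adj x y) : ec adj X Y = 0 := by
  classical
  unfold ec
  rw [card_eq_zero, filter_eq_empty_iff]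
  intro p hp
  rw [mem_product] at hp
  exact h _ hp.1 _ hp.2

open Classical in
/-- balls inside `H` -/
noncomputable def ball (adj : V → V → Prop) (H : Finset V) (x : V) : ℕ → Finset V
  | 0 => {x}
  | j + 1 => ball adj H x j ∪ H.filter fun y => ∃ z ∈ ball adj H x j, adj z y

lemma ball_subset {H : Finset V} {x : V} (hx : x ∈ H) (j : ℕ) : ball adj H x j ⊆ H := by
  classical
  induction j with
  | zero => simpa [ball] using hx
  | succ j ih =>
    rw [ball]
    exact union_subset ih (filter_subset _ _)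

lemma ball_mono_succ (H : Finset V) (x : V) (j : ℕ) : ball adj H x j ⊆ ball adj H x (j + 1) := by
  rw [ball]; exact subset_union_left

lemma ball_mono (H : Finset V) (x : V) {i j : ℕ} (hij : i ≤ j) :
    ball adj H x i ⊆ ball adj H x j := by
  induction hij with
  | refl => exact Subset.rfl
  | step _ ih => exact ih.trans (ball_mono_succ _ _ _)

lemma ball_path (hs : ∀ ⦃a b : V⦄, adj a b → adj b a) {H : Finset V} {x : V} (hx : x ∈ H) (j : ℕ) :
    ∀ y ∈ ball adj H x j, ∃ P : Finset V, P ⊆ H ∧ x ∈ P ∧ y ∈ P ∧ Conn adj P ∧ P.card ≤ j + 1 := by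
  classical
  induction j with
  | zero =>
    intro y hy
    simp only [ball, mem_singleton] at hy
    subst hy
    exact ⟨{y}, by simpa using hx, by simp, by simp, conn_singleton y, by simp⟩
  | succ j ih =>
    intro y hy
    rw [ball, mem_union] at hy
    rcases hy with hy | hy
    · obtain ⟨P, h1, h2, h3, h4, h5⟩ := ih y hy
      exact ⟨P, h1, h2, h3, h4, by omega⟩
    · rw [mem_filter] at hy
      obtain ⟨hyH, z, hz, hzy⟩ := hy
      obtain ⟨P, h1, h2, h3, h4, h5⟩ := ih z hz
      refine ⟨insert y P, insert_subset hyH h1, mem_insert_of_mem h2, mem_insert_self _ _,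
        conn_insert hs h4 h3 hzy, ?_⟩
      exact (card_insert_le _ _).trans (by omega)

lemma ball_step [Fintype V] (hs : ∀ ⦃a b : V⦄, adj a b → adj b a) {d : ℕ} (hd : ∀ x, {y | adj x y}.ncard ≤ d)
    (H : Finset V) (x : V) (j : ℕ) :
    ec adj (ball adj H x j) (H \ ball adj H x j) + d * (ball adj H x j).card
      ≤ d * (ball adj H x (j + 1)).card := by
  classical
  set B := ball adj H x j with hB
  set B' := ball adj H x (j + 1) with hB'
  have hsub : B ⊆ B' := ball_mono_succ H x j
  have h1 : ec adj B (H \ B) ≤ ec adj B (B' \ B) := by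
    unfold ec
    apply card_le_card
    intro p hp
    simp only [mem_filter, mem_product, mem_sdiff] at hp ⊢
    refine ⟨⟨hp.1.1, ?_, hp.1.2.2⟩, hp.2⟩
    rw [hB', ball, mem_union, mem_filter]
    exact Or.inr ⟨hp.1.2.1, p.1, hp.1.1, hp.2⟩
  have h2 : ec adj B (B' \ B) ≤ d * (B' \ B).card := by
    rw [ec_comm hs]; exact ec_le_deg hd _ _
  have h3 : (B' \ B).card + B.card = B'.card := card_sdiff_add_card_eq_card hsub
  calc _ ≤ d * (B' \ B).card + d * B.card := by omega
    _ = d * B'.card := by rw [← h3]; ring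

/-- in an expander balls reach more than half of the vertices -/
lemma ball_big [Fintype V] (hs : ∀ ⦃a b : V⦄, adj a b → adj b a) {d : ℕ} (hd : ∀ x, {y | adj x y}.ncard ≤ d)
    {H : Finset V} {t : ℕ}
    (hexp : ∀ X ⊆ H, X.Nonempty → 2 * X.card ≤ H.card → X.card < t * ec adj X (H \ X))
    {x : V} (hx : x ∈ H) (k : ℕ) :
    H.card < 2 * (ball adj H x (t * d * k)).card ∨ 2 ^ k ≤ (ball adj H x (t * d * k)).card := by
  have hne : ∀ j, (ball adj H x j).Nonempty := fun j =>
    ⟨x, ball_mono H x (Nat.zero_le j) (by simp [ball])⟩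
  have inner : ∀ j i, H.card < 2 * (ball adj H x (j + i)).card ∨
      (t * d + i) * (ball adj H x j).card ≤ t * d * (ball adj H x (j + i)).card := by
    intro j i
    induction i with
    | zero => right; simp
    | succ i ih =>
      have hm : (ball adj H x (j + i)).card ≤ (ball adj H x (j + (i + 1))).card :=
        card_le_card (ball_mono_succ H x (j + i))
      by_cases hbig : H.card < 2 * (ball adj H x (j + i)).card
      · left; omega
      · right
        have ih' := ih.resolve_left hbig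
        have h1 := hexp _ (ball_subset hx (j + i)) (hne _) (by omega)
        have h2 := ball_step hs hd H x (j + i)
        have h3 : (ball adj H x j).card ≤ (ball adj H x (j + i)).card :=
          card_le_card (ball_mono H x (Nat.le_add_right j i))
        have h4 := Nat.mul_le_mul_left t h2
        rw [show j + (i + 1) = j + i + 1 by ring]
        set a := (ball adj H x j).card
        set b := (ball adj H x (j + i)).card
        set c := (ball adj H x (j + i + 1)).card
        set e := ec adj (ball adj H x (j + i)) (H \ ball adj H x (j + i))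
        have h5 : t * (e + d * b) = t * e + t * d * b := by ring
        have h6 : t * (d * c) = t * d * c := by ring
        have h7 : (t * d + (i + 1)) * a = (t * d + i) * a + a := by ring
        omega
  induction k with
  | zero => right; simpa using (hne 0).card_pos
  | succ k ih =>
    have hm : (ball adj H x (t * d * k)).card ≤ (ball adj H x (t * d * (k + 1))).card :=
      card_le_card (ball_mono H x (Nat.mul_le_mul_left _ (Nat.le_succ k)))
    rcases ih with ih | ih
    · left; omega
    · have := inner (t * d * k) (t * d)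
      rw [show t * d * k + t * d = t * d * (k + 1) by ring] at this
      rcases this with h | h
      · exact Or.inl h
      · by_cases htd : t * d = 0
        · -- degenerate: expansion fails at the singleton unless `H` is tiny
          by_cases hH : 2 * ({x} : Finset V).card ≤ H.card
          · have h1 := hexp {x} (by simpa using hx) (by simp) hH
            have h2 : ec adj {x} (H \ {x}) ≤ d * ({x} : Finset V).card := ec_le_deg hd _ _
            have h3 := Nat.mul_le_mul_left t h2
            have h4 : t * (d * ({x} : Finset V).card) = 0 := by rw [← mul_assoc, htd, zero_mul]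
            omega
          · left
            have := (hne (t * d * (k + 1))).card_pos
            simp only [card_singleton] at hH
            omega
        · right
          have hpos : 0 < t * d := Nat.pos_of_ne_zero htd
          have h2 : t * d * (2 * (ball adj H x (t * d * k)).card)
              ≤ t * d * (ball adj H x (t * d * (k + 1))).card := by
            calc _ = (t * d + t * d) * (ball adj H x (t * d * k)).card := by ring
              _ ≤ _ := h
          have h3 := Nat.le_of_mul_le_mul_left h2 hpos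
          rw [pow_succ]; omega

/-- short connections in an expander -/
lemma short_path [Fintype V] (hs : ∀ ⦃a b : V⦄, adj a b → adj b a) {d : ℕ} (hd : ∀ x, {y | adj x y}.ncard ≤ d)
    {H : Finset V} {t k : ℕ} (hk : H.card < 2 ^ k)
    (hexp : ∀ X ⊆ H, X.Nonempty → 2 * X.card ≤ H.card → X.card < t * ec adj X (H \ X))
    {x y : V} (hx : x ∈ H) (hy : y ∈ H) :
    ∃ P : Finset V, P ⊆ H ∧ x ∈ P ∧ y ∈ P ∧ Conn adj P ∧ P.card ≤ 2 * (t * d * k + 1) := by
  have big : ∀ w ∈ H, H.card < 2 * (ball adj H w (t * d * k)).card := by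
    intro w hw
    rcases ball_big hs hd hexp hw k with h | h
    · exact h
    · have := card_le_card (ball_subset (adj := adj) hw (t * d * k))
      omega
  have hx' := big x hx
  have hy' := big y hy
  have hnd : ¬ Disjoint (ball adj H x (t * d * k)) (ball adj H y (t * d * k)) := by
    intro hdis
    have h1 := card_union_of_disjoint hdis
    have h2 := card_le_card (union_subset (ball_subset (adj := adj) hx (t * d * k))
      (ball_subset (adj := adj) hy (t * d * k)))
    omega
  obtain ⟨z, hz1, hz2⟩ := not_disjoint_iff.1 hnd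
  obtain ⟨P, p1, p2, p3, p4, p5⟩ := ball_path hs hx _ z hz1
  obtain ⟨Q, q1, q2, q3, q4, q5⟩ := ball_path hs hy _ z hz2
  refine ⟨P ∪ Q, union_subset p1 q1, mem_union_left _ p2, mem_union_right _ q2,
    conn_union hs p4 q4 p3 q3, (card_union_le _ _).trans (by omega)⟩

/-- the state invariant of the minor-growing procedure -/
def Good (adj : V → V → Prop) (U : Finset V) (t s : ℕ) (B : Finset V) (𝒜 : Finset (Finset V)) :
    Prop :=
  B ⊆ U ∧ 4 * B.card ≤ 3 * U.card ∧
  (∀ A ∈ 𝒜, A ⊆ U ∧ Disjoint A B ∧ Conn adj A ∧ A.card ≤ s) ∧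
  (∀ A ∈ 𝒜, ∀ A' ∈ 𝒜, A ≠ A' → Disjoint A A' ∧ ∃ x ∈ A, ∃ y ∈ A', adj x y) ∧
  4 * t * ec adj B ((U \ B) \ 𝒜.biUnion id) ≤ B.card

/-- an expander of polylogarithmic quality contains a large clique minor -/
lemma minor_of_expander [Fintype V] (hs : ∀ ⦃a b : V⦄, adj a b → adj b a) {d : ℕ}
    (hd : ∀ x, {y | adj x y}.ncard ≤ d) {U : Finset V} {h t k s : ℕ} (hk : U.card < 2 ^ k)
    (hsdef : s = 1 + h * (2 * (4 * t * d * k + 1)))
    (hbig : 48 * (t * d + 1) * ((h + 1) * s) ≤ U.card)
    (hexp : ∀ X ⊆ U, X.Nonempty → 2 * X.card ≤ U.card → X.card < t * ec adj X (U \ X)) :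
    ∃ 𝒜 : Finset (Finset V), h ≤ 𝒜.card ∧ (∀ A ∈ 𝒜, Conn adj A) ∧
      ∀ A ∈ 𝒜, ∀ A' ∈ 𝒜, A ≠ A' → Disjoint A A' ∧ ∃ x ∈ A, ∃ y ∈ A', adj x y := by
  classical
  set S : Finset (Finset V × Finset (Finset V)) :=
    univ.filter fun p => Good adj U t s p.1 p.2 ∧ p.2.card ≤ h with hS
  have hSne : S.Nonempty := by
    refine ⟨(∅, ∅), ?_⟩
    simp [hS, Good, ec]
  obtain ⟨⟨B, 𝒜⟩, hmem, hmax⟩ := exists_max_image S (fun p => p.1.card * (h + 1) + p.2.card) hSne
  simp only [hS, mem_filter, mem_univ, true_and] at hmem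
  obtain ⟨⟨hBU, hB34, hA, hAA, hBe⟩, hcard⟩ := hmem
  have hmax' : ∀ (B' : Finset V) (𝒜' : Finset (Finset V)), Good adj U t s B' 𝒜' → 𝒜'.card ≤ h →
      B'.card * (h + 1) + 𝒜'.card ≤ B.card * (h + 1) + 𝒜.card := by
    intro B' 𝒜' h1 h2
    exact hmax (B', 𝒜') (by simp only [hS, mem_filter, mem_univ, true_and]; exact ⟨h1, h2⟩)
  by_cases hh : h ≤ 𝒜.card
  · exact ⟨𝒜, hh, fun A hA' => (hA A hA').2.2.1, hAA⟩
  exfalso
  have hlt : 𝒜.card < h := by omega
  set W := 𝒜.biUnion id with hW
  set H := (U \ B) \ W with hH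
  have hWcard : W.card ≤ h * s := by
    refine card_biUnion_le.trans ?_
    calc _ ≤ ∑ _A ∈ 𝒜, s := sum_le_sum fun A hA' => (hA A hA').2.2.2
      _ = 𝒜.card * s := by simp
      _ ≤ h * s := Nat.mul_le_mul_right _ hcard
  have hspos : 1 ≤ s := by omega
  -- `B` is small
  have hBsmall : B.card ≤ 12 * (t * d) * (h * s) := by
    have e1 : ec adj B (U \ B) ≤ ec adj B H + d * (h * s) := by
      have : U \ B ⊆ H ∪ W := by
        intro x hx
        by_cases hxW : x ∈ W
        · exact mem_union_right _ hxW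
        · exact mem_union_left _ (mem_sdiff.2 ⟨hx, hxW⟩)
      have h2 : ec adj B W ≤ d * (h * s) := by
        rw [ec_comm hs]
        exact (ec_le_deg hd _ _).trans (Nat.mul_le_mul_left _ hWcard)
      exact (ec_mono Subset.rfl this).trans ((ec_union_right _ _ _).trans (by omega))
    have e2 : B.card ≤ 3 * (t * ec adj B (U \ B)) := by
      rcases B.eq_empty_or_nonempty with hB | hB
      · simp [hB]
      by_cases h2 : 2 * B.card ≤ U.card
      · have := hexp B hBU hB h2
        omega
      · have hc : (U \ B).card + B.card = U.card := card_sdiff_add_card_eq_card hBU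
        have hne : (U \ B).Nonempty := by
          rw [← card_pos]; have := hB.card_pos; omega
        have := hexp (U \ B) sdiff_subset hne (by omega)
        rw [Finset.sdiff_sdiff_eq_self hBU, ec_comm hs] at this
        omega
    have e3 := Nat.mul_le_mul_left t e1
    have e4 : t * (ec adj B H + d * (h * s)) = t * ec adj B H + t * d * (h * s) := by ring
    have e5 : 4 * t * ec adj B H = 4 * (t * ec adj B H) := by ring
    have e6 : 12 * (t * d) * (h * s) = 12 * (t * d * (h * s)) := by ring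
    omega
  have hnum : 48 * (t * d * (h * s)) + 48 * (h * s) + 48 * s ≤ U.card := by
    calc _ ≤ 48 * (t * d + 1) * ((h + 1) * s) := by
          have : 48 * (t * d + 1) * ((h + 1) * s)
            = 48 * (t * d * (h * s)) + 48 * (h * s) + 48 * s + 48 * (t * d * s) := by ring
          omega
      _ ≤ _ := hbig
  have e6 : 12 * (t * d) * (h * s) = 12 * (t * d * (h * s)) := by ring
  have hHU : H ⊆ U := sdiff_subset.trans sdiff_subset
  have hHcard : H.card ≤ U.card := card_le_card hHU
  have hHB : Disjoint H B := by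
    rw [disjoint_left]; intro x hx; exact (mem_sdiff.1 (mem_sdiff.1 hx).1).2
  have hHA : ∀ A ∈ 𝒜, Disjoint H A := by
    intro A hA'
    rw [disjoint_left]; intro x hx hxA
    exact (mem_sdiff.1 hx).2 (mem_biUnion.2 ⟨A, hA', hxA⟩)
  -- every branch set sees `H`
  have hsee : ∀ A ∈ 𝒜, ∃ y ∈ H, ∃ x ∈ A, adj x y := by
    intro A hA'
    by_contra hno
    push Not at hno
    have hAB := (hA A hA').2.1
    have hcu : (B ∪ A).card = B.card + A.card := card_union_of_disjoint hAB.symm
    have hApos : 0 < A.card := (hA A hA').2.2.1.1.card_pos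
    have hAs := (hA A hA').2.2.2
    have hsub : (U \ (B ∪ A)) \ (𝒜.erase A).biUnion id ⊆ H := by
      intro x hx
      simp only [hH, hW, mem_sdiff, mem_union, mem_biUnion, mem_erase, id] at hx ⊢
      refine ⟨⟨hx.1.1, fun hb => hx.1.2 (Or.inl hb)⟩, ?_⟩
      rintro ⟨A', hA'', hxA'⟩
      by_cases hAA' : A' = A
      · exact hx.1.2 (Or.inr (hAA' ▸ hxA'))
      · exact hx.2 ⟨A', ⟨hAA', hA''⟩, hxA'⟩
    have hg : Good adj U t s (B ∪ A) (𝒜.erase A) := by
      refine ⟨union_subset hBU (hA A hA').1, by omega, ?_, ?_, ?_⟩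
      · intro A' hA''
        rw [mem_erase] at hA''
        obtain ⟨a1, a2, a3, a4⟩ := hA A' hA''.2
        exact ⟨a1, disjoint_union_right.2 ⟨a2, (hAA A' hA''.2 A hA' hA''.1).1⟩, a3, a4⟩
      · intro A1 h1 A2 h2 h12
        exact hAA A1 (mem_of_mem_erase h1) A2 (mem_of_mem_erase h2) h12
      · have z : ec adj A H = 0 := ec_eq_zero fun x hx y hy => hno y hy x hx
        have e1 : ec adj (B ∪ A) ((U \ (B ∪ A)) \ (𝒜.erase A).biUnion id) ≤ ec adj B H :=
          (ec_mono Subset.rfl hsub).trans ((ec_union_left _ _ _).trans (by omega))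
        have := Nat.mul_le_mul_left (4 * t) e1
        omega
    have := hmax' _ _ hg ((card_erase_le).trans hcard)
    rw [hcu, add_mul] at this
    have h3 : h + 1 ≤ A.card * (h + 1) := Nat.le_mul_of_pos_left _ hApos
    omega
  -- `H` is an expander
  have hHexp : ∀ X ⊆ H, X.Nonempty → 2 * X.card ≤ H.card →
      X.card < 4 * t * ec adj X (H \ X) := by
    intro X hX hXne hX2
    by_contra hno
    push Not at hno
    have hXB : Disjoint B X := (disjoint_of_subset_left hX hHB).symm
    have hcu : (B ∪ X).card = B.card + X.card := card_union_of_disjoint hXB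
    have hXpos := hXne.card_pos
    have hsub : (U \ (B ∪ X)) \ 𝒜.biUnion id ⊆ H \ X := by
      intro x hx
      simp only [hH, hW, mem_sdiff, mem_union] at hx ⊢
      exact ⟨⟨⟨hx.1.1, fun hb => hx.1.2 (Or.inl hb)⟩, hx.2⟩, fun hb => hx.1.2 (Or.inr hb)⟩
    have hg : Good adj U t s (B ∪ X) 𝒜 := by
      refine ⟨union_subset hBU (hX.trans hHU), by omega, ?_, hAA, ?_⟩
      · intro A' hA''
        obtain ⟨a1, a2, a3, a4⟩ := hA A' hA''
        exact ⟨a1, disjoint_union_right.2 ⟨a2, (disjoint_of_subset_left hX (hHA A' hA'')).symm⟩,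
          a3, a4⟩
      · have e1 : ec adj (B ∪ X) ((U \ (B ∪ X)) \ 𝒜.biUnion id)
            ≤ ec adj B H + ec adj X (H \ X) :=
          (ec_mono Subset.rfl hsub).trans ((ec_union_left _ _ _).trans
            (Nat.add_le_add_right (ec_mono Subset.rfl sdiff_subset) _))
        have := Nat.mul_le_mul_left (4 * t) e1
        rw [mul_add] at this
        omega
    have := hmax' _ _ hg hcard
    rw [hcu, add_mul] at this
    have h3 : h + 1 ≤ X.card * (h + 1) := Nat.le_mul_of_pos_left _ hXpos
    omega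
  have hHne : H.Nonempty := by
    rw [← card_pos]
    have h1 : (U \ B).card + B.card = U.card := card_sdiff_add_card_eq_card hBU
    have h2 : (U \ B).card ≤ H.card + W.card := by
      rw [hH]; exact le_trans (card_le_card (by
        intro x hx
        by_cases hxW : x ∈ W
        · exact mem_union_right _ hxW
        · exact mem_union_left _ (mem_sdiff.2 ⟨hx, hxW⟩))) (card_union_le _ _)
    omega
  obtain ⟨x₀, hx₀⟩ := hHne
  have hpath : ∀ A ∈ 𝒜, ∃ P : Finset V, P ⊆ H ∧ x₀ ∈ P ∧ Conn adj P ∧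
      P.card ≤ 2 * (4 * t * d * k + 1) ∧ ∃ y ∈ P, ∃ x ∈ A, adj x y := by
    intro A hA'
    obtain ⟨y, hy, x, hx, hxy⟩ := hsee A hA'
    obtain ⟨P, p1, p2, p3, p4, p5⟩ :=
      short_path hs hd (lt_of_le_of_lt hHcard hk) hHexp hx₀ hy
    exact ⟨P, p1, p2, p4, p5, y, p3, x, hx, hxy⟩
  choose! P hP using hpath
  set N : Finset V := insert x₀ (𝒜.biUnion P) with hN
  have hNH : N ⊆ H := insert_subset hx₀ (biUnion_subset.2 fun A hA' => (hP A hA').1)
  have hNconn : Conn adj N := by
    refine conn_of_root hs (mem_insert_self _ _) fun y hy => ?_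
    rcases mem_insert.1 hy with hy | hy
    · rw [hy]
    · obtain ⟨A, hA', hyA⟩ := mem_biUnion.1 hy
      refine rtg_mono ?_ ((hP A hA').2.2.1.2 x₀ (hP A hA').2.1 y hyA)
      exact (subset_biUnion_of_mem P hA').trans (subset_insert _ _)
  have hNcard : N.card ≤ s := by
    refine (card_insert_le _ _).trans ?_
    have : (𝒜.biUnion P).card ≤ h * (2 * (4 * t * d * k + 1)) := by
      refine card_biUnion_le.trans ?_
      calc _ ≤ ∑ _A ∈ 𝒜, 2 * (4 * t * d * k + 1) := sum_le_sum fun A hA' => (hP A hA').2.2.2.1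
        _ = 𝒜.card * (2 * (4 * t * d * k + 1)) := by simp
        _ ≤ _ := Nat.mul_le_mul_right _ hcard
    omega
  have hNA : ∀ A ∈ 𝒜, Disjoint N A := fun A hA' => disjoint_of_subset_left hNH (hHA A hA')
  have hNnot : N ∉ 𝒜 := by
    intro hN'
    have := hNA N hN'
    rw [disjoint_self] at this
    exact hNconn.1.ne_empty this
  have hadj : ∀ A ∈ 𝒜, ∃ x ∈ A, ∃ y ∈ N, adj x y := by
    intro A hA'
    obtain ⟨y, hy, x, hx, hxy⟩ := (hP A hA').2.2.2.2
    exact ⟨x, hx, y, mem_insert_of_mem (mem_biUnion.2 ⟨A, hA', hy⟩), hxy⟩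
  have hg : Good adj U t s B (insert N 𝒜) := by
    refine ⟨hBU, hB34, ?_, ?_, ?_⟩
    · intro A hA'
      rcases mem_insert.1 hA' with rfl | hA'
      · exact ⟨hNH.trans hHU, disjoint_of_subset_left hNH hHB, hNconn, hNcard⟩
      · exact hA A hA'
    · intro A1 h1 A2 h2 h12
      rcases mem_insert.1 h1 with rfl | h1
      · rcases mem_insert.1 h2 with rfl | h2
        · exact absurd rfl h12
        · obtain ⟨x, hx, y, hy, hxy⟩ := hadj A2 h2
          exact ⟨hNA A2 h2, y, hy, x, hx, hs hxy⟩
      · rcases mem_insert.1 h2 with rfl | h2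
        · exact ⟨(hNA A1 h1).symm, hadj A1 h1⟩
        · exact hAA A1 h1 A2 h2 h12
    · refine le_trans (Nat.mul_le_mul_left _ (ec_mono Subset.rfl ?_)) hBe
      exact sdiff_subset_sdiff Subset.rfl (biUnion_subset_biUnion_of_subset_left _
        (subset_insert _ _))
  have := hmax' _ _ hg (by rw [card_insert_of_notMem hNnot]; omega)
  rw [card_insert_of_notMem hNnot] at this
  omega

end basic

lemma poly_le_exp (C : ℕ) : ∃ L₀ : ℕ, ∀ L ≥ L₀, C * (L + 1) ^ 5 ≤ 2 ^ L := by
  have h := tendsto_pow_const_div_const_pow_of_one_lt 5 (show (1 : ℝ) < 2 by norm_num)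
  have hpos : (0 : ℝ) < 1 / (2 * (C + 1)) := by positivity
  obtain ⟨L₀, hL₀⟩ := Filter.eventually_atTop.1 (h.eventually (gt_mem_nhds hpos))
  refine ⟨L₀, fun L hL => ?_⟩
  have h1 := hL₀ (L + 1) (by omega)
  rw [div_lt_div_iff₀ (by positivity) (by positivity), pow_succ (2 : ℝ) L] at h1
  have h2 : ((C * (L + 1) ^ 5 : ℕ) : ℝ) ≤ ((2 ^ L : ℕ) : ℝ) := by
    push_cast at h1 ⊢
    have : (0 : ℝ) ≤ ((L : ℝ) + 1) ^ 5 := by positivity
    nlinarith
  exact_mod_cast h2

/-- minor-free bounded-degree graphs have sparse cuts -/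
lemma sparse_cut (d h : ℕ) : ∃ L₀ : ℕ, ∀ (V : Type) [Fintype V] [DecidableEq V]
    (adj : V → V → Prop), (∀ ⦃a b : V⦄, adj a b → adj b a) → (∀ x, {y | adj x y}.ncard ≤ d) →
    (¬ ∃ A : Fin h → Finset V, (∀ i, Conn adj (A i)) ∧
      ∀ i j, i ≠ j → Disjoint (A i) (A j) ∧ ∃ x ∈ A i, ∃ y ∈ A j, adj x y) →
    ∀ U : Finset V, L₀ ≤ Nat.log 2 U.card → U.Nonempty →
      ∃ X ⊆ U, X.Nonempty ∧ 2 * X.card ≤ U.card ∧
        (Nat.log 2 U.card) ^ 2 * ec adj X (U \ X) ≤ X.card := by
  obtain ⟨L₀, hL₀⟩ := poly_le_exp (48 * (d + 1) * ((h + 1) * (1 + h * (2 * (4 * d + 1)))))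
  refine ⟨L₀, fun V _ _ adj hs hd hno U hL hU => ?_⟩
  by_contra hcon
  push Not at hcon
  set L := Nat.log 2 U.card with hLdef
  have hk : U.card < 2 ^ (L + 1) := Nat.lt_pow_succ_log_self (by norm_num) _
  have hle : 2 ^ L ≤ U.card := Nat.pow_log_le_self 2 hU.card_pos.ne'
  have hbig : 48 * (L ^ 2 * d + 1) * ((h + 1) * (1 + h * (2 * (4 * L ^ 2 * d * (L + 1) + 1))))
      ≤ U.card := by
    refine le_trans ?_ ((hL₀ L hL).trans hle)
    have a1 : L ^ 2 ≤ (L + 1) ^ 2 := Nat.pow_le_pow_left (Nat.le_succ L) 2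
    have a0 : 1 ≤ (L + 1) ^ 2 := Nat.one_le_pow _ _ (Nat.succ_pos L)
    have a3 : 1 ≤ (L + 1) ^ 3 := Nat.one_le_pow _ _ (Nat.succ_pos L)
    have a2 : L ^ 2 * d + 1 ≤ (d + 1) * (L + 1) ^ 2 := by
      have := Nat.mul_le_mul_right d a1
      nlinarith
    have a4 : 4 * L ^ 2 * d * (L + 1) + 1 ≤ (4 * d + 1) * (L + 1) ^ 3 := by
      have := Nat.mul_le_mul_right (4 * d * (L + 1)) a1
      nlinarith
    have a5 : 1 + h * (2 * (4 * L ^ 2 * d * (L + 1) + 1))
        ≤ (1 + h * (2 * (4 * d + 1))) * (L + 1) ^ 3 := by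
      have := Nat.mul_le_mul_left (h * 2) a4
      nlinarith
    calc _ ≤ 48 * ((d + 1) * (L + 1) ^ 2) *
          ((h + 1) * ((1 + h * (2 * (4 * d + 1))) * (L + 1) ^ 3)) := by gcongr
      _ = _ := by ring
  obtain ⟨𝒜, h1, h2, h3⟩ := minor_of_expander (t := L ^ 2) (k := L + 1) hs hd hk rfl hbig
    (fun X hX hne h2 => hcon X hX hne h2)
  obtain ⟨𝒜', hsub, hc⟩ := exists_subset_card_eq h1
  apply hno
  let e := (𝒜'.equivFinOfCardEq hc).symm
  refine ⟨fun i => (e i : Finset V), fun i => h2 _ (hsub (e i).2), fun i j hij => ?_⟩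
  refine h3 _ (hsub (e i).2) _ (hsub (e j).2) fun hh => hij ?_
  exact e.injective (Subtype.ext hh)

/-- Bounded-degree graphs without a `K_h` minor split into bounded pieces after cutting few
edges. -/
theorem partition' (d h : ℕ) (ε : ℝ) (hε : 0 < ε) : ∃ K : ℕ, ∀ (V : Type) [Fintype V]
    [DecidableEq V] (adj : V → V → Prop), (∀ ⦃a b : V⦄, adj a b → adj b a) →
    (∀ x, {y | adj x y}.ncard ≤ d) →
    (¬ ∃ A : Fin h → Finset V, (∀ i, Conn adj (A i)) ∧
      ∀ i j, i ≠ j → Disjoint (A i) (A j) ∧ ∃ x ∈ A i, ∃ y ∈ A j, adj x y) →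
    ∃ part : V → ℕ, (∀ k, {x | part x = k}.ncard ≤ K) ∧
      ({p : V × V | adj p.1 p.2 ∧ part p.1 ≠ part p.2}.ncard : ℝ) ≤ ε * Fintype.card V := by
  classical
  obtain ⟨L₁, hL₁⟩ := sparse_cut d h
  obtain ⟨L₂, hL₂⟩ := exists_nat_ge (2 / ε)
  set L₀ := L₁ + L₂ + 1 with hL₀
  have hL₀pos : (0 : ℝ) < L₀ := by rw [hL₀]; positivity
  have hεL : 2 / (L₀ : ℝ) ≤ ε := by
    rw [div_le_iff₀ hL₀pos]
    rw [div_le_iff₀ hε] at hL₂
    have : (L₂ : ℝ) ≤ L₀ := by rw [hL₀]; push_cast; linarith [Nat.cast_nonneg (α := ℝ) L₁]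
    nlinarith
  refine ⟨2 ^ (L₀ + 1), fun V _ _ adj hs hd hno => ?_⟩
  have key : ∀ n, ∀ U : Finset V, U.card = n → ∃ part : V → ℕ,
      (∀ k, (U.filter fun x => part x = k).card ≤ 2 ^ (L₀ + 1)) ∧
      (((U ×ˢ U).filter fun p => adj p.1 p.2 ∧ part p.1 ≠ part p.2).card : ℝ)
        ≤ U.card * (ε - 2 / (max (Nat.log 2 U.card) L₀ : ℕ)) := by
    intro n
    induction n using Nat.strong_induction_on with
    | _ n ih =>
      intro U hU
      by_cases hsmall : U.card ≤ 2 ^ (L₀ + 1)
      · refine ⟨fun _ => 0, fun k => (card_filter_le _ _).trans hsmall, ?_⟩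
        simp only [ne_eq, not_true_eq_false, and_false, filter_false, card_empty, Nat.cast_zero]
        apply mul_nonneg (Nat.cast_nonneg _)
        have : 2 / ((max (Nat.log 2 U.card) L₀ : ℕ) : ℝ) ≤ 2 / (L₀ : ℝ) := by
          apply div_le_div_of_nonneg_left (by norm_num) hL₀pos
          exact_mod_cast le_max_right _ _
        linarith
      · push Not at hsmall
        set L := Nat.log 2 U.card with hLdef
        have hL : L₀ + 1 ≤ L := Nat.le_log_of_pow_le (by norm_num) hsmall.le
        have hUne : U.Nonempty := by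
          rw [← card_pos]; exact lt_of_le_of_lt (Nat.zero_le _) hsmall
        obtain ⟨X, hXU, hXne, hX2, hXe⟩ := hL₁ V adj hs hd hno U (by omega) hUne
        rw [← hLdef] at hXe
        have hXpos := hXne.card_pos
        have hc : (U \ X).card + X.card = U.card := card_sdiff_add_card_eq_card hXU
        obtain ⟨p₁, hp₁, hq₁⟩ := ih X.card (by omega) X rfl
        obtain ⟨p₂, hp₂, hq₂⟩ := ih (U \ X).card (by omega) (U \ X) rfl
        refine ⟨fun x => if x ∈ X then 2 * p₁ x else 2 * p₂ x + 1, fun k => ?_, ?_⟩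
        · rcases Nat.even_or_odd' k with ⟨j, rfl | rfl⟩
          · refine le_trans (card_le_card ?_) (hp₁ j)
            intro x hx
            simp only [mem_filter] at hx ⊢
            by_cases hxX : x ∈ X
            · rw [if_pos hxX] at hx; exact ⟨hxX, by omega⟩
            · rw [if_neg hxX] at hx; omega
          · refine le_trans (card_le_card ?_) (hp₂ j)
            intro x hx
            simp only [mem_filter, mem_sdiff] at hx ⊢
            by_cases hxX : x ∈ X
            · rw [if_pos hxX] at hx; omega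
            · rw [if_neg hxX] at hx; exact ⟨⟨hx.1, hxX⟩, by omega⟩
        · have hsub : ((U ×ˢ U).filter fun p => adj p.1 p.2 ∧
              (if p.1 ∈ X then 2 * p₁ p.1 else 2 * p₂ p.1 + 1) ≠
                (if p.2 ∈ X then 2 * p₁ p.2 else 2 * p₂ p.2 + 1)) ⊆
              (((X ×ˢ X).filter fun p => adj p.1 p.2 ∧ p₁ p.1 ≠ p₁ p.2) ∪
              (((U \ X) ×ˢ (U \ X)).filter fun p => adj p.1 p.2 ∧ p₂ p.1 ≠ p₂ p.2)) ∪
              (((X ×ˢ (U \ X)).filter fun p => adj p.1 p.2) ∪
              (((U \ X) ×ˢ X).filter fun p => adj p.1 p.2)) := by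
            intro p hp
            simp only [mem_filter, mem_product, mem_union, mem_sdiff] at hp ⊢
            obtain ⟨⟨h1, h2⟩, h3, h4⟩ := hp
            by_cases a1 : p.1 ∈ X <;> by_cases a2 : p.2 ∈ X
            · rw [if_pos a1, if_pos a2] at h4
              exact Or.inl (Or.inl ⟨⟨a1, a2⟩, h3, fun hh => h4 (by rw [hh])⟩)
            · exact Or.inr (Or.inl ⟨⟨a1, h2, a2⟩, h3⟩)
            · exact Or.inr (Or.inr ⟨⟨⟨h1, a1⟩, a2⟩, h3⟩)
            · rw [if_neg a1, if_neg a2] at h4
              exact Or.inl (Or.inr ⟨⟨⟨h1, a1⟩, h2, a2⟩, h3, fun hh => h4 (by rw [hh])⟩)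
          have hcard := (card_le_card hsub).trans ((card_union_le _ _).trans
            (Nat.add_le_add (card_union_le _ _) (card_union_le _ _)))
          have e1 : ((X ×ˢ (U \ X)).filter fun p => adj p.1 p.2).card = ec adj X (U \ X) := by
            unfold ec; congr
          have e2 : (((U \ X) ×ˢ X).filter fun p => adj p.1 p.2).card = ec adj X (U \ X) := by
            rw [← ec_comm hs]; unfold ec; congr
          rw [e1, e2] at hcard
          have hcardR := (Nat.cast_le (α := ℝ)).2 hcard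
          push_cast at hcardR
          have hmax : max L L₀ = L := max_eq_left (by omega)
          rw [hmax]
          have hLX : Nat.log 2 X.card + 1 ≤ L := by
            have h1 : Nat.log 2 (X.card * 2) = Nat.log 2 X.card + 1 :=
              Nat.log_mul_base (by norm_num) hXpos.ne'
            have h2 : Nat.log 2 (X.card * 2) ≤ L := Nat.log_mono_right (by omega)
            omega
          have hLY : Nat.log 2 (U \ X).card ≤ L := Nat.log_mono_right (by omega)
          have hL2 : (2 : ℝ) ≤ L := by exact_mod_cast (show 2 ≤ L by omega)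
          have b1 : 2 / ((L : ℝ) - 1) ≤ 2 / ((max (Nat.log 2 X.card) L₀ : ℕ) : ℝ) := by
            apply div_le_div_of_nonneg_left (by norm_num)
            · exact lt_of_lt_of_le hL₀pos (by exact_mod_cast le_max_right _ _)
            · have : max (Nat.log 2 X.card) L₀ + 1 ≤ L := by omega
              have := (Nat.cast_le (α := ℝ)).2 this
              push_cast at this ⊢
              linarith
          have b2 : 2 / (L : ℝ) ≤ 2 / ((max (Nat.log 2 (U \ X).card) L₀ : ℕ) : ℝ) := by
            apply div_le_div_of_nonneg_left (by norm_num)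
            · exact lt_of_lt_of_le hL₀pos (by exact_mod_cast le_max_right _ _)
            · exact_mod_cast (show max (Nat.log 2 (U \ X).card) L₀ ≤ L by omega)
          have b3 : 2 * (ec adj X (U \ X) : ℝ) ≤ X.card * (2 / ((L : ℝ) - 1) - 2 / L) := by
            have hXe' : (L : ℝ) ^ 2 * ec adj X (U \ X) ≤ X.card := by exact_mod_cast hXe
            have hL1 : (0 : ℝ) < (L : ℝ) - 1 := by linarith
            have hL0 : (0 : ℝ) < L := by linarith
            have e : 2 / ((L : ℝ) - 1) - 2 / L = 2 / ((L : ℝ) * (L - 1)) := by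
              field_simp; ring
            rw [e, mul_div_assoc', le_div_iff₀ (by positivity)]
            have : (0 : ℝ) ≤ ec adj X (U \ X) := Nat.cast_nonneg _
            nlinarith
          have hcR : ((U \ X).card : ℝ) + X.card = U.card := by exact_mod_cast hc
          have c1 := mul_le_mul_of_nonneg_left b1 (Nat.cast_nonneg (α := ℝ) X.card)
          have c2 := mul_le_mul_of_nonneg_left b2 (Nat.cast_nonneg (α := ℝ) (U \ X).card)
          rw [← hcR]
          rw [mul_sub] at hq₁ hq₂ b3
          rw [add_mul, mul_sub, mul_sub]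
          linarith
  obtain ⟨part, h1, h2⟩ := key _ univ rfl
  refine ⟨part, fun k => ?_, ?_⟩
  · have := h1 k
    rwa [show {x | part x = k} = ((univ.filter fun x => part x = k : Finset V) : Set V) by
      ext x; simp, Set.ncard_coe_finset]
  · rw [show {p : V × V | adj p.1 p.2 ∧ part p.1 ≠ part p.2} =
      (((univ ×ˢ univ).filter fun p => adj p.1 p.2 ∧ part p.1 ≠ part p.2 : Finset (V × V)) :
        Set (V × V)) by ext p; simp, Set.ncard_coe_finset]
    refine h2.trans ?_
    rw [card_univ, mul_comm]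
    apply mul_le_mul_of_nonneg_right _ (Nat.cast_nonneg _)
    have : (0 : ℝ) ≤ 2 / ((max (Nat.log 2 (Fintype.card V)) L₀ : ℕ) : ℝ) := by positivity
    linarith

set_option linter.deprecated false in
/-- The same statement with Mathlib's `Symmetric`. -/
theorem partition (d h : ℕ) (ε : ℝ) (hε : 0 < ε) : ∃ K : ℕ, ∀ (V : Type) [Fintype V]
    [DecidableEq V] (adj : V → V → Prop), Symmetric adj →
    (∀ x, {y | adj x y}.ncard ≤ d) →
    (¬ ∃ A : Fin h → Finset V, (∀ i, Conn adj (A i)) ∧
      ∀ i j, i ≠ j → Disjoint (A i) (A j) ∧ ∃ x ∈ A i, ∃ y ∈ A j, adj x y) →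
    ∃ part : V → ℕ, (∀ k, {x | part x = k}.ncard ≤ K) ∧
      ({p : V × V | adj p.1 p.2 ∧ part p.1 ≠ part p.2}.ncard : ℝ) ≤ ε * Fintype.card V :=
  partition' d h ε hε

end Crest.Agent.H2.PRS
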