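import Mathlib

/-! Primitive recursiveness of integer and rational arithmetic for Mathlib's `Primcodable` instances. -/

set_option autoImplicit false
set_option linter.unusedVariables false

namespace Crest.Agent.H2.PRat

open Primrec Encodable

/-! ### Integers -/

theorem encode_int_ofNat (n : ℕ) : encode (n : ℤ) = 2 * n := rfl

theorem encode_int_negSucc (n : ℕ) : encode (Int.negSucc n) = 2 * n + 1 := rfl

theorem int_toNat : Primrec Int.toNat := by
  have h : Primrec fun z : ℤ => if encode z % 2 = 0 then encode z / 2 else 0 :=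
    Primrec.ite (Primrec.eq.comp (nat_mod.comp Primrec.encode (const 2)) (const 0))
      (nat_div.comp Primrec.encode (const 2)) (const 0)
  refine h.of_eq fun z => ?_
  rcases z with n | n
  · have : encode (Int.ofNat n) = 2 * n := rfl
    rw [this]; simp
  · rw [encode_int_negSucc]
    have : (2 * n + 1) % 2 ≠ 0 := by omega
    rw [if_neg this]; rfl

theorem int_negToNat : Primrec fun z : ℤ => (-z).toNat := by
  have h : Primrec fun z : ℤ => if encode z % 2 = 0 then 0 else encode z / 2 + 1 :=
    Primrec.ite (Primrec.eq.comp (nat_mod.comp Primrec.encode (const 2)) (const 0))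
      (const 0) (succ.comp (nat_div.comp Primrec.encode (const 2)))
  refine h.of_eq fun z => ?_
  rcases z with n | n
  · have : encode (Int.ofNat n) = 2 * n := rfl
    rw [this]; simp
  · rw [encode_int_negSucc]
    have : (2 * n + 1) % 2 ≠ 0 := by omega
    rw [if_neg this]
    have : (2 * n + 1) / 2 = n := by omega
    rw [this]; rfl

theorem int_subNat : Primrec₂ fun a b : ℕ => (a : ℤ) - (b : ℤ) := by
  rw [← Primrec₂.encode_iff]
  have h : Primrec₂ fun a b : ℕ => if b ≤ a then 2 * (a - b) else 2 * (b - a - 1) + 1 :=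
    Primrec.ite (nat_le.comp snd fst) (nat_double.comp (nat_sub.comp fst snd))
      (nat_double_succ.comp (nat_sub.comp (nat_sub.comp snd fst) (const 1)))
  refine h.of_eq fun a b => ?_
  split_ifs with hab
  · have : (a : ℤ) - b = ((a - b : ℕ) : ℤ) := by omega
    rw [this, encode_int_ofNat]
  · have : (a : ℤ) - b = Int.negSucc (b - a - 1) := by
      rw [Int.negSucc_eq]; omega
    rw [this, encode_int_negSucc]

theorem int_natCast : Primrec fun a : ℕ => (a : ℤ) :=
  (int_subNat.comp Primrec.id (const 0)).of_eq fun a => by simp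

theorem int_neg : Primrec fun z : ℤ => -z :=
  (int_subNat.comp int_negToNat int_toNat).of_eq fun z => by omega

theorem int_add : Primrec₂ fun x y : ℤ => x + y :=
  (int_subNat.comp (nat_add.comp (int_toNat.comp fst) (int_toNat.comp snd))
    (nat_add.comp (int_negToNat.comp fst) (int_negToNat.comp snd))).of_eq fun z => by
      push_cast; omega

theorem int_mul : Primrec₂ fun x y : ℤ => x * y :=
  (int_subNat.comp
    (nat_add.comp (nat_mul.comp (int_toNat.comp fst) (int_toNat.comp snd))
      (nat_mul.comp (int_negToNat.comp fst) (int_negToNat.comp snd)))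
    (nat_add.comp (nat_mul.comp (int_toNat.comp fst) (int_negToNat.comp snd))
      (nat_mul.comp (int_negToNat.comp fst) (int_toNat.comp snd)))).of_eq fun z => by
      obtain ⟨x, y⟩ := z
      have hx := Int.toNat_sub_toNat_neg x
      have hy := Int.toNat_sub_toNat_neg y
      push_cast
      generalize (x.toNat : ℤ) = a at *
      generalize ((-x).toNat : ℤ) = b at *
      generalize (y.toNat : ℤ) = c at *
      generalize ((-y).toNat : ℤ) = d at *
      subst hx hy; ring

theorem int_natAbs : Primrec Int.natAbs :=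
  (nat_add.comp int_toNat int_negToNat).of_eq fun z => by omega

theorem int_le : PrimrecRel fun x y : ℤ => x ≤ y :=
  (nat_le.comp (nat_add.comp (int_toNat.comp fst) (int_negToNat.comp snd))
    (nat_add.comp (int_toNat.comp snd) (int_negToNat.comp fst))).of_eq fun z => by
      omega

/-- Division of an integer by a natural number that divides it. -/
def idiv (z : ℤ) (d : ℕ) : ℤ := ((z.toNat / d : ℕ) : ℤ) - (((-z).toNat / d : ℕ) : ℤ)

theorem int_idiv : Primrec₂ idiv :=
  int_subNat.comp (nat_div.comp (int_toNat.comp fst) snd) (nat_div.comp (int_negToNat.comp fst) snd)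

theorem idiv_eq (z : ℤ) (d : ℕ) (h : (d : ℤ) ∣ z) : idiv z d = z / d := by
  obtain ⟨c, rfl⟩ := h
  rcases Nat.eq_zero_or_pos d with rfl | hd
  · simp [idiv]
  have hd' : (d : ℤ) ≠ 0 := by omega
  rw [Int.mul_ediv_cancel_left _ hd']
  unfold idiv
  rcases le_total 0 c with hc | hc
  · obtain ⟨c, rfl⟩ := Int.eq_ofNat_of_zero_le hc
    have h1 : ((d : ℤ) * c).toNat = d * c := by rw [← Nat.cast_mul, Int.toNat_natCast]
    have h2 : (-((d : ℤ) * c)).toNat = 0 := by
      rw [Int.toNat_eq_zero]; have : (0 : ℤ) ≤ d * c := by positivity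
      omega
    rw [h1, h2, Nat.mul_div_cancel_left _ hd]; simp
  · obtain ⟨e, he⟩ := Int.eq_ofNat_of_zero_le (neg_nonneg.2 hc)
    have hc' : c = -(e : ℤ) := by omega
    subst hc'
    have h1 : (-((d : ℤ) * -(e : ℤ))).toNat = d * e := by
      rw [mul_neg, neg_neg, ← Nat.cast_mul, Int.toNat_natCast]
    have h2 : ((d : ℤ) * -(e : ℤ)).toNat = 0 := by
      rw [Int.toNat_eq_zero]; have : (0 : ℤ) ≤ d * e := by positivity
      rw [mul_neg]; omega
    rw [h1, h2, Nat.mul_div_cancel_left _ hd]; simp

/-! ### gcd -/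

theorem nat_dvd : PrimrecRel fun a b : ℕ => a ∣ b :=
  (Primrec.eq.comp (nat_mod.comp snd fst) (const 0)).of_eq fun z => by
    simp [Nat.dvd_iff_mod_eq_zero]

theorem nat_gcd : Primrec₂ Nat.gcd := by
  have h : Primrec fun p : ℕ × ℕ => Nat.findGreatest (fun d => d ∣ p.1 ∧ d ∣ p.2) (p.1 + p.2) :=
    nat_findGreatest (p := fun (p : ℕ × ℕ) d => d ∣ p.1 ∧ d ∣ p.2) (nat_add.comp fst snd)
      (PrimrecPred.and (nat_dvd.comp snd (fst.comp fst)) (nat_dvd.comp snd (snd.comp fst)))
  refine h.of_eq fun ⟨a, b⟩ => ?_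
  dsimp only
  rcases Nat.eq_zero_or_pos (a + b) with h0 | h0
  · have ha : a = 0 := by omega
    have hb : b = 0 := by omega
    subst ha hb; simp
  have hg : 0 < Nat.gcd a b := by
    rw [Nat.pos_iff_ne_zero]; intro h; rw [Nat.gcd_eq_zero_iff] at h; omega
  rw [Nat.findGreatest_eq_iff]
  refine ⟨?_, fun _ => ⟨Nat.gcd_dvd_left _ _, Nat.gcd_dvd_right _ _⟩, fun n hn _ h => ?_⟩
  · exact Nat.le_of_dvd h0 (Dvd.dvd.add (Nat.gcd_dvd_left _ _) (Nat.gcd_dvd_right _ _))
  · exact absurd (Nat.le_of_dvd hg (Nat.dvd_gcd h.1 h.2)) (by omega)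

/-! ### Rationals -/

/-- The direct code of a rational. -/
def code (q : ℚ) : ℕ := Nat.pair (encode q.num) q.den

/-- Direct codes. -/
def IsCode (m : ℕ) : Prop :=
  0 < m.unpair.2 ∧ Nat.gcd (Denumerable.ofNat ℤ m.unpair.1).natAbs m.unpair.2 = 1

instance : DecidablePred IsCode := fun m => by unfold IsCode; infer_instance

theorem isCode_code (q : ℚ) : IsCode (code q) := by
  unfold IsCode code
  simp only [Nat.unpair_pair, Denumerable.ofNat_encode]
  exact ⟨q.pos, q.reduced⟩

theorem isCode_iff (m : ℕ) : IsCode m ↔ m ∈ Set.range code := by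
  constructor
  · rintro ⟨h1, h2⟩
    refine ⟨⟨Denumerable.ofNat ℤ m.unpair.1, m.unpair.2, by omega, h2⟩, ?_⟩
    simp only [code, Denumerable.encode_ofNat, Nat.pair_unpair]
  · rintro ⟨q, rfl⟩; exact isCode_code q

theorem primrec_isCode : PrimrecPred IsCode :=
  PrimrecPred.and (nat_lt.comp (const 0) (snd.comp unpair))
    (Primrec.eq.comp (nat_gcd.comp (int_natAbs.comp ((Primrec.ofNat ℤ).comp (fst.comp unpair)))
      (snd.comp unpair)) (const 1))

/-- Number of direct codes below `m`. -/
def cnt (m : ℕ) : ℕ := ((List.range m).filter (fun y => IsCode y)).length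

theorem primrec_cnt : Primrec cnt :=
  list_length.comp ((listFilter primrec_isCode).comp list_range)

/-- The code used by the `Primcodable` instance. -/
def pcode (q : ℚ) : ℕ := @encode ℚ (inferInstance : Primcodable ℚ).toEncodable q

theorem pcode_eq (q : ℚ) : pcode q = cnt (code q) := by
  have h : pcode q = (List.range (code q)).countP
      (fun y => @decide (y ∈ Set.range (@encode ℚ Rat.instEncodable))
        (@decidableRangeEncode ℚ Rat.instEncodable y)) := rfl
  rw [h, cnt, List.countP_eq_length_filter]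
  congr 1
  apply List.filter_congr
  intro y _
  have : (y ∈ Set.range (@encode ℚ Rat.instEncodable)) ↔ IsCode y := (isCode_iff y).symm
  simp only [this]

theorem cnt_eq (m : ℕ) : cnt m = ((Finset.range m).filter IsCode).card := by
  unfold cnt; rfl

theorem cnt_lt {a b : ℕ} (ha : IsCode a) (hab : a < b) : cnt a < cnt b := by
  rw [cnt_eq, cnt_eq]
  apply Finset.card_lt_card
  refine ⟨fun y hy => ?_, fun h => ?_⟩
  · simp only [Finset.mem_filter, Finset.mem_range] at hy ⊢
    exact ⟨hy.1.trans hab, hy.2⟩
  · have := h (show a ∈ _ by simp only [Finset.mem_filter, Finset.mem_range]; exact ⟨hab, ha⟩)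
    simp at this

theorem le_pair_cnt (m : ℕ) : m ≤ Nat.pair (cnt m) 1 := by
  by_contra h
  push Not at h
  have hsub : (Finset.range (cnt m + 1)).image (fun i => Nat.pair i 1) ⊆
      (Finset.range m).filter IsCode := by
    intro y hy
    simp only [Finset.mem_image, Finset.mem_range] at hy
    obtain ⟨i, hi, rfl⟩ := hy
    simp only [Finset.mem_filter, Finset.mem_range]
    refine ⟨lt_of_le_of_lt ?_ h, ?_⟩
    · rcases Nat.lt_succ_iff_lt_or_eq.1 hi with hi | hi
      · exact (Nat.pair_lt_pair_left 1 hi).le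
      · rw [hi]
    · simp [IsCode]
  have := Finset.card_le_card hsub
  rw [Finset.card_image_of_injective _ (fun i j hij => (Nat.pair_eq_pair.1 hij).1),
    Finset.card_range, ← cnt_eq] at this
  omega

theorem primrec_pcode : Primrec pcode := Primrec.encode

theorem primrec_code : Primrec code := by
  refine of_graph ⟨fun q => Nat.pair (pcode q) 1, Primrec₂.natPair.comp primrec_pcode (const 1),
    fun q => ?_⟩ ?_
  · show code q ≤ Nat.pair (pcode q) 1
    rw [pcode_eq]; exact le_pair_cnt _
  · refine (PrimrecPred.and (primrec_isCode.comp snd)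
      (Primrec.eq.comp (primrec_cnt.comp snd) (primrec_pcode.comp fst))).of_eq fun ⟨q, m⟩ => ?_
    dsimp only
    rw [pcode_eq]
    constructor
    · rintro ⟨h1, h2⟩
      rcases lt_trichotomy (code q) m with h | h | h
      · exact absurd (cnt_lt (isCode_code q) h) (by omega)
      · exact h
      · exact absurd (cnt_lt h1 h) (by omega)
    · rintro rfl; exact ⟨isCode_code q, rfl⟩

theorem rat_num : Primrec Rat.num :=
  ((Primrec.ofNat ℤ).comp (fst.comp (unpair.comp primrec_code))).of_eq fun q => by
    simp only [code, Nat.unpair_pair, Denumerable.ofNat_encode]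

theorem rat_den : Primrec Rat.den :=
  (snd.comp (unpair.comp primrec_code)).of_eq fun q => by simp [code]

theorem rat_of_num_den {α : Type*} [Primcodable α] {f : α → ℚ} (h1 : Primrec fun a => (f a).num)
    (h2 : Primrec fun a => (f a).den) : Primrec f := by
  rw [← Primrec.encode_iff]
  have : Primrec fun a => cnt (Nat.pair (encode (f a).num) (f a).den) :=
    primrec_cnt.comp (Primrec₂.natPair.comp (Primrec.encode.comp h1) h2)
  exact this.of_eq fun a => (pcode_eq (f a)).symm

theorem rat_mkRat : Primrec₂ mkRat := by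
  have hg : Primrec fun p : ℤ × ℕ => Nat.gcd p.2 p.1.natAbs := nat_gcd.comp snd (int_natAbs.comp fst)
  apply rat_of_num_den
  · refine (Primrec.ite (Primrec.eq.comp snd (const 0)) (const (0 : ℤ))
      (int_idiv.comp fst hg)).of_eq fun ⟨z, d⟩ => ?_
    dsimp only
    rw [Rat.num_mkRat]
    split_ifs with h
    · rfl
    · apply idiv_eq
      exact Int.natCast_dvd.2 (Nat.gcd_dvd_right _ _)
  · refine (Primrec.ite (Primrec.eq.comp snd (const 0)) (const (1 : ℕ))
      (nat_div.comp snd hg)).of_eq fun ⟨z, d⟩ => ?_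
    dsimp only
    rw [Rat.den_mkRat]

theorem rat_add : Primrec₂ fun x y : ℚ => x + y :=
  (rat_mkRat.comp
    (int_add.comp (int_mul.comp (rat_num.comp fst) (int_natCast.comp (rat_den.comp snd)))
      (int_mul.comp (rat_num.comp snd) (int_natCast.comp (rat_den.comp fst))))
    (nat_mul.comp (rat_den.comp fst) (rat_den.comp snd))).of_eq fun z => (Rat.add_def' _ _).symm

theorem rat_mul : Primrec₂ fun x y : ℚ => x * y :=
  (rat_mkRat.comp (int_mul.comp (rat_num.comp fst) (rat_num.comp snd))
    (nat_mul.comp (rat_den.comp fst) (rat_den.comp snd))).of_eq fun z => (Rat.mul_def' _ _).symm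

theorem rat_intCast : Primrec fun z : ℤ => (z : ℚ) :=
  (rat_mkRat.comp Primrec.id (const 1)).of_eq fun z => by simp [Rat.mkRat_one]

theorem rat_natCast : Primrec fun n : ℕ => (n : ℚ) :=
  (rat_intCast.comp int_natCast).of_eq fun z => by simp

theorem rat_neg : Primrec fun x : ℚ => -x :=
  (rat_mul.comp (const (-1)) Primrec.id).of_eq fun z => by simp

theorem rat_sub : Primrec₂ fun x y : ℚ => x - y :=
  (rat_add.comp fst (rat_neg.comp snd)).of_eq fun z => (sub_eq_add_neg _ _).symm

theorem rat_invNat : Primrec fun n : ℕ => (n : ℚ)⁻¹ :=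
  (rat_mkRat.comp (const 1) Primrec.id).of_eq fun n => by
    simp [Rat.mkRat_eq_div]

theorem rat_nonneg : PrimrecPred fun x : ℚ => 0 ≤ x :=
  (int_le.comp (const 0) rat_num).of_eq fun x => Rat.num_nonneg

theorem rat_le : PrimrecRel fun x y : ℚ => x ≤ y :=
  (rat_nonneg.comp (rat_sub.comp snd fst)).of_eq fun z => sub_nonneg

theorem rat_list_sum : Primrec fun l : List ℚ => l.sum :=
  (list_foldr (f := fun l : List ℚ => l) (g := fun _ => (0 : ℚ)) (h := fun _ p => p.1 + p.2)
    Primrec.id (const 0) (rat_add.comp (fst.comp snd) (snd.comp snd))).of_eq fun l => by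
      induction l with
      | nil => rfl
      | cons a l ih => simp [← ih]

theorem nat_pow : Primrec₂ fun a b : ℕ => a ^ b := Primrec₂.unpaired'.1 Nat.Primrec.pow

end Crest.Agent.H2.PRat
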